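import Mathlib.Algebra.Order.Star.Real
import Mathlib.Analysis.SpecialFunctions.Artanh
import Mathlib.Analysis.SpecialFunctions.Trigonometric.DerivHyp
import Vale.Agent.Lib.P219.Ri.Topo

/-!
# P219 rigidity, curvature `-1`: the Poincaré ball

`pmap w = tanh (‖w‖/2) w/‖w‖` is a homeomorphism of `ℝ^n` onto the open unit ball with inverse
`plog z = 2 artanh ‖z‖ z/‖z‖`.

`eq_of_frontier_tanh`: let `D' = pmap '' D`.  `D'` is open (`D' = ball 0 1 ∩ plog ⁻¹' D`,
`ContinuousOn.isOpen_inter_preimage`), bounded, nonempty, and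
`frontier D' = closure D' \ D' ⊆ pmap '' (closure D) \ pmap '' D = pmap '' frontier D` (compactness)
is contained in the Euclidean sphere with centre `(T/2) ν` and radius `T/2`
(`‖z‖² = T ⟨ν, z⟩`), so `D'` is the Euclidean ball (`eq_ball_of_frontier`).
-/

open scoped ContDiff

namespace Vale.Agent.Lib.P219

open Set Filter Topology

/-- normal coordinates to the Poincaré ball (curvature `-1`) -/
noncomputable def pmap {n : ℕ} (w : Ev n) : Ev n := (Real.tanh (‖w‖ / 2) / ‖w‖) • w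

/-- the Poincaré ball (curvature `-1`) to normal coordinates -/
noncomputable def plog {n : ℕ} (z : Ev n) : Ev n := (2 * Real.artanh ‖z‖ / ‖z‖) • z

variable {n : ℕ}

private theorem tanh_nn {r : ℝ} (hr : 0 ≤ r) : 0 ≤ Real.tanh r := by
  rw [Real.tanh_eq_sinh_div_cosh]
  exact div_nonneg (Real.sinh_nonneg_iff.mpr hr) (Real.cosh_pos r).le

private theorem tanh_ps {r : ℝ} (hr : 0 < r) : 0 < Real.tanh r := by
  rw [Real.tanh_eq_sinh_div_cosh]
  exact div_pos (Real.sinh_pos_iff.mpr hr) (Real.cosh_pos r)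

private theorem cont_tanh : Continuous Real.tanh := by
  have h : Real.tanh = fun r => Real.sinh r / Real.cosh r := by
    funext r
    exact Real.tanh_eq_sinh_div_cosh r
  rw [h]
  exact Real.continuous_sinh.div Real.continuous_cosh fun r => (Real.cosh_pos r).ne'

private theorem pmap_zero : pmap (0 : Ev n) = 0 := by
  simp [pmap]

private theorem plog_zero : plog (0 : Ev n) = 0 := by
  simp [plog]

theorem norm_pmap (w : Ev n) : ‖pmap w‖ = Real.tanh (‖w‖ / 2) := by
  by_cases hw : w = 0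
  · rw [hw, pmap_zero, norm_zero, zero_div, Real.tanh_zero]
  · have h0 : 0 < ‖w‖ := norm_pos_iff.mpr hw
    have h1 : 0 ≤ Real.tanh (‖w‖ / 2) := tanh_nn (by positivity)
    rw [pmap, norm_smul, Real.norm_eq_abs, abs_of_nonneg (by positivity)]
    field_simp

theorem norm_plog {z : Ev n} (hz : ‖z‖ < 1) : ‖plog z‖ = 2 * Real.artanh ‖z‖ := by
  by_cases hw : z = 0
  · rw [hw, plog_zero, norm_zero, Real.artanh_zero, mul_zero]
  · have h0 : 0 < ‖z‖ := norm_pos_iff.mpr hw
    have h1 : 0 ≤ Real.artanh ‖z‖ := Real.artanh_nonneg h0.le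
    rw [plog, norm_smul, Real.norm_eq_abs, abs_of_nonneg (by positivity)]
    field_simp

theorem plog_pmap (w : Ev n) : plog (pmap w) = w := by
  by_cases hw : w = 0
  · rw [hw, pmap_zero, plog_zero]
  · have h0 : 0 < ‖w‖ := norm_pos_iff.mpr hw
    have h1 : 0 < Real.tanh (‖w‖ / 2) := tanh_ps (by positivity)
    rw [plog, norm_pmap, Real.artanh_tanh, pmap, smul_smul]
    have e : 2 * (‖w‖ / 2) / Real.tanh (‖w‖ / 2) * (Real.tanh (‖w‖ / 2) / ‖w‖) = 1 := by
      field_simp
    rw [e, one_smul]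

theorem pmap_plog {z : Ev n} (hz : ‖z‖ < 1) : pmap (plog z) = z := by
  by_cases hw : z = 0
  · rw [hw, plog_zero, pmap_zero]
  · have h0 : 0 < ‖z‖ := norm_pos_iff.mpr hw
    have h1 : 0 < Real.artanh ‖z‖ := Real.artanh_pos ⟨h0, hz⟩
    have h2 : 2 * Real.artanh ‖z‖ / 2 = Real.artanh ‖z‖ := by ring
    rw [pmap, norm_plog hz, h2, Real.tanh_artanh ⟨by linarith, hz⟩, plog, smul_smul]
    have e : ‖z‖ / (2 * Real.artanh ‖z‖) * (2 * Real.artanh ‖z‖ / ‖z‖) = 1 := by
      field_simp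
    rw [e, one_smul]

theorem pmap_cont : Continuous (pmap : Ev n → Ev n) := by
  rw [continuous_iff_continuousAt]
  intro w
  by_cases hw : w = 0
  · subst hw
    rw [ContinuousAt, pmap_zero, tendsto_zero_iff_norm_tendsto_zero]
    have h : Tendsto (fun w : Ev n => Real.tanh (‖w‖ / 2)) (𝓝 0) (𝓝 (Real.tanh (‖(0 : Ev n)‖ / 2))) :=
      (cont_tanh.comp (continuous_norm.div_const 2)).tendsto 0
    rw [norm_zero, zero_div, Real.tanh_zero] at h
    refine h.congr fun w => (norm_pmap w).symm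
  · have h0 : ‖w‖ ≠ 0 := (norm_pos_iff.mpr hw).ne'
    have h1 : ContinuousAt (fun w : Ev n => Real.tanh (‖w‖ / 2) / ‖w‖) w :=
      ((cont_tanh.comp (continuous_norm.div_const 2)).continuousAt).div
        continuous_norm.continuousAt h0
    exact h1.smul continuousAt_id

theorem plog_contOn : ContinuousOn (plog : Ev n → Ev n) (Metric.ball 0 1) := by
  intro z hz
  rw [Metric.mem_ball, dist_zero_right] at hz
  have hart : ContinuousAt (fun z : Ev n => Real.artanh ‖z‖) z := by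
    have h1 : ContinuousAt (fun z : Ev n => (1 + ‖z‖) / (1 - ‖z‖)) z :=
      ((continuous_const.add continuous_norm).continuousAt).div
        ((continuous_const.sub continuous_norm).continuousAt) (by linarith)
    have h2 : ContinuousAt (fun z : Ev n => Real.sqrt ((1 + ‖z‖) / (1 - ‖z‖))) z :=
      Real.continuous_sqrt.continuousAt.comp h1
    have h3 : 0 < (1 + ‖z‖) / (1 - ‖z‖) := div_pos (by positivity) (by linarith)
    exact h2.log (Real.sqrt_pos.mpr h3).ne'
  refine ContinuousAt.continuousWithinAt ?_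
  by_cases hw : z = 0
  · subst hw
    rw [ContinuousAt, plog_zero, tendsto_zero_iff_norm_tendsto_zero]
    have h : Tendsto (fun z : Ev n => 2 * Real.artanh ‖z‖) (𝓝 0)
        (𝓝 (2 * Real.artanh ‖(0 : Ev n)‖)) := (continuousAt_const.mul hart)
    rw [norm_zero, Real.artanh_zero, mul_zero] at h
    refine h.congr' ?_
    filter_upwards [Metric.ball_mem_nhds (0 : Ev n) one_pos] with w hw
    rw [Metric.mem_ball, dist_zero_right] at hw
    exact (norm_plog hw).symm
  · have h0 : ‖z‖ ≠ 0 := (norm_pos_iff.mpr hw).ne'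
    have h1 : ContinuousAt (fun z : Ev n => 2 * Real.artanh ‖z‖ / ‖z‖) z :=
      (continuousAt_const.mul hart).div continuous_norm.continuousAt h0
    exact h1.smul continuousAt_id

private theorem lt_iff_pmap {T : ℝ} (ν w : Ev n) :
    ‖pmap w‖ ^ 2 < T * inner ℝ ν (pmap w) ↔
      Real.tanh (‖w‖ / 2) * ‖w‖ < T * inner ℝ ν w := by
  by_cases hw : w = 0
  · rw [hw, pmap_zero]
    simp
  · have h0 : 0 < ‖w‖ := norm_pos_iff.mpr hw
    have h1 : 0 < Real.tanh (‖w‖ / 2) := tanh_ps (by positivity)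
    rw [norm_pmap, pmap, inner_smul_right]
    set t := Real.tanh (‖w‖ / 2) with ht
    have e1 : t ^ 2 = (t / ‖w‖) * (t * ‖w‖) := by field_simp
    have e2 : T * (t / ‖w‖ * inner ℝ ν w) = (t / ‖w‖) * (T * inner ℝ ν w) := by ring
    rw [e1, e2]
    exact mul_lt_mul_iff_right₀ (by positivity)

private theorem eq_iff_pmap {T : ℝ} (ν w : Ev n)
    (h : Real.tanh (‖w‖ / 2) * ‖w‖ = T * inner ℝ ν w) :
    ‖pmap w‖ ^ 2 = T * inner ℝ ν (pmap w) := by
  by_cases hw : w = 0
  · rw [hw, pmap_zero]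
    simp
  · have h0 : 0 < ‖w‖ := norm_pos_iff.mpr hw
    rw [norm_pmap, pmap, inner_smul_right]
    have e2 : T * (Real.tanh (‖w‖ / 2) / ‖w‖ * inner ℝ ν w) =
        (Real.tanh (‖w‖ / 2) / ‖w‖) * (T * inner ℝ ν w) := by ring
    rw [e2, ← h]
    field_simp

private theorem sph {T : ℝ} {ν : Ev n} (hν : ‖ν‖ = 1) (z : Ev n) :
    ‖z - (T / 2) • ν‖ ^ 2 = ‖z‖ ^ 2 - T * inner ℝ ν z + (T / 2) ^ 2 := by
  rw [norm_sub_sq_real, inner_smul_right, norm_smul, hν, real_inner_comm, Real.norm_eq_abs, mul_one,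
    sq_abs]
  ring

theorem eq_of_frontier_tanh (hn : 2 ≤ n) {D : Set (Ev n)} (hD : IsOpen D)
    (hb : Bornology.IsBounded D) (hne : D.Nonempty) {T : ℝ} (hT : 0 < T) {ν : Ev n}
    (hν : ‖ν‖ = 1)
    (hf : ∀ w ∈ frontier D, Real.tanh (‖w‖ / 2) * ‖w‖ = T * inner ℝ ν w) :
    D = {w | Real.tanh (‖w‖ / 2) * ‖w‖ < T * inner ℝ ν w} := by
  have hsub : pmap '' D ⊆ Metric.ball (0 : Ev n) 1 := by
    rintro _ ⟨w, -, rfl⟩
    rw [Metric.mem_ball, dist_zero_right, norm_pmap]
    exact Real.tanh_lt_one _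
  have hD' : pmap '' D = Metric.ball (0 : Ev n) 1 ∩ plog ⁻¹' D := by
    ext z
    constructor
    · rintro ⟨w, hw, rfl⟩
      refine ⟨hsub ⟨w, hw, rfl⟩, ?_⟩
      rw [mem_preimage, plog_pmap]
      exact hw
    · rintro ⟨hz, hz'⟩
      rw [Metric.mem_ball, dist_zero_right] at hz
      exact ⟨plog z, hz', pmap_plog hz⟩
  have hopen : IsOpen (pmap '' D) := by
    rw [hD']
    exact plog_contOn.isOpen_inter_preimage Metric.isOpen_ball hD
  have hbd : Bornology.IsBounded (pmap '' D) := Metric.isBounded_ball.subset hsub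
  have hcomp : IsCompact (pmap '' closure D) := hb.isCompact_closure.image pmap_cont
  have hcl : closure (pmap '' D) ⊆ pmap '' closure D :=
    closure_minimal (image_mono subset_closure) hcomp.isClosed
  have hfr : frontier (pmap '' D) ⊆ Metric.sphere ((T / 2) • ν) (T / 2) := by
    intro z hz
    rw [hopen.frontier_eq] at hz
    obtain ⟨w, hw, rfl⟩ := hcl hz.1
    have hwD : w ∉ D := fun h => hz.2 ⟨w, h, rfl⟩
    have hwf : w ∈ frontier D := by
      rw [hD.frontier_eq]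
      exact ⟨hw, hwD⟩
    have h1 := eq_iff_pmap ν w (hf w hwf)
    have h2 := sph (T := T) hν (pmap w)
    rw [h1, sub_self, zero_add] at h2
    rw [Metric.mem_sphere, dist_eq_norm]
    have h3 : ‖pmap w - (T / 2) • ν‖ = T / 2 := by
      have h4 := (sq_eq_sq₀ (norm_nonneg (pmap w - (T / 2) • ν)) (by positivity : (0 : ℝ) ≤ T / 2)).mp h2
      exact h4
    exact h3
  have hball := eq_ball_of_frontier hn hopen hbd (hne.image _) (by positivity : (0 : ℝ) < T / 2) hfr
  have hmem : ∀ z : Ev n, z ∈ Metric.ball ((T / 2) • ν) (T / 2) ↔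
      ‖z‖ ^ 2 < T * inner ℝ ν z := by
    intro z
    rw [Metric.mem_ball, dist_eq_norm,
      ← sq_lt_sq₀ (norm_nonneg _) (by positivity : (0 : ℝ) ≤ T / 2), sph hν z]
    constructor
    · intro h; linarith
    · intro h; linarith
  ext w
  constructor
  · intro hw
    have h1 : pmap w ∈ Metric.ball ((T / 2) • ν) (T / 2) := by
      rw [← hball]
      exact ⟨w, hw, rfl⟩
    exact (lt_iff_pmap ν w).mp ((hmem _).mp h1)
  · intro hw
    have h1 : pmap w ∈ Metric.ball ((T / 2) • ν) (T / 2) :=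
      (hmem _).mpr ((lt_iff_pmap ν w).mpr hw)
    rw [← hball] at h1
    obtain ⟨w', hw', he⟩ := h1
    have h2 : w' = w := by
      rw [← plog_pmap w', he, plog_pmap]
    rw [← h2]
    exact hw'

/-- `plog` is a bijection from `{‖z‖² < T ⟨ν, z⟩}` (a Euclidean ball in the unit ball, for `T ≤ 1`) -/
theorem plog_bijOn {T : ℝ} (hT : 0 < T) (hT1 : T ≤ 1) {ν : Ev n} (hν : ‖ν‖ = 1) :
    BijOn plog {z : Ev n | ‖z‖ ^ 2 < T * inner ℝ ν z}
      {w | Real.tanh (‖w‖ / 2) * ‖w‖ < T * inner ℝ ν w} := by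
  have hlt : ∀ z : Ev n, ‖z‖ ^ 2 < T * inner ℝ ν z → ‖z‖ < 1 := by
    intro z hz
    have h1 : inner ℝ ν z ≤ ‖z‖ := by
      have := real_inner_le_norm ν z
      rwa [hν, one_mul] at this
    have h2 : T * inner ℝ ν z ≤ T * ‖z‖ := mul_le_mul_of_nonneg_left h1 hT.le
    have h3 : T * ‖z‖ ≤ 1 * ‖z‖ := mul_le_mul_of_nonneg_right hT1 (norm_nonneg z)
    nlinarith [norm_nonneg z]
  refine ⟨?_, ?_, ?_⟩
  · intro z hz
    have hz' : ‖z‖ ^ 2 < T * inner ℝ ν z := hz
    have h1 := (lt_iff_pmap (T := T) ν (plog z)).mp (by rwa [pmap_plog (hlt z hz')])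
    exact h1
  · intro z hz z' hz' he
    rw [← pmap_plog (hlt z hz), he, pmap_plog (hlt z' hz')]
  · intro w hw
    exact ⟨pmap w, (lt_iff_pmap ν w).mpr hw, plog_pmap w⟩

end Vale.Agent.Lib.P219
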