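import Vale.Agent.Lib.P219.K.Ri.QEq
import Vale.Agent.Lib.P219.K.Ri.Poin
import Vale.Agent.Lib.P219.Ri.Log

/-!
# P219 rigidity, curvature `≤ -1`: extremal domains are hyperbolic balls

As `ball_of_boundary` in `Ri/Iso`: `D = {w | Ex p w ∈ Ω}` is open, bounded (`exp_proper`), nonempty,
`frontier D = (Ex p)⁻¹ frontier Ω` (homeomorphism, `exists_lg`), hence by `eq_of_frontier_tanh`
`D = {tanh (‖w‖/2) ‖w‖ < tanh R ⟨ν, w⟩}` (so `0 ∉ D`; for `w = 0 ∈ frontier D` the equation is trivial).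
For `w ∈ D` there is `s ≥ 1` with `s • w ∈ frontier D` (intermediate value, or bounded), so
`Qn p (s • w) = 1` and `1 ≤ Qn p w ≤ 1` (`one_le_Qn`, `Qn_mono`), and `P_sq_of_Qn` holds on `D`.
-/

open scoped ContDiff

namespace Vale.Agent.Lib.P219

open MeasureTheory Set Filter Topology

/-- a ray from a point of a bounded open set meets the frontier -/
private theorem geoX_ray {n : ℕ} {D : Set (Ev n)} (ho : IsOpen D)
    (hb : Bornology.IsBounded D) {w : Ev n}
    (hw : w ∈ D) (hw0 : w ≠ 0) : ∃ s : ℝ, 1 ≤ s ∧ s • w ∈ frontier D := by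
  obtain ⟨r, hr⟩ := (Metric.isBounded_iff_subset_closedBall (0 : Ev n)).1 hb
  have hwn : 0 < ‖w‖ := norm_pos_iff.2 hw0
  set t0 : ℝ := max 1 ((r + 1) / ‖w‖) with ht0
  have h1 : 1 ≤ t0 := le_max_left _ _
  have hout : t0 • w ∉ D := by
    intro hmem
    have h2 := hr hmem
    rw [mem_closedBall_zero_iff, norm_smul, Real.norm_eq_abs,
      abs_of_pos (lt_of_lt_of_le one_pos h1)] at h2
    have h3 : (r + 1) / ‖w‖ * ‖w‖ ≤ t0 * ‖w‖ :=
      mul_le_mul_of_nonneg_right (le_max_right _ _) hwn.le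
    rw [div_mul_cancel₀ _ hwn.ne'] at h3
    linarith
  have hc : Continuous fun t : ℝ => t • w := continuous_id.smul continuous_const
  have hpre : IsPreconnected ((fun t : ℝ => t • w) '' Icc 1 t0) :=
    isPreconnected_Icc.image _ hc.continuousOn
  by_contra hcon
  push Not at hcon
  have hcl : ∀ t : ℝ, 1 ≤ t → t • w ∉ D → t • w ∉ closure D := by
    intro t ht hd hc'
    exact hcon t ht ⟨hc', by rw [ho.interior_eq]; exact hd⟩
  obtain ⟨y, -, hy1, hy2⟩ := hpre D (closure D)ᶜ ho isClosed_closure.isOpen_compl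
    (by
      rintro y ⟨t, ht, rfl⟩
      by_cases hd : t • w ∈ D
      · exact Or.inl hd
      · exact Or.inr (hcl t ht.1 hd))
    ⟨w, ⟨1, ⟨le_rfl, h1⟩, one_smul ℝ w⟩, hw⟩
    ⟨t0 • w, ⟨t0, ⟨h1, le_rfl⟩, rfl⟩, hcl t0 h1 hout⟩
  exact hy2 (subset_closure hy1)

theorem ball_of_boundaryH {n : ℕ} (hn : 2 ≤ n) (H : HDataH n) {Ω : Set (Ev n)}
    (hΩ : Bornology.IsBounded Ω) (ho : IsOpen Ω) (hne : Ω.Nonempty) {R : ℝ} (hR : 0 < R)
    {p ν : Ev n} (hν : ‖ν‖ = 1)
    (h : ∀ q ∈ frontier Ω, ∀ w, w ≠ 0 → H.Ex p w = q →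
      H.Qn p w = 1 ∧ Real.tanh (‖w‖ / 2) * ‖w‖ = Real.tanh R * inner ℝ ν w) :
    BijOn (H.Ex p) {w | Real.tanh (‖w‖ / 2) * ‖w‖ < Real.tanh R * inner ℝ ν w} Ω ∧
      ∀ w, Real.tanh (‖w‖ / 2) * ‖w‖ < Real.tanh R * inner ℝ ν w → ∀ ξ : Ev n,
        ‖H.P p w ξ‖ ^ 2 = (Real.sinh ‖w‖ / ‖w‖) ^ 2 * ‖ξ‖ ^ 2
          + (1 - (Real.sinh ‖w‖ / ‖w‖) ^ 2) * (inner ℝ w ξ / ‖w‖) ^ 2 := by
  obtain ⟨lg, hlg, hEl, hlE⟩ := H.exists_lg
  have hEc : Continuous (fun w => H.Ex p w) :=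
    H.Ex_cont.comp (continuous_const.prodMk continuous_id)
  have hlc : Continuous (fun y => lg p y) := hlg.comp (continuous_const.prodMk continuous_id)
  let e : Ev n ≃ₜ Ev n :=
    { toFun := fun w => H.Ex p w
      invFun := fun y => lg p y
      left_inv := fun w => hlE p w
      right_inv := fun y => hEl p y
      continuous_toFun := hEc
      continuous_invFun := hlc }
  set D : Set (Ev n) := e ⁻¹' Ω with hD
  have hDo : IsOpen D := ho.preimage e.continuous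
  have hDf : frontier D = e ⁻¹' frontier Ω := (e.preimage_frontier Ω).symm
  have hDb : Bornology.IsBounded D := by
    have hK : IsCompact (closure Ω ∪ {p}) := hΩ.isCompact_closure.union isCompact_singleton
    obtain ⟨r, hr⟩ := H.exp_proper _ hK
    refine (Metric.isBounded_closedBall (x := (0 : Ev n)) (r := r)).subset ?_
    intro w hw
    rw [mem_closedBall_zero_iff]
    exact hr p (Or.inr rfl) w (Or.inl (subset_closure hw))
  have hDne : D.Nonempty := by
    obtain ⟨y, hy⟩ := hne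
    refine ⟨lg p y, ?_⟩
    show H.Ex p (lg p y) ∈ Ω
    rw [hEl]
    exact hy
  have hT : 0 < Real.tanh R := by
    rw [Real.tanh_eq_sinh_div_cosh]
    exact div_pos (Real.sinh_pos_iff.2 hR) (Real.cosh_pos R)
  have hDeq : D = {w | Real.tanh (‖w‖ / 2) * ‖w‖ < Real.tanh R * inner ℝ ν w} := by
    refine eq_of_frontier_tanh hn hDo hDb hDne hT hν fun w hw => ?_
    by_cases hw0 : w = 0
    · rw [hw0, norm_zero, mul_zero, inner_zero_right, mul_zero]
    · rw [hDf] at hw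
      exact (h _ hw w hw0 rfl).2
  refine ⟨?_, ?_⟩
  · rw [← hDeq]
    refine ⟨fun w hw => hw, fun w _ w' _ hww => ?_, fun y hy => ⟨lg p y, ?_, hEl p y⟩⟩
    · rw [← hlE p w, ← hlE p w', hww]
    · show H.Ex p (lg p y) ∈ Ω
      rw [hEl]
      exact hy
  · intro w hw ξ
    have hw0 : w ≠ 0 := by
      rintro rfl
      rw [norm_zero, mul_zero, inner_zero_right, mul_zero] at hw
      exact lt_irrefl _ hw
    have hwD : w ∈ D := by
      rw [hDeq]
      exact hw
    obtain ⟨s, hs1, hs⟩ := geoX_ray hDo hDb hwD hw0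
    have hsw0 : s • w ≠ 0 := smul_ne_zero (by linarith) hw0
    rw [hDf] at hs
    have h1 := (h _ hs (s • w) hsw0 rfl).1
    have h2 := H.Qn_mono (by omega) p w hw0 hs1
    have h3 := H.one_le_Qn (by omega) p w hw0
    exact H.P_sq_of_Qn (by omega) p w hw0 (le_antisymm (h2.trans h1.le) h3) ξ

end Vale.Agent.Lib.P219
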