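import Mathlib.Algebra.Order.Archimedean.Real.Hom
import Mathlib.Algebra.Order.Star.Real
import Mathlib.Analysis.SpecialFunctions.Trigonometric.DerivHyp
import Mathlib.Geometry.Euclidean.Inversion.Calculus
import Vale.Agent.Lib.P219.Defs

/-!
# P219 rigidity, curvature `-1`: a hyperbolic isometry moving the centre of the ball to `0`

`ι = EuclideanGeometry.inversion (a / ‖a‖²) ρ`, `ρ² = 1/‖a‖² - 1`, `a = tanh (R/2) ν`: the inversion in
a sphere orthogonal to the unit sphere.  `D ι y = (ρ/dist y a*)² • reflection` (`hasFDerivAt_inversion`),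
`1 - ‖ι y‖² = ρ² (1 - ‖y‖²)/dist² `, involution; `ι y` satisfies `‖ι y‖² < tanh R ⟨ν, ι y⟩` iff
`‖y‖ < tanh (R/2)` (for `‖y‖ < 1`), where `tanh R = 2 t/(1 + t²)`, `t = tanh (R/2)`.
-/

open scoped ContDiff

namespace Vale.Agent.Lib.P219

open Set Filter Topology

private theorem tanh_half {R : ℝ} (hR : 0 < R) :
    0 < Real.tanh (R / 2) ∧ Real.tanh (R / 2) < 1 ∧
      Real.tanh R * (1 + Real.tanh (R / 2) ^ 2) = 2 * Real.tanh (R / 2) := by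
  have hs : 0 < Real.sinh (R / 2) := Real.sinh_pos_iff.2 (by linarith)
  have hc : 0 < Real.cosh (R / 2) := Real.cosh_pos _
  have hcs : Real.sinh (R / 2) < Real.cosh (R / 2) := by
    have := Real.cosh_sub_sinh (R / 2)
    have h2 := Real.exp_pos (-(R / 2))
    linarith
  refine ⟨?_, ?_, ?_⟩
  · rw [Real.tanh_eq_sinh_div_cosh]
    positivity
  · rw [Real.tanh_eq_sinh_div_cosh, div_lt_one hc]
    exact hcs
  · have h1 : Real.tanh R = (2 * Real.sinh (R / 2) * Real.cosh (R / 2)) /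
        (Real.cosh (R / 2) ^ 2 + Real.sinh (R / 2) ^ 2) := by
      rw [Real.tanh_eq_sinh_div_cosh]
      have h2 : R = 2 * (R / 2) := by ring
      nth_rewrite 1 [h2]
      nth_rewrite 2 [h2]
      rw [Real.sinh_two_mul, Real.cosh_two_mul]
    rw [h1, Real.tanh_eq_sinh_div_cosh]
    have h3 : 0 < Real.cosh (R / 2) ^ 2 + Real.sinh (R / 2) ^ 2 := by positivity
    field_simp

/-- the norm identity -/
private theorem norm_inv {n : ℕ} {c x : Ev n} {ρ : ℝ} (hρ : ‖c‖ ^ 2 = 1 + ρ ^ 2) (hx : x ≠ c) :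
    1 - ‖EuclideanGeometry.inversion c ρ x‖ ^ 2 = ρ ^ 2 / ‖x - c‖ ^ 2 * (1 - ‖x‖ ^ 2) := by
  have hD : 0 < ‖x - c‖ ^ 2 := by
    have := norm_pos_iff.2 (sub_ne_zero.2 hx)
    positivity
  have h1 : EuclideanGeometry.inversion c ρ x = (ρ ^ 2 / ‖x - c‖ ^ 2) • (x - c) + c := by
    rw [EuclideanGeometry.inversion, dist_eq_norm, div_pow]
    rfl
  have h2 : ‖(ρ ^ 2 / ‖x - c‖ ^ 2) • (x - c) + c‖ ^ 2 =
      (ρ ^ 2 / ‖x - c‖ ^ 2) ^ 2 * ‖x - c‖ ^ 2 +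
        2 * ((ρ ^ 2 / ‖x - c‖ ^ 2) * inner ℝ (x - c) c) + ‖c‖ ^ 2 := by
    rw [norm_add_sq_real, norm_smul, inner_smul_left, mul_pow, Real.norm_eq_abs, sq_abs]
    simp
  have h3 : ‖x‖ ^ 2 = ‖x - c‖ ^ 2 + 2 * inner ℝ (x - c) c + ‖c‖ ^ 2 := by
    have := norm_add_sq_real (x - c) c
    rwa [sub_add_cancel] at this
  have hN : ‖x - c‖ ≠ 0 := (norm_pos_iff.2 (sub_ne_zero.2 hx)).ne'
  rw [h1, h2, h3, hρ]
  field_simp
  ring

theorem exists_centering {n : ℕ} {ν : Ev n} (hν : ‖ν‖ = 1) {R : ℝ} (hR : 0 < R) :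
    ∃ ι : Ev n → Ev n, ContDiffOn ℝ ∞ ι (Metric.ball 0 (Real.tanh (R / 2))) ∧
      BijOn ι (Metric.ball 0 (Real.tanh (R / 2))) {z | ‖z‖ ^ 2 < Real.tanh R * inner ℝ ν z} ∧
      ∀ y ∈ Metric.ball (0 : Ev n) (Real.tanh (R / 2)), ∀ ζ,
        1 / (1 - ‖ι y‖ ^ 2) ^ 2 * ‖fderiv ℝ ι y ζ‖ ^ 2 = 1 / (1 - ‖y‖ ^ 2) ^ 2 * ‖ζ‖ ^ 2 := by
  obtain ⟨ht0, ht1, htR⟩ := tanh_half hR
  set t := Real.tanh (R / 2) with ht
  set T := Real.tanh R with hT
  have ht2 : 0 < 1 / t ^ 2 - 1 := by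
    rw [sub_pos, lt_div_iff₀ (by positivity)]
    nlinarith
  set ρ := Real.sqrt (1 / t ^ 2 - 1) with hρdef
  have hρ2 : ρ ^ 2 = 1 / t ^ 2 - 1 := Real.sq_sqrt ht2.le
  have hρ0 : 0 < ρ := Real.sqrt_pos.2 ht2
  set c : Ev n := t⁻¹ • ν with hc
  have hcn : ‖c‖ = 1 / t := by
    rw [hc, norm_smul, hν, mul_one, Real.norm_eq_abs, abs_of_pos (by positivity), one_div]
  have hcρ : ‖c‖ ^ 2 = 1 + ρ ^ 2 := by
    rw [hcn, hρ2, div_pow, one_pow]
    ring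
  set ι : Ev n → Ev n := EuclideanGeometry.inversion c ρ with hι
  have hinv : ∀ x, ι (ι x) = x := EuclideanGeometry.inversion_inversion c hρ0.ne'
  have hne : ∀ y ∈ Metric.ball (0 : Ev n) t, y ≠ c := fun y hy h => by
    rw [h, mem_ball_zero_iff, hcn, div_lt_iff₀ ht0] at hy
    nlinarith
  have hιne : ∀ x, x ≠ c → ι x ≠ c := fun x hx h =>
    hx ((EuclideanGeometry.inversion_eq_center hρ0.ne').1 h)
  -- the equivalence of the two conditions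
  have hequiv : ∀ z, z ≠ c → (‖ι z‖ < t ↔ ‖z‖ ^ 2 < T * inner ℝ ν z) := by
    intro z hz
    have hD : 0 < ‖z - c‖ ^ 2 := by
      have := norm_pos_iff.2 (sub_ne_zero.2 hz)
      positivity
    have h1 := norm_inv hcρ hz
    have h2 : ‖z - c‖ ^ 2 = ‖z‖ ^ 2 - 2 * (t⁻¹ * inner ℝ ν z) + 1 / t ^ 2 := by
      rw [norm_sub_sq_real, hcn, div_pow, one_pow, hc, inner_smul_right, real_inner_comm]
    have h3 : ‖ι z‖ < t ↔ ‖ι z‖ ^ 2 < t ^ 2 := by
      constructor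
      · intro h
        exact pow_lt_pow_left₀ h (norm_nonneg _) two_ne_zero
      · intro h
        exact lt_of_pow_lt_pow_left₀ 2 ht0.le h
    have h4 : ‖ι z‖ ^ 2 = 1 - ρ ^ 2 / ‖z - c‖ ^ 2 * (1 - ‖z‖ ^ 2) := by
      rw [← h1]
      ring
    have h5 : ‖ι z‖ ^ 2 < t ^ 2 ↔ (1 - t ^ 2) * ‖z - c‖ ^ 2 < ρ ^ 2 * (1 - ‖z‖ ^ 2) := by
      rw [h4, div_mul_eq_mul_div, sub_lt_comm, lt_div_iff₀ hD]
    have h6 : ρ ^ 2 * t ^ 2 = 1 - t ^ 2 := by
      rw [hρ2]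
      field_simp
    have h7 : (1 - t ^ 2) * ‖z - c‖ ^ 2 < ρ ^ 2 * (1 - ‖z‖ ^ 2) ↔
        t ^ 2 * ‖z - c‖ ^ 2 < 1 - ‖z‖ ^ 2 := by
      rw [← h6, mul_assoc]
      exact mul_lt_mul_iff_right₀ (by positivity)
    have h8 : t ^ 2 * ‖z - c‖ ^ 2 = t ^ 2 * ‖z‖ ^ 2 - 2 * t * inner ℝ ν z + 1 := by
      rw [h2]
      field_simp
    rw [h3, h5, h7, h8]
    have h9 : T * inner ℝ ν z * (1 + t ^ 2) = 2 * t * inner ℝ ν z := by
      rw [mul_right_comm, htR]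
    constructor
    · intro h
      have : ‖z‖ ^ 2 * (1 + t ^ 2) < T * inner ℝ ν z * (1 + t ^ 2) := by
        rw [h9]
        linarith
      exact lt_of_mul_lt_mul_right this (by positivity)
    · intro h
      have : ‖z‖ ^ 2 * (1 + t ^ 2) < T * inner ℝ ν z * (1 + t ^ 2) :=
        mul_lt_mul_of_pos_right h (by positivity)
      rw [h9] at this
      linarith
  have hcset : ¬ ‖c‖ ^ 2 < T * inner ℝ ν c := by
    intro h
    have h1 : inner ℝ ν c = t⁻¹ := by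
      rw [hc, inner_smul_right, real_inner_self_eq_norm_sq, hν]
      ring
    rw [h1, hcn] at h
    have h2 : (1 / t) ^ 2 * (1 + t ^ 2) < T * t⁻¹ * (1 + t ^ 2) :=
      mul_lt_mul_of_pos_right h (by positivity)
    have h3 : T * t⁻¹ * (1 + t ^ 2) = 2 := by
      rw [mul_right_comm, htR]
      field_simp
    rw [h3] at h2
    have h4 : (1 / t) ^ 2 * (1 + t ^ 2) = 1 / t ^ 2 + 1 := by
      field_simp
    rw [h4] at h2
    linarith
  refine ⟨ι, ?_, ⟨?_, ?_, ?_⟩, ?_⟩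
  · exact ContDiffOn.inversion contDiffOn_const contDiffOn_const contDiffOn_id hne
  · intro y hy
    have h1 := hne y hy
    refine (hequiv (ι y) (hιne y h1)).1 ?_
    rw [hinv]
    exact mem_ball_zero_iff.1 hy
  · exact fun x _ y _ h => by rw [← hinv x, ← hinv y, h]
  · intro z hz
    have hzc : z ≠ c := fun h => hcset (by rw [h] at hz; exact hz)
    exact ⟨ι z, mem_ball_zero_iff.2 ((hequiv z hzc).2 hz), hinv z⟩
  · intro y hy ζ
    have hyc := hne y hy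
    have hD : 0 < ‖y - c‖ ^ 2 := by
      have := norm_pos_iff.2 (sub_ne_zero.2 hyc)
      positivity
    have h1 : fderiv ℝ ι y ζ = (ρ / dist y c) ^ 2 • (ℝ ∙ (y - c))ᗮ.reflection ζ := by
      rw [(EuclideanGeometry.hasFDerivAt_inversion hyc).fderiv]
      rfl
    have h2 : ‖fderiv ℝ ι y ζ‖ = ρ ^ 2 / ‖y - c‖ ^ 2 * ‖ζ‖ := by
      rw [h1, norm_smul, LinearIsometryEquiv.norm_map, Real.norm_eq_abs,
        abs_of_nonneg (sq_nonneg _), div_pow, dist_eq_norm]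
    have hy1 : ‖y‖ < 1 := (mem_ball_zero_iff.1 hy).trans ht1
    have hy2 : 0 < 1 - ‖y‖ ^ 2 := by
      have := norm_nonneg y
      nlinarith
    have hN : ‖y - c‖ ≠ 0 := (norm_pos_iff.2 (sub_ne_zero.2 hyc)).ne'
    rw [norm_inv hcρ hyc, h2]
    field_simp

end Vale.Agent.Lib.P219
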