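import Mathlib.Analysis.InnerProductSpace.Calculus
import Vale.Agent.Lib.P219.K.Ri.Poin

/-!
# P219 rigidity, curvature `-1`: the hyperbolic metric in the Poincaré ball

With `β t = 2 artanh t / t` (derivative of `artanh`: `1/(1 - t²)`), `w = plog z = β(‖z‖) z`,
`ξ = D plog z ζ = β ζ + β' ⟨z, ζ⟩ z / ‖z‖`.  Tangential part: `sinh ‖w‖ / ‖w‖ * β = 2/(1 - ‖z‖²)`
(`sinh (2 artanh t) = 2 t/(1 - t²)`), radial part: `d/dt (2 artanh t) = 2/(1 - t²)`.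
-/

open scoped ContDiff

namespace Vale.Agent.Lib.P219

open Set Filter Topology

variable {n : ℕ}

private theorem PLog_two_artanh {x : ℝ} (h0 : 0 ≤ x) (h1 : x < 1) :
    2 * Real.artanh x = Real.log (1 + x) - Real.log (1 - x) := by
  rw [Real.artanh_eq_half_log ⟨by linarith, h1.le⟩, Real.log_div (by linarith) (by linarith)]
  ring

private theorem PLog_eq {z : Ev n} (hz1 : ‖z‖ < 1) :
    plog z = ((Real.log (1 + ‖z‖) - Real.log (1 - ‖z‖)) / ‖z‖) • z := by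
  unfold plog
  rw [PLog_two_artanh (norm_nonneg z) hz1]

private theorem PLog_ev {z : Ev n} (hz1 : ‖z‖ < 1) :
    plog =ᶠ[𝓝 z] fun y : Ev n => ((Real.log (1 + ‖y‖) - Real.log (1 - ‖y‖)) / ‖y‖) • y := by
  have h : ∀ᶠ y in 𝓝 z, ‖y‖ < 1 := (continuous_norm.tendsto z).eventually (gt_mem_nhds hz1)
  filter_upwards [h] with y hy
  exact PLog_eq hy

theorem plog_contDiffAt {z : Ev n} (hz : z ≠ 0) (hz1 : ‖z‖ < 1) : ContDiffAt ℝ ∞ plog z := by
  refine ContDiffAt.congr_of_eventuallyEq ?_ (PLog_ev hz1)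
  have h0 : 0 < ‖z‖ := norm_pos_iff.2 hz
  have hn : ContDiffAt ℝ ∞ (fun y : Ev n => ‖y‖) z := contDiffAt_norm ℝ hz
  have h1 : ContDiffAt ℝ ∞ (fun y : Ev n => Real.log (1 + ‖y‖)) z :=
    (contDiffAt_const.add hn).log (by positivity)
  have h2 : ContDiffAt ℝ ∞ (fun y : Ev n => Real.log (1 - ‖y‖)) z :=
    (contDiffAt_const.sub hn).log (by linarith)
  exact ((h1.sub h2).div hn h0.ne').smul contDiffAt_id

/-- the directional derivative of `plog` -/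
private theorem PLog_fderiv {z : Ev n} (hz : z ≠ 0) (hz1 : ‖z‖ < 1) (ζ : Ev n) :
    fderiv ℝ plog z ζ = ((2 * Real.artanh ‖z‖) / ‖z‖) • ζ +
      (((2 / (1 - ‖z‖ ^ 2)) / ‖z‖ - (2 * Real.artanh ‖z‖) / ‖z‖ ^ 2) *
        (inner ℝ z ζ / ‖z‖)) • z := by
  have h0 : 0 < ‖z‖ := norm_pos_iff.2 hz
  have hd : DifferentiableAt ℝ plog z := (plog_contDiffAt hz hz1).differentiableAt (by simp)
  have hline : HasDerivAt (fun s : ℝ => z + s • ζ) ζ 0 := by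
    have := ((hasDerivAt_id (0 : ℝ)).smul_const ζ).const_add z
    simpa using this
  have hfd : HasDerivAt (fun s : ℝ => plog (z + s • ζ)) (fderiv ℝ plog z ζ) 0 := by
    have h1 : HasFDerivAt plog (fderiv ℝ plog z) (z + (0 : ℝ) • ζ) := by
      rw [zero_smul, add_zero]
      exact hd.hasFDerivAt
    exact h1.comp_hasDerivAt (0 : ℝ) hline
  -- the norm along the line
  have hr : HasDerivAt (fun s : ℝ => ‖z + s • ζ‖) (inner ℝ z ζ / ‖z‖) 0 := by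
    have h1 := hline.norm_sq
    have h2 := h1.sqrt (by
      simp only [zero_smul, add_zero]
      positivity)
    simp only [zero_smul, add_zero] at h2
    have h3 : (fun s : ℝ => √(‖z + s • ζ‖ ^ 2)) = fun s : ℝ => ‖z + s • ζ‖ := by
      funext s
      exact Real.sqrt_sq (norm_nonneg _)
    rw [h3, Real.sqrt_sq (norm_nonneg _)] at h2
    refine h2.congr_deriv ?_
    field_simp
  have hr0 : ‖z + (0 : ℝ) • ζ‖ = ‖z‖ := by rw [zero_smul, add_zero]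
  have hA : HasDerivAt (fun s : ℝ => Real.log (1 + ‖z + s • ζ‖) - Real.log (1 - ‖z + s • ζ‖))
      ((2 / (1 - ‖z‖ ^ 2)) * (inner ℝ z ζ / ‖z‖)) 0 := by
    have h1 := (hr.const_add 1).log (by rw [hr0]; positivity)
    have h2 := (hr.const_sub 1).log (by rw [hr0]; linarith)
    refine (h1.sub h2).congr_deriv ?_
    rw [hr0]
    have e1 : 1 - ‖z‖ ≠ 0 := by linarith
    have e2 : 1 + ‖z‖ ≠ 0 := by positivity
    have e3 : 1 - ‖z‖ ^ 2 ≠ 0 := by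
      have : 1 - ‖z‖ ^ 2 = (1 - ‖z‖) * (1 + ‖z‖) := by ring
      rw [this]
      exact mul_ne_zero e1 e2
    field_simp
    ring
  have hG : HasDerivAt (fun s : ℝ => (Real.log (1 + ‖z + s • ζ‖) - Real.log (1 - ‖z + s • ζ‖)) /
      ‖z + s • ζ‖) (((2 / (1 - ‖z‖ ^ 2)) / ‖z‖ - (2 * Real.artanh ‖z‖) / ‖z‖ ^ 2) *
        (inner ℝ z ζ / ‖z‖)) 0 := by
    refine (hA.div hr (by rw [hr0]; exact h0.ne')).congr_deriv ?_
    rw [hr0, ← PLog_two_artanh h0.le hz1]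
    field_simp
  have hF := hG.smul hline
  simp only [zero_smul, add_zero] at hF
  rw [← PLog_two_artanh h0.le hz1] at hF
  have hev : (fun s : ℝ => plog (z + s • ζ)) =ᶠ[𝓝 0] fun s : ℝ =>
      ((Real.log (1 + ‖z + s • ζ‖) - Real.log (1 - ‖z + s • ζ‖)) / ‖z + s • ζ‖) • (z + s • ζ) := by
    have hc : ContinuousAt (fun s : ℝ => z + s • ζ) 0 := hline.continuousAt
    have h1 : Tendsto (fun s : ℝ => z + s • ζ) (𝓝 0) (𝓝 z) := by
      have := hc.tendsto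
      rwa [zero_smul, add_zero] at this
    exact h1.eventually (PLog_ev hz1)
  exact (hfd.congr_of_eventuallyEq hev.symm).unique hF

theorem plog_metric {z : Ev n} (hz : z ≠ 0) (hz1 : ‖z‖ < 1) (ζ : Ev n) :
    (Real.sinh ‖plog z‖ / ‖plog z‖) ^ 2 * ‖fderiv ℝ plog z ζ‖ ^ 2
      + (1 - (Real.sinh ‖plog z‖ / ‖plog z‖) ^ 2)
        * (inner ℝ (plog z) (fderiv ℝ plog z ζ) / ‖plog z‖) ^ 2
      = 4 / (1 - ‖z‖ ^ 2) ^ 2 * ‖ζ‖ ^ 2 := by
  have h0 : 0 < ‖z‖ := norm_pos_iff.2 hz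
  have hmem : ‖z‖ ∈ Ioo (-1 : ℝ) 1 := ⟨by linarith, hz1⟩
  have ha : 0 < 2 * Real.artanh ‖z‖ := by
    have := Real.artanh_pos (x := ‖z‖) ⟨h0, hz1⟩
    linarith
  have hsq : 0 < 1 - ‖z‖ ^ 2 := by nlinarith
  have hS : Real.sinh (2 * Real.artanh ‖z‖) = 2 * ‖z‖ / (1 - ‖z‖ ^ 2) := by
    rw [Real.sinh_two_mul, Real.sinh_artanh hmem, Real.cosh_artanh hmem]
    have : √(1 - ‖z‖ ^ 2) * √(1 - ‖z‖ ^ 2) = 1 - ‖z‖ ^ 2 := Real.mul_self_sqrt hsq.le
    have hne : √(1 - ‖z‖ ^ 2) ≠ 0 := (Real.sqrt_pos.2 hsq).ne'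
    calc 2 * (‖z‖ / √(1 - ‖z‖ ^ 2)) * (1 / √(1 - ‖z‖ ^ 2)) =
        2 * ‖z‖ / (√(1 - ‖z‖ ^ 2) * √(1 - ‖z‖ ^ 2)) := by field_simp
      _ = 2 * ‖z‖ / (1 - ‖z‖ ^ 2) := by rw [this]
  have hw : plog z = ((2 * Real.artanh ‖z‖) / ‖z‖) • z := rfl
  rw [norm_plog hz1, hS, PLog_fderiv hz hz1 ζ, hw]
  set a := 2 * Real.artanh ‖z‖ with hadef
  set t := ‖z‖ with ht
  set p := inner ℝ z ζ with hp
  set b := (2 / (1 - t ^ 2)) / t - a / t ^ 2 with hb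
  have hzz : inner ℝ z z = t ^ 2 := real_inner_self_eq_norm_sq z
  have hζζ : inner ℝ ζ ζ = ‖ζ‖ ^ 2 := real_inner_self_eq_norm_sq ζ
  have hpc : inner ℝ ζ z = p := by rw [hp, real_inner_comm]
  have hN : ‖(a / t) • ζ + (b * (p / t)) • z‖ ^ 2 =
      (a / t) ^ 2 * ‖ζ‖ ^ 2 + 2 * (a / t) * (b * (p / t)) * p + (b * (p / t)) ^ 2 * t ^ 2 := by
    rw [← real_inner_self_eq_norm_sq]
    simp only [inner_add_left, inner_add_right, inner_smul_left, inner_smul_right, hzz, hζζ, hpc,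
      ← hp, RCLike.conj_to_real]
    ring
  have hI : inner ℝ ((a / t) • z) ((a / t) • ζ + (b * (p / t)) • z) =
      (a / t) * ((a / t) * p + (b * (p / t)) * t ^ 2) := by
    simp only [inner_add_right, inner_smul_left, inner_smul_right, hzz, ← hp, RCLike.conj_to_real]
    ring
  rw [hN, hI, hb]
  have e1 : t ≠ 0 := h0.ne'
  have e2 : a ≠ 0 := ha.ne'
  have e3 : 1 - t ^ 2 ≠ 0 := hsq.ne'
  field_simp
  ring

end Vale.Agent.Lib.P219
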