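import Vale.Agent.Lib.P219.K.FinalH
import Vale.Agent.Lib.P219.K.Ri.GeoX
import Vale.Agent.Lib.P219.K.Ri.PLog
import Vale.Agent.Lib.P219.K.Ri.Inv

/-!
# P219 rigidity, curvature `≤ -1`: extremal domains are hyperbolic balls, Poincaré model

The map is `φ = Ex p ∘ plog ∘ ι` (`exists_centering`, `plog_bijOn`, `ball_of_boundaryH`);
`g (Ex p w) (D ξ) (D ξ) = ‖P p w ξ‖²` (`exp_deriv`, `Represents`, `Li_L`, see `rigidity_per` in
`Ri/Main`), then `plog_metric`; first for `ζ = ζ'`, then polarisation (`g` symmetric bilinear).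
-/

open scoped ContDiff

namespace Vale.Agent.Lib.P219

open MeasureTheory Set Filter Topology

private theorem ModelX_dom {n : ℕ} {T : ℝ} (hT : 0 < T) (hT1 : T ≤ 1) {ν z : Ev n}
    (hν : ‖ν‖ = 1) (hz : ‖z‖ ^ 2 < T * inner ℝ ν z) : z ≠ 0 ∧ ‖z‖ < 1 := by
  have h1 : inner ℝ ν z ≤ ‖z‖ := by
    have := real_inner_le_norm ν z
    rwa [hν, one_mul] at this
  have h2 : T * inner ℝ ν z ≤ T * ‖z‖ := mul_le_mul_of_nonneg_left h1 hT.le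
  have h3 : T * ‖z‖ ≤ 1 * ‖z‖ := mul_le_mul_of_nonneg_right hT1 (norm_nonneg z)
  constructor
  · rintro rfl
    rw [norm_zero, inner_zero_right, mul_zero] at hz
    norm_num at hz
  · nlinarith [norm_nonneg z]

theorem model_of_boundaryH {n : ℕ} (hn : 2 ≤ n) {g : Ev n → (Ev n →L[ℝ] Ev n →L[ℝ] ℝ)}
    (hg : IsMetric g) {H : HDataH n} (hH : Represents H.toHData g)
    (hsm : ∀ x, ContDiff ℝ ∞ (H.Ex x)) {Ω : Set (Ev n)}
    (hΩ : Bornology.IsBounded Ω) (ho : IsOpen Ω) (hne : Ω.Nonempty) {R : ℝ} (hR : 0 < R)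
    {p ν : Ev n} (hν : ‖ν‖ = 1)
    (h : ∀ q ∈ frontier Ω, ∀ w, w ≠ 0 → H.Ex p w = q →
      H.Qn p w = 1 ∧ Real.tanh (‖w‖ / 2) * ‖w‖ = Real.tanh R * inner ℝ ν w) :
    ∃ φ : Ev n → Ev n, ContDiffOn ℝ ∞ φ (Metric.ball 0 (Real.tanh (R / 2))) ∧
      BijOn φ (Metric.ball 0 (Real.tanh (R / 2))) Ω ∧
      ∀ y ∈ Metric.ball (0 : Ev n) (Real.tanh (R / 2)), ∀ ζ ζ' : Ev n,
        g (φ y) (fderiv ℝ φ y ζ) (fderiv ℝ φ y ζ') = 4 / (1 - ‖y‖ ^ 2) ^ 2 * inner ℝ ζ ζ' := by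
  obtain ⟨hbij, hmet⟩ := ball_of_boundaryH hn H hΩ ho hne hR hν h
  obtain ⟨ι, hι1, hι2, hι3⟩ := exists_centering (n := n) hν hR
  have hT : 0 < Real.tanh R := by
    rw [Real.tanh_eq_sinh_div_cosh]
    exact div_pos (Real.sinh_pos_iff.2 hR) (Real.cosh_pos R)
  have hT1 : Real.tanh R ≤ 1 := (Real.tanh_lt_one R).le
  have hpl := plog_bijOn hT hT1 hν
  have hmem : ∀ y ∈ Metric.ball (0 : Ev n) (Real.tanh (R / 2)), ι y ≠ 0 ∧ ‖ι y‖ < 1 :=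
    fun y hy => ModelX_dom hT hT1 hν (hι2.1 hy)
  have hplS : ContDiffOn ℝ ∞ plog {z : Ev n | ‖z‖ ^ 2 < Real.tanh R * inner ℝ ν z} := by
    intro z hz
    obtain ⟨h1, h2⟩ := ModelX_dom hT hT1 hν hz
    exact (plog_contDiffAt h1 h2).contDiffWithinAt
  refine ⟨fun y => H.Ex p (plog (ι y)), ?_, ?_, ?_⟩
  · exact (hsm p).comp_contDiffOn (hplS.comp hι1 hι2.1)
  · exact hbij.comp (hpl.comp hι2)
  · intro y hy ζ ζ'
    obtain ⟨hz0, hz1⟩ := hmem y hy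
    have hd1 : HasFDerivAt ι (fderiv ℝ ι y) y :=
      ((hι1.contDiffAt (Metric.isOpen_ball.mem_nhds hy)).differentiableAt (by simp)).hasFDerivAt
    have hd2 : HasFDerivAt plog (fderiv ℝ plog (ι y)) (ι y) :=
      ((plog_contDiffAt hz0 hz1).differentiableAt (by simp)).hasFDerivAt
    have hd3 : HasFDerivAt (fun w => H.Ex p w)
        ((H.L (H.Ex p (plog (ι y)))).comp (H.P p (plog (ι y)))) (plog (ι y)) :=
      H.exp_deriv p (plog (ι y))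
    have hd : HasFDerivAt (fun y => H.Ex p (plog (ι y)))
        (((H.L (H.Ex p (plog (ι y)))).comp (H.P p (plog (ι y)))).comp
          ((fderiv ℝ plog (ι y)).comp (fderiv ℝ ι y))) y := by
      have hd12 : HasFDerivAt (fun y => plog (ι y))
          ((fderiv ℝ plog (ι y)).comp (fderiv ℝ ι y)) y := hd2.comp y hd1
      exact HasFDerivAt.comp (g := fun w => H.Ex p w) (f := fun y => plog (ι y)) y hd3 hd12
    rw [hd.fderiv, hH]
    simp only [ContinuousLinearMap.comp_apply, H.Li_L]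
    have hw := hpl.1 (hι2.1 hy)
    have key : ∀ ξ : Ev n, ‖H.P p (plog (ι y)) (fderiv ℝ plog (ι y) (fderiv ℝ ι y ξ))‖ ^ 2 =
        4 / (1 - ‖y‖ ^ 2) ^ 2 * ‖ξ‖ ^ 2 := by
      intro ξ
      rw [hmet _ hw, plog_metric hz0 hz1]
      have h1 := hι3 y hy ξ
      calc 4 / (1 - ‖ι y‖ ^ 2) ^ 2 * ‖fderiv ℝ ι y ξ‖ ^ 2 =
          4 * (1 / (1 - ‖ι y‖ ^ 2) ^ 2 * ‖fderiv ℝ ι y ξ‖ ^ 2) := by ring
        _ = 4 * (1 / (1 - ‖y‖ ^ 2) ^ 2 * ‖ξ‖ ^ 2) := by rw [h1]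
        _ = 4 / (1 - ‖y‖ ^ 2) ^ 2 * ‖ξ‖ ^ 2 := by ring
    have h3 := key (ζ + ζ')
    have h4 := key ζ
    have h5 := key ζ'
    rw [map_add, map_add, map_add] at h3
    have e1 := norm_add_sq_real
      (H.P p (plog (ι y)) (fderiv ℝ plog (ι y) (fderiv ℝ ι y ζ)))
      (H.P p (plog (ι y)) (fderiv ℝ plog (ι y) (fderiv ℝ ι y ζ')))
    have e2 := norm_add_sq_real ζ ζ'
    rw [h3, h4, h5, e2] at e1
    linarith

end Vale.Agent.Lib.P219
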