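import Vale.Agent.Lib.P219.K.FinalH

/-!
# P219, curvature `≤ -1`: `HDataH` with smooth exponential maps

`P219G.exists_HDataK` (K/Geo/AssembleK) builds `HDataK` on top of the `HData` of
`exists_HData_flow`; its exponential maps are smooth (see `exists_HData_smooth` in Geo/Assemble).
Add the smoothness to the conclusion (new theorem `exists_HDataK_smooth`, keep the old one), then
repeat `P219G.exists_HDataH` (K/Geo/ToH) and `exists_HDataH_of_isCHm` (K/FinalH).
-/

open scoped ContDiff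

namespace Vale.Agent.Lib.P219

theorem exists_HDataH_smooth_of_isCHm {n : ℕ} (hn : 1 ≤ n) (g : Ev n → Ev n →L[ℝ] Ev n →L[ℝ] ℝ)
    (Γ : Ev n → Ev n →L[ℝ] Ev n →L[ℝ] Ev n) (h : IsCHm g Γ) :
    ∃ H : HDataH n, Represents H.toHData g ∧ ∀ x, ContDiff ℝ ∞ (H.Ex x) := by
  obtain ⟨hg, hΓ⟩ := P219G.isLeviCivita_of_lc g h.metric Γ h.lc
  have hc : P219G.IsComplete Γ := by
    intro p v
    obtain ⟨γ, hγ, h0, h1⟩ := h.complete p v
    exact ⟨γ, h0, h1, fun t => ⟨hγ.1 t, hγ.2 t⟩⟩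
  have hK : P219G.IsSecLe g Γ := by
    intro p u v huv
    unfold P219G.sectionalCurvature
    rw [div_le_iff₀ (gram2_pos h.metric p u v huv)]
    have := h.sec p u v
    rw [neg_one_mul]
    exact this
  obtain ⟨H, h1, h2⟩ := P219G.exists_HDataK_smooth g hg Γ hΓ hc hK
  exact ⟨H.toHDataH hn, h1, h2⟩

end Vale.Agent.Lib.P219
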