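import Vale.Agent.Lib.P219.K.Ri.BdryX
import Vale.Agent.Lib.P219.K.Ri.ModelX
import Vale.Agent.Lib.P219.K.Ri.Smooth
import Vale.Agent.Lib.P219.Ri.Main

/-!
# P219 rigidity, curvature `≤ -1`: equality case for smooth domains

As `rigidity_per`, `rigidity_area` in `Ri/Main`: `H` from `exists_HDataH_smooth_of_isCHm`,
`boundary_HDataH`, `model_of_boundaryH`; `areaM ≤ per ≤ area` (`isoperimetric_perH`, `per_le_area`),
`regular_of_defining`, `vol_eq_gvol`.
-/

open scoped ContDiff ENNReal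

namespace Vale.Agent.Lib.P219

open MeasureTheory Set Filter Topology

theorem rigidity_areaH {n : ℕ} (hn : 2 ≤ n) (hk : HasKer n) {R Rm : ℝ} (hR : 0 < R)
    (hRm : R < Rm) (hker : ∀ S, 0 < S → S ≤ Rm → HasKerR n S) {c : RawCertH n R} (hc : c.Strict)
    (g : Ev n → Ev n →L[ℝ] Ev n →L[ℝ] ℝ) (Γ : Ev n → Ev n →L[ℝ] Ev n →L[ℝ] Ev n)
    (h : IsCHm g Γ) (ρ : Ev n → ℝ) (hρ : P219G.IsDefiningFunction ρ)
    (hvol : gvol g {x | ρ x < 0} = ENNReal.ofReal (volM n R))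
    (harea : P219G.area g ρ = ENNReal.ofReal (areaM n R)) :
    ∃ φ : Ev n → Ev n, ContDiffOn ℝ ∞ φ (Metric.ball 0 (Real.tanh (R / 2))) ∧
      BijOn φ (Metric.ball 0 (Real.tanh (R / 2))) {x | ρ x < 0} ∧
      ∀ y ∈ Metric.ball (0 : Ev n) (Real.tanh (R / 2)), ∀ ζ ζ' : Ev n,
        g (φ y) (fderiv ℝ φ y ζ) (fderiv ℝ φ y ζ') = 4 / (1 - ‖y‖ ^ 2) ^ 2 * inner ℝ ζ ζ' := by
  obtain ⟨H, hH, hsm⟩ := exists_HDataH_smooth_of_isCHm (by omega) g Γ h
  have ho : IsOpen {x | ρ x < 0} := isOpen_lt hρ.smooth.continuous continuous_const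
  have hV0 : 0 < volM n R := volM_pos (by omega) hR
  have hvol' : (H.vol {x | ρ x < 0}).toReal = volM n R := by
    rw [vol_eq_gvol hH, hvol, ENNReal.toReal_ofReal hV0.le]
  have hper : per g {x | ρ x < 0} = ENNReal.ofReal (areaM n R) := by
    apply le_antisymm
    · rw [← harea]
      exact P219G.per_le_area g ⟨h.metric.smooth, h.metric.symm, h.metric.pos⟩ ρ hρ
    · exact isoperimetric_perH hn hk hker g Γ h _ hρ.bounded ho.measurableSet R hR.le hRm.le
        hvol.ge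
  have hne : {x | ρ x < 0}.Nonempty := by
    rw [nonempty_iff_ne_empty]
    intro h0
    rw [h0, measure_empty, ENNReal.toReal_zero] at hvol'
    exact hV0.ne hvol'
  obtain ⟨p, ν, -, hν, hpair⟩ := boundary_HDataH hn hk hR hRm hker hc h.metric hH hρ.bounded ho
    (regular_of_defining hρ) hvol' hper
  exact model_of_boundaryH hn h.metric hH hsm hρ.bounded ho hne hR hν hpair

end Vale.Agent.Lib.P219
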