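import Vale.Agent.Lib.P219.K.FinalH
import Vale.Agent.Lib.P219.K.RawH
import Vale.Agent.Lib.P219.Ri.Defs

/-!
# P219 rigidity, curvature `≤ -1`: definitions

Equality case of the sharp isoperimetric inequality for `Sec ≤ -1`.  For a minimising sequence
`u_j → 1_Ω` the slack of the pair inequality tends to `0`.  The slack dominates the integral of
`dfc = (Qn - 1) N s_n + X / ‖w‖^(n-1)`, where `X` is a margin: the kernel `B sinh^(n-1) - X` still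
satisfies all the constraints of the signed line lemma.
-/

namespace Vale.Agent.Lib.P219

open MeasureTheory Set Filter Topology
open scoped ENNReal

noncomputable section

namespace RawCertH

variable {n : ℕ} {R : ℝ} (c : RawCertH n R)

/-- pair kernel of a raw certificate for mean curvature `m` -/
def Bm (m r x y : ℝ) : ℝ :=
  c.a + ((c.ηr r y * (1 - x ^ 2) + c.η r y * (Real.cosh r / Real.sinh r) * (n - 2 + x ^ 2)
      - |x| * |c.ηc r y| * Real.sqrt ((1 - x ^ 2) * (1 - y ^ 2)) / Real.sinh r - m * x * c.η r y)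
    + (c.ηr r x * (1 - y ^ 2) + c.η r x * (Real.cosh r / Real.sinh r) * (n - 2 + y ^ 2)
      - |y| * |c.ηc r x| * Real.sqrt ((1 - y ^ 2) * (1 - x ^ 2)) / Real.sinh r
      - m * y * c.η r x)) / 2

/-- pair kernel for the mean curvature of the model ball -/
def B (r x y : ℝ) : ℝ := c.Bm ((n - 1) * (Real.cosh R / Real.sinh R)) r x y

/-- pair kernel times `sinh^(n-1)` -/
def Kk (r x y : ℝ) : ℝ := c.B r x y * Real.sinh r ^ (n - 1)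

/-- slope in the excess Jacobian -/
def Nn (r x y : ℝ) : ℝ := c.B r x y + |x * y| * Real.sqrt (c.η r x * c.η r y) / Real.sinh r

/-- strict certificates -/
structure Strict : Prop where
  zero : ∀ r x y, 0 < r → |x| ≤ 1 → |y| ≤ 1 → 0 < c.Bm 0 r x y
  slope : ∀ r x y, 0 < r → 0 ≤ x → x ≤ 1 → 0 ≤ y → y ≤ 1 →
    0 < c.B r x y + x * y * Real.sqrt (c.η r x * c.η r y) / Real.sinh r
  comp : ∀ r x y, 0 < r → 0 ≤ x → x ≤ 1 → 0 ≤ y → y ≤ 1 → -(x * c.h r) < c.Kk r x y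
  comp' : ∀ r γ y, 0 < r → 0 ≤ γ → γ ≤ 1 → 0 ≤ y → y ≤ 1 → γ * c.h r < c.Kk r (-γ) y
  lower : ∀ r x y, 0 < r → 0 < x → x ≤ 1 → 0 < y → y ≤ 1 →
    c.Kk r x y = x * y * (c.d * r - c.f x - c.f y) → Real.tanh (r / 2) = Real.tanh R * y

/-- the triples `(r, x, y)` at which all constraints hold with margin `ε` -/
def Mar (ε : ℝ) : Set (ℝ × ℝ × ℝ) :=
  {z | 0 < z.1 ∧
    ((z.2.1 ≤ 0 ∨ z.2.2 ≤ 0) → ε ≤ c.Kk z.1 z.2.1 z.2.2) ∧
    (0 ≤ z.2.1 → 0 ≤ z.2.2 → ε - z.2.1 * c.h z.1 ≤ c.Kk z.1 z.2.1 z.2.2 ∧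
      ε - z.2.2 * c.h z.1 ≤ c.Kk z.1 z.2.1 z.2.2 ∧
      ε + z.2.1 * z.2.2 * (c.d * z.1 - c.f z.2.1 - c.f z.2.2) ≤ c.Kk z.1 z.2.1 z.2.2) ∧
    (z.2.1 ≤ 0 → 0 ≤ z.2.2 → ε + -z.2.1 * c.h z.1 ≤ c.Kk z.1 z.2.1 z.2.2) ∧
    (z.2.2 ≤ 0 → 0 ≤ z.2.1 → ε + -z.2.2 * c.h z.1 ≤ c.Kk z.1 z.2.1 z.2.2)}

/-- the largest margin (at most `1`) on a neighbourhood -/
def chi (r x y : ℝ) : ℝ :=
  sSup {ε : ℝ | 0 ≤ ε ∧ ε ≤ 1 ∧ (ε = 0 ∨ (r, x, y) ∈ interior (c.Mar ε))}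

/-- `chi`, cut off at scale `2 δ` -/
def cchi (δ r x y : ℝ) : ℝ := if 2 * δ < r then c.chi r x y else 0

/-- `k` is the certificate `c` cut off at scale `δ` -/
structure CutOf (δ : ℝ) (k : KerH n) : Prop where
  a_eq : k.a = c.a
  d_eq : k.d = c.d
  f_eq : ∀ s, k.f s = c.f s + c.d * δ
  K_eq : k.K' = (c.d * (n * om n * volM n R) - c.a * areaM n R ^ 2) / areaM n R
    + c.d * δ * (n * om n)
  Hm_eq : k.Hm = (n - 1) * (Real.cosh R / Real.sinh R)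
  h_eq : ∀ r, 2 * δ < r → k.h r = c.h r
  η_eq : ∀ r x, 2 * δ < r → k.η r x = c.η r x
  B_eq : ∀ r x y, 2 * δ < r → k.B k.Hm r x y = c.B r x y

end RawCertH

namespace KerH

variable {n : ℕ} (k : KerH n)

/-- slope in the excess Jacobian -/
def N (r x y : ℝ) : ℝ :=
  k.B k.Hm r x y + |x * y| * Real.sqrt (k.η r x * k.η r y) / Real.sinh r

/-- `X` is a margin of the certificate `k`: `B sinh^(n-1) - X` satisfies all the constraints -/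
structure Margin (X : ℝ → ℝ → ℝ → ℝ) : Prop where
  meas : Measurable (fun p : ℝ × ℝ × ℝ => X p.1 p.2.1 p.2.2)
  nonneg : ∀ r x y, 0 ≤ X r x y
  symm : ∀ r x y, X r x y = X r y x
  le : ∃ CX : ℝ, 0 ≤ CX ∧ ∀ r x y, 0 < r → X r x y ≤ CX * Real.sinh r ^ (n - 1)
  K_nonneg : ∀ r a b, 0 < r → |a| ≤ 1 → |b| ≤ 1 → (a ≤ 0 ∨ b ≤ 0) →
    X r a b ≤ k.B k.Hm r a b * Real.sinh r ^ (n - 1)
  comp : ∀ r a b, 0 < r → 0 ≤ a → a ≤ 1 → 0 ≤ b → b ≤ 1 →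
    -(a * k.h r) ≤ k.B k.Hm r a b * Real.sinh r ^ (n - 1) - X r a b
  comp' : ∀ r γ b, 0 < r → 0 ≤ γ → γ ≤ 1 → 0 ≤ b → b ≤ 1 →
    γ * k.h r ≤ k.B k.Hm r (-γ) b * Real.sinh r ^ (n - 1) - X r (-γ) b
  lower : ∀ r a b, 0 < r → 0 < a → a ≤ 1 → 0 < b → b ≤ 1 →
    a * b * (k.d * r - k.f a - k.f b) ≤ k.B k.Hm r a b * Real.sinh r ^ (n - 1) - X r a b

end KerH

namespace HDataH

variable {n : ℕ} (H : HDataH n) (k : KerH n) (X : ℝ → ℝ → ℝ → ℝ)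

/-- pointwise defect -/
def dfc (x w : Ev n) (a b : ℝ) : ℝ :=
  (H.Qn x w - 1) * k.N ‖w‖ a b * (Real.sinh ‖w‖ / ‖w‖) ^ (n - 1) + X ‖w‖ a b / ‖w‖ ^ (n - 1)

/-- inner integral of the defect -/
def GkX (u : Ev n → ℝ) (x : Ev n) : ℝ≥0∞ :=
  ∫⁻ w, ENNReal.ofReal (‖H.gr u (H.Ex x w)‖ * H.dfc k X x w (H.cy u x w) (H.cx u x w))

/-- the defect of the pair inequality -/
def DefX (u : Ev n → ℝ) : ℝ≥0∞ :=
  ∫⁻ x, ENNReal.ofReal ‖H.gr u x‖ * H.GkX k X u x ∂H.vol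

/-- the pair kernel minus the margin along a geodesic, plus `C` times the true Jacobian -/
def LkX (C : ℝ) (u : Ev n → ℝ) (v : Ev n × Ev n) : ℝ≥0∞ :=
  ∫⁻ t in Ioi (0 : ℝ), ENNReal.ofReal (‖H.gr u v.1‖ * ‖H.gr u (H.fl t v).1‖
    * (k.B k.Hm t (-(H.cs u (H.fl t v))) (H.cs u v) * Real.sinh t ^ (n - 1)
      - X t (-(H.cs u (H.fl t v))) (H.cs u v)
      + C * (H.th v.1 (t • v.2) * t ^ (n - 1))))

end HDataH

/-- a minimising sequence: `u_j → 1_Ω` in `L¹` and `A (u_j) → A₀` -/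
structure HData.MinSeqA {n : ℕ} (H : HData n) (Ω K : Set (Ev n)) (u : ℕ → Ev n → ℝ) (A₀ : ℝ) :
    Prop where
  smooth : ∀ j, ContDiff ℝ 1 (u j)
  supp : ∀ j, tsupport (u j) ⊆ K
  nonneg : ∀ j x, 0 ≤ u j x
  le_one : ∀ j x, u j x ≤ 1
  conv : Tendsto (fun j => ∫ x, |u j x - Ω.indicator (1 : Ev n → ℝ) x| ∂H.vol) atTop (𝓝 0)
  A_lim : Tendsto (fun j => H.A (u j)) atTop (𝓝 A₀)

end

end Vale.Agent.Lib.P219
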