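import Vale.Agent.Lib.P219.K.Ri.Chi
import Vale.Agent.Lib.P219.K.CutoffH

/-!
# P219 rigidity, curvature `≤ -1`: cutoffs of a raw certificate and their margins
-/

namespace Vale.Agent.Lib.P219

open MeasureTheory Set Filter Topology

namespace RawCertH

variable {n : ℕ} {R : ℝ} (c : RawCertH n R)

/-- the cutoff constructed in `K/CutoffH` (`hcutKer`, `exists_hcut`; add there a public theorem with
all the data: `h = hch c δ`, `η = hce c δ`, `hB_eq`; for `r > 2 δ`: `hzf (r/δ) = 1`,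
`hzd (r/δ) = 0`) -/
theorem exists_cut (hn : 2 ≤ n) (hR : 0 < R) {δ : ℝ} (hδ : 0 < δ) : ∃ k : KerH n, c.CutOf δ k := by
  obtain ⟨k, h1, h2, h3, h4, h5, h6, h7, h8, h9⟩ := exists_hcut_data hn hR c hδ
  refine ⟨k, h1, h2, h5, h3, h4, h6, h7, ?_⟩
  intro r x y hr
  unfold KerH.B KerH.g KerH.gh RawCertH.B RawCertH.Bm
  rw [h1, h4, h7 r x hr, h7 r y hr, h8 r x hr, h8 r y hr, h9 r x hr, h9 r y hr]

/-- `cchi` is a margin of the cutoff (for `r ≤ 2 δ` use the fields of `k`, for `r > 2 δ` the lemmas of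
`Ri/Chi`; `CX = 1 / sinh (2 δ) ^ (n-1)`) -/
theorem CutOf.margin (hn : 2 ≤ n) (hR : 0 < R) {δ : ℝ} (hδ : 0 < δ) {k : KerH n}
    (hk : c.CutOf δ k) : k.Margin (c.cchi δ) := by
  have hcc1 : ∀ r x y, 2 * δ < r → c.cchi δ r x y = c.chi r x y := fun r x y h => if_pos h
  have hcc0 : ∀ r x y, ¬ 2 * δ < r → c.cchi δ r x y = 0 := fun r x y h => if_neg h
  have hKk : ∀ r x y, 2 * δ < r → k.B k.Hm r x y * Real.sinh r ^ (n - 1) = c.Kk r x y := by
    intro r x y h
    rw [hk.B_eq r x y h]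
    rfl
  have hHm := k.Hm_pos
  refine ⟨?_, ?_, ?_, ?_, ?_, ?_, ?_, ?_⟩
  · have h : (fun p : ℝ × ℝ × ℝ => c.cchi δ p.1 p.2.1 p.2.2) =
        fun p : ℝ × ℝ × ℝ => if 2 * δ < p.1 then c.chi p.1 p.2.1 p.2.2 else 0 := rfl
    rw [h]
    exact Measurable.ite (measurableSet_lt measurable_const measurable_fst) c.chi_measurable
      measurable_const
  · intro r x y
    by_cases h : 2 * δ < r
    · rw [hcc1 r x y h]
      exact c.chi_nonneg r x y
    · rw [hcc0 r x y h]
  · intro r x y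
    by_cases h : 2 * δ < r
    · rw [hcc1 r x y h, hcc1 r y x h, c.chi_symm]
    · rw [hcc0 r x y h, hcc0 r y x h]
  · have hs : 0 < Real.sinh (2 * δ) := Real.sinh_pos_iff.2 (by linarith)
    refine ⟨1 / Real.sinh (2 * δ) ^ (n - 1), by positivity, ?_⟩
    intro r x y hr
    have hsr : 0 < Real.sinh r := Real.sinh_pos_iff.2 hr
    by_cases h : 2 * δ < r
    · rw [hcc1 r x y h]
      refine (c.chi_le_one r x y).trans ?_
      rw [one_div, ← div_eq_inv_mul, one_le_div (by positivity)]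
      exact pow_le_pow_left₀ hs.le (Real.sinh_le_sinh.2 h.le) _
    · rw [hcc0 r x y h]
      positivity
  · intro r a b hr ha hb hab
    by_cases h : 2 * δ < r
    · rw [hcc1 r a b h, hKk r a b h]
      exact c.chi_le_Kk hn hR hr ha hb hab
    · rw [hcc0 r a b h]
      exact mul_nonneg (k.B_nonneg_of_nonpos hHm.le le_rfl hr ha hb hab)
        (pow_nonneg (Real.sinh_pos_iff.2 hr).le _)
  · intro r a b hr ha ha1 hb hb1
    by_cases h : 2 * δ < r
    · rw [hcc1 r a b h, hKk r a b h, hk.h_eq r h]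
      exact c.chi_comp hr ha ha1 hb hb1
    · rw [hcc0 r a b h, sub_zero]
      exact k.B_comp r a b hr ha ha1 hb hb1
  · intro r γ b hr hγ hγ1 hb hb1
    by_cases h : 2 * δ < r
    · rw [hcc1 r (-γ) b h, hKk r (-γ) b h, hk.h_eq r h]
      exact c.chi_comp' hr hγ hγ1 hb hb1
    · rw [hcc0 r (-γ) b h, sub_zero]
      have h1 := k.B_comp'_m hHm.le le_rfl hr hγ hγ1 hb hb1
      rwa [div_self hHm.ne', one_mul] at h1
  · intro r a b hr ha ha1 hb hb1
    by_cases h : 2 * δ < r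
    · rw [hcc1 r a b h, hKk r a b h, hk.d_eq, hk.f_eq, hk.f_eq]
      refine le_trans ?_ (c.chi_lower hr ha ha1 hb hb1)
      refine mul_le_mul_of_nonneg_left ?_ (mul_pos ha hb).le
      have := mul_pos c.d_pos hδ
      linarith
    · rw [hcc0 r a b h, sub_zero]
      exact k.B_lower_m hHm.le le_rfl hr ha ha1 hb hb1

end RawCertH

end Vale.Agent.Lib.P219
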