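import Vale.Agent.Lib.P219.K.Ri.Cont

/-!
# P219 rigidity, curvature `≤ -1`: positivity of the margin

At a triple where all constraints are strict (`Strict.Kk_pos` if `x ≤ 0` or `y ≤ 0`, `Strict.comp`,
`Strict.comp'`, `c.B_lower` and `h`) they hold with a common margin `2 ε` there, hence with margin `ε`
on a neighbourhood (continuity of `Kk`, `h` on `{r > 0}` and of `f`; the regions are closed: if the
point is not in a region, then neither is a neighbourhood).  So a neighbourhood is contained in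
`interior (Mar ε)` and `ε ≤ chi` on it (`le_csSup`, `BddAbove` by `1`; take `ε ≤ 1`).
-/

namespace Vale.Agent.Lib.P219

open MeasureTheory Set Filter Topology

namespace RawCertH

variable {n : ℕ} {R : ℝ} (c : RawCertH n R)

private theorem ChiPos_ev {z₀ : ℝ × ℝ × ℝ} {P : ℝ × ℝ × ℝ → Prop} (hP : IsClosed {z | P z})
    {g : ℝ × ℝ × ℝ → ℝ} (hg : ContinuousAt g z₀) (h : P z₀ → 0 < g z₀) :
    ∃ ε : ℝ, 0 < ε ∧ ∀ᶠ z in 𝓝 z₀, P z → ε ≤ g z := by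
  by_cases hz : P z₀
  · have h0 := h hz
    refine ⟨g z₀ / 2, half_pos h0, ?_⟩
    filter_upwards [hg.eventually (lt_mem_nhds (half_lt_self h0))] with z hz' _
    exact hz'.le
  · refine ⟨1, one_pos, ?_⟩
    filter_upwards [hP.isOpen_compl.mem_nhds hz] with z hz' hz''
    exact absurd hz'' hz'

private theorem ChiPos_mem (c : RawCertH n R) {ε : ℝ} (h0 : 0 < ε) (h1 : ε ≤ 1)
    {z₀ : ℝ × ℝ × ℝ} (h : ∀ᶠ z in 𝓝 z₀, z ∈ c.Mar ε) :
    ∀ᶠ z : ℝ × ℝ × ℝ in 𝓝 z₀, ε ≤ c.chi z.1 z.2.1 z.2.2 := by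
  have h2 : z₀ ∈ interior (c.Mar ε) := mem_interior_iff_mem_nhds.2 h
  filter_upwards [isOpen_interior.mem_nhds h2] with z hz
  unfold chi
  refine le_csSup ⟨1, ?_⟩ ⟨h0.le, h1, Or.inr hz⟩
  rintro _ ⟨-, h3, -⟩
  exact h3

theorem chi_pos (hn : 2 ≤ n) (hR : 0 < R) (hc : c.Strict) {r x y : ℝ} (hr : 0 < r) (hx : |x| ≤ 1)
    (hy : |y| ≤ 1)
    (h : ¬ (0 < x ∧ 0 < y ∧ c.Kk r x y = x * y * (c.d * r - c.f x - c.f y))) :
    ∃ ε > 0, ∀ᶠ z : ℝ × ℝ × ℝ in 𝓝 (r, x, y), ε ≤ c.chi z.1 z.2.1 z.2.2 := by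
  have hx1 := (abs_le.1 hx).1
  have hx2 := (abs_le.1 hx).2
  have hy1 := (abs_le.1 hy).1
  have hy2 := (abs_le.1 hy).2
  have hopen : IsOpen {p : ℝ × ℝ × ℝ | 0 < p.1} := isOpen_lt continuous_const continuous_fst
  have hmem : {p : ℝ × ℝ × ℝ | 0 < p.1} ∈ 𝓝 (r, x, y) := hopen.mem_nhds hr
  have hK : ContinuousAt (fun p : ℝ × ℝ × ℝ => c.Kk p.1 p.2.1 p.2.2) (r, x, y) :=
    c.Kk_cont.continuousAt hmem
  have hh : ContinuousAt (fun p : ℝ × ℝ × ℝ => c.h p.1) (r, x, y) := by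
    have h1 : ContinuousAt c.h r := c.h_smooth.continuousOn.continuousAt (Ioi_mem_nhds hr)
    exact ContinuousAt.comp (f := fun p : ℝ × ℝ × ℝ => p.1) h1 continuousAt_fst
  have hX : ContinuousAt (fun p : ℝ × ℝ × ℝ => p.2.1) (r, x, y) := by fun_prop
  have hY : ContinuousAt (fun p : ℝ × ℝ × ℝ => p.2.2) (r, x, y) := by fun_prop
  have hfx : ContinuousAt (fun p : ℝ × ℝ × ℝ => c.f p.2.1) (r, x, y) :=
    (c.f_cont.comp (by fun_prop : Continuous fun p : ℝ × ℝ × ℝ => p.2.1)).continuousAt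
  have hfy : ContinuousAt (fun p : ℝ × ℝ × ℝ => c.f p.2.2) (r, x, y) :=
    (c.f_cont.comp (by fun_prop : Continuous fun p : ℝ × ℝ × ℝ => p.2.2)).continuousAt
  have hR1 : ContinuousAt (fun p : ℝ × ℝ × ℝ => p.1) (r, x, y) := by fun_prop
  have cX0 : IsClosed {p : ℝ × ℝ × ℝ | p.2.1 ≤ 0} := isClosed_le (by fun_prop) continuous_const
  have cY0 : IsClosed {p : ℝ × ℝ × ℝ | p.2.2 ≤ 0} := isClosed_le (by fun_prop) continuous_const
  have cX1 : IsClosed {p : ℝ × ℝ × ℝ | 0 ≤ p.2.1} := isClosed_le continuous_const (by fun_prop)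
  have cY1 : IsClosed {p : ℝ × ℝ × ℝ | 0 ≤ p.2.2} := isClosed_le continuous_const (by fun_prop)
  obtain ⟨ε1, p1, e1⟩ := ChiPos_ev (z₀ := (r, x, y)) (P := fun p => p.2.1 ≤ 0 ∨ p.2.2 ≤ 0)
    (cX0.union cY0) hK (fun h1 => hc.Kk_pos hn hR hr hx hy h1)
  obtain ⟨ε2, p2, e2⟩ := ChiPos_ev (z₀ := (r, x, y)) (P := fun p => 0 ≤ p.2.1 ∧ 0 ≤ p.2.2)
    (g := fun p => c.Kk p.1 p.2.1 p.2.2 + p.2.1 * c.h p.1) (cX1.inter cY1) (hK.add (hX.mul hh))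
    (fun h1 => by
      have h2 := hc.comp r x y hr h1.1 hx2 h1.2 hy2
      show 0 < c.Kk r x y + x * c.h r
      linarith)
  obtain ⟨ε3, p3, e3⟩ := ChiPos_ev (z₀ := (r, x, y)) (P := fun p => 0 ≤ p.2.1 ∧ 0 ≤ p.2.2)
    (g := fun p => c.Kk p.1 p.2.1 p.2.2 + p.2.2 * c.h p.1) (cX1.inter cY1) (hK.add (hY.mul hh))
    (fun h1 => by
      have h2 := hc.comp r y x hr h1.2 hy2 h1.1 hx2
      rw [c.Kk_symm] at h2
      show 0 < c.Kk r x y + y * c.h r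
      linarith)
  obtain ⟨ε4, p4, e4⟩ := ChiPos_ev (z₀ := (r, x, y)) (P := fun p => 0 ≤ p.2.1 ∧ 0 ≤ p.2.2)
    (g := fun p => c.Kk p.1 p.2.1 p.2.2 - p.2.1 * p.2.2 * (c.d * p.1 - c.f p.2.1 - c.f p.2.2))
    (cX1.inter cY1) (hK.sub ((hX.mul hY).mul (((continuousAt_const.mul hR1).sub hfx).sub hfy)))
    (fun h1 => by
      show 0 < c.Kk r x y - x * y * (c.d * r - c.f x - c.f y)
      have hx0 : 0 ≤ x := h1.1
      have hy0 : 0 ≤ y := h1.2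
      rcases hx0.eq_or_lt with h2 | h2
      · have h3 := hc.Kk_pos hn hR hr hx hy (Or.inl h2.symm.le)
        rw [← h2] at h3 ⊢
        rw [zero_mul, zero_mul, sub_zero]
        exact h3
      rcases hy0.eq_or_lt with h4 | h4
      · have h3 := hc.Kk_pos hn hR hr hx hy (Or.inr h4.symm.le)
        rw [← h4] at h3 ⊢
        rw [mul_zero, zero_mul, sub_zero]
        exact h3
      have h5 : x * y * (c.d * r - c.f x - c.f y) ≤ c.Kk r x y :=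
        c.B_lower r x y hr h2 hx2 h4 hy2
      have h6 : x * y * (c.d * r - c.f x - c.f y) ≠ c.Kk r x y := fun h7 =>
        h ⟨h2, h4, h7.symm⟩
      exact sub_pos.2 (lt_of_le_of_ne h5 h6))
  obtain ⟨ε5, p5, e5⟩ := ChiPos_ev (z₀ := (r, x, y)) (P := fun p => p.2.1 ≤ 0 ∧ 0 ≤ p.2.2)
    (g := fun p => c.Kk p.1 p.2.1 p.2.2 + p.2.1 * c.h p.1) (cX0.inter cY1) (hK.add (hX.mul hh))
    (fun h1 => by
      have hx0 : x ≤ 0 := h1.1
      have h2 := hc.comp' r (-x) y hr (by linarith) (by linarith) h1.2 hy2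
      rw [neg_neg] at h2
      show 0 < c.Kk r x y + x * c.h r
      linarith)
  obtain ⟨ε6, p6, e6⟩ := ChiPos_ev (z₀ := (r, x, y)) (P := fun p => p.2.2 ≤ 0 ∧ 0 ≤ p.2.1)
    (g := fun p => c.Kk p.1 p.2.1 p.2.2 + p.2.2 * c.h p.1) (cY0.inter cX1) (hK.add (hY.mul hh))
    (fun h1 => by
      have hy0 : y ≤ 0 := h1.1
      have h2 := hc.comp' r (-y) x hr (by linarith) (by linarith) h1.2 hx2
      rw [neg_neg, c.Kk_symm] at h2
      show 0 < c.Kk r x y + y * c.h r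
      linarith)
  obtain ⟨ε, hε0, hε1, l1, l2, l3, l4, l5, l6⟩ : ∃ ε : ℝ, 0 < ε ∧ ε ≤ 1 ∧ ε ≤ ε1 ∧ ε ≤ ε2 ∧
      ε ≤ ε3 ∧ ε ≤ ε4 ∧ ε ≤ ε5 ∧ ε ≤ ε6 := by
    refine ⟨min 1 (min ε1 (min ε2 (min ε3 (min ε4 (min ε5 ε6))))), ?_, ?_, ?_, ?_, ?_, ?_, ?_, ?_⟩
    · exact lt_min one_pos (lt_min p1 (lt_min p2 (lt_min p3 (lt_min p4 (lt_min p5 p6)))))
    all_goals simp
  refine ⟨ε, hε0, ChiPos_mem c hε0 hε1 ?_⟩
  filter_upwards [hmem, e1, e2, e3, e4, e5, e6] with z z0 z1 z2 z3 z4 z5 z6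
  refine ⟨z0, fun a => l1.trans (z1 a), fun a b => ⟨?_, ?_, ?_⟩, fun a b => ?_, fun a b => ?_⟩
  · have h1 := l2.trans (z2 ⟨a, b⟩)
    linarith
  · have h1 := l3.trans (z3 ⟨a, b⟩)
    linarith
  · have h1 := l4.trans (z4 ⟨a, b⟩)
    linarith
  · have h1 := l5.trans (z5 ⟨a, b⟩)
    linarith
  · have h1 := l6.trans (z6 ⟨a, b⟩)
    linarith

end RawCertH

end Vale.Agent.Lib.P219
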