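import Vale.Agent.Lib.P219.K.Ri.Chi
import Vale.Agent.Lib.P219.K.Ri.ChiPos
import Vale.Agent.Lib.P219.Ri.Pigeon
import Vale.Agent.Lib.P219.Ri.Cont
import Vale.Agent.Lib.P219.Ri.Log

/-!
# P219 rigidity, curvature `≤ -1`: the defect vanishes at pairs of boundary points

Model: `Ri/Limit` (`limit_pair`), `Ri/Pigeon` (`G_lower`: change of variables `lintegral_exp`).  By
contradiction.  With `r = ‖w‖`, `b = ⟨ν, w⟩/‖w‖`, `a(ν') = -⟨ν', ve⟩/‖w‖`: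
* if `Qn p w > 1`: `dfc ≥ (Qn - 1) Nn s_n` with `Nn > 0` (`Strict.Nn_pos`) continuous;
* if `Qn p w = 1` and for all unit `ν'` not (`0 < a(ν')`, `0 < b`, `Kk = a b (d r - f a - f b)`): `chi_pos`
  and compactness of the unit sphere.
In both cases there is `m > 0` with `dfc ≥ m th` for all `w'` with `Ex x w'` near `q`, `x` near `p`,
`ν₀` near `ν` and all unit `ν'` (for `2 δ < ‖w‖/2` the cutoff does not matter: `N = Nn`,
`cchi = chi`), so `m * mass (ball q r) ≤ GkX → 0`, contradiction to `HasMass`.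
Finally `Strict.lower` gives `tanh (r/2) = tanh R * b`.
-/

namespace Vale.Agent.Lib.P219

open MeasureTheory Set Filter Topology
open scoped ENNReal

namespace HDataH

variable {n : ℕ} (H : HDataH n)

private theorem lx_pos {w : Ev n} (hw : w ≠ 0) : 0 < ‖w‖ := norm_pos_iff.2 hw

private theorem lx_abs_b {w ν : Ev n} (hν : ‖ν‖ = 1) : |inner ℝ ν w / ‖w‖| ≤ 1 := by
  rcases eq_or_ne w 0 with rfl | hw
  · simp
  · have h := lx_pos hw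
    rw [abs_div, abs_of_pos h, div_le_one h]
    refine (abs_real_inner_le_norm ν w).trans ?_
    rw [hν, one_mul]

private theorem lx_abs_a {x w ν' : Ev n} (hν : ‖ν'‖ = 1) :
    |-(inner ℝ ν' (H.ve x w)) / ‖w‖| ≤ 1 := by
  rcases eq_or_ne w 0 with rfl | hw
  · simp
  · have h := lx_pos hw
    rw [abs_div, abs_neg, abs_of_pos h, div_le_one h]
    refine (abs_real_inner_le_norm ν' (H.ve x w)).trans ?_
    rw [hν, one_mul, H.norm_ve]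

/-- raw defect at the pair `(x, Ex x w)` with normals `ν` at `x` and `ν'` at `Ex x w` -/
private noncomputable def lxD {R : ℝ} (c : RawCertH n R) (x w ν ν' : Ev n) : ℝ :=
  (H.Qn x w - 1) * c.Nn ‖w‖ (-(inner ℝ ν' (H.ve x w)) / ‖w‖) (inner ℝ ν w / ‖w‖) *
      (Real.sinh ‖w‖ / ‖w‖) ^ (n - 1) +
    c.chi ‖w‖ (-(inner ℝ ν' (H.ve x w)) / ‖w‖) (inner ℝ ν w / ‖w‖) / ‖w‖ ^ (n - 1)

private theorem lx_T {p w ν ν' : Ev n} (hw : w ≠ 0) :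
    ContinuousAt (fun z : Ev n × Ev n × Ev n × Ev n =>
      (‖z.2.1‖, -(inner ℝ z.2.2.2 (H.ve z.1 z.2.1)) / ‖z.2.1‖,
        inner ℝ z.2.2.1 z.2.1 / ‖z.2.1‖)) (p, w, ν, ν') := by
  have hr : 0 < ‖w‖ := lx_pos hw
  have hcw : Continuous (fun z : Ev n × Ev n × Ev n × Ev n => ‖z.2.1‖) := by fun_prop
  have hcν : Continuous (fun z : Ev n × Ev n × Ev n × Ev n => z.2.2.1) := by fun_prop
  have hcν' : Continuous (fun z : Ev n × Ev n × Ev n × Ev n => z.2.2.2) := by fun_prop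
  have hcw' : Continuous (fun z : Ev n × Ev n × Ev n × Ev n => z.2.1) := by fun_prop
  have hxw : Continuous (fun z : Ev n × Ev n × Ev n × Ev n => (z.1, z.2.1)) := by fun_prop
  have hve : Continuous (fun z : Ev n × Ev n × Ev n × Ev n => H.ve z.1 z.2.1) :=
    H.ve_cont.comp hxw
  have a2 : ContinuousAt (fun z : Ev n × Ev n × Ev n × Ev n =>
      -(inner ℝ z.2.2.2 (H.ve z.1 z.2.1)) / ‖z.2.1‖) (p, w, ν, ν') :=
    ((hcν'.inner hve).neg.continuousAt).div hcw.continuousAt hr.ne'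
  have a3 : ContinuousAt (fun z : Ev n × Ev n × Ev n × Ev n =>
      inner ℝ z.2.2.1 z.2.1 / ‖z.2.1‖) (p, w, ν, ν') :=
    ((hcν.inner hcw').continuousAt).div hcw.continuousAt hr.ne'
  exact hcw.continuousAt.prodMk (a2.prodMk a3)

private theorem lx_N {R : ℝ} (c : RawCertH n R) {p w ν ν' : Ev n} (hw : w ≠ 0) :
    ContinuousAt (fun z : Ev n × Ev n × Ev n × Ev n =>
      c.Nn ‖z.2.1‖ (-(inner ℝ z.2.2.2 (H.ve z.1 z.2.1)) / ‖z.2.1‖)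
        (inner ℝ z.2.2.1 z.2.1 / ‖z.2.1‖)) (p, w, ν, ν') := by
  have hr : 0 < ‖w‖ := lx_pos hw
  have hopen : IsOpen {p : ℝ × ℝ × ℝ | 0 < p.1} := isOpen_lt continuous_const continuous_fst
  have hmem : (‖w‖, -(inner ℝ ν' (H.ve p w)) / ‖w‖, inner ℝ ν w / ‖w‖) ∈
      {p : ℝ × ℝ × ℝ | 0 < p.1} := hr
  have hB : ContinuousAt (fun t : ℝ × ℝ × ℝ => c.Nn t.1 t.2.1 t.2.2)
      (‖w‖, -(inner ℝ ν' (H.ve p w)) / ‖w‖, inner ℝ ν w / ‖w‖) :=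
    c.Nn_cont.continuousAt (hopen.mem_nhds hmem)
  exact ContinuousAt.comp (f := fun z : Ev n × Ev n × Ev n × Ev n =>
      (‖z.2.1‖, -(inner ℝ z.2.2.2 (H.ve z.1 z.2.1)) / ‖z.2.1‖,
        inner ℝ z.2.2.1 z.2.1 / ‖z.2.1‖)) (x := (p, w, ν, ν')) hB (H.lx_T hw)

private theorem lx_Q {p w ν ν' : Ev n} (hw : w ≠ 0) :
    ContinuousAt (fun z : Ev n × Ev n × Ev n × Ev n => H.Qn z.1 z.2.1) (p, w, ν, ν') := by
  have hr : 0 < ‖w‖ := lx_pos hw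
  have hsinh : 0 < Real.sinh ‖w‖ := Real.sinh_pos_iff.2 hr
  have hcw : Continuous (fun z : Ev n × Ev n × Ev n × Ev n => ‖z.2.1‖) := by fun_prop
  have hxw : Continuous (fun z : Ev n × Ev n × Ev n × Ev n => (z.1, z.2.1)) := by fun_prop
  have hth : Continuous (fun z : Ev n × Ev n × Ev n × Ev n => H.th z.1 z.2.1) :=
    H.th_cont.comp hxw
  have hsc : Continuous (fun z : Ev n × Ev n × Ev n × Ev n => Real.sinh ‖z.2.1‖) :=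
    Real.continuous_sinh.comp hcw
  have hra : ContinuousAt (fun z : Ev n × Ev n × Ev n × Ev n =>
      ‖z.2.1‖ / Real.sinh ‖z.2.1‖) (p, w, ν, ν') :=
    hcw.continuousAt.div hsc.continuousAt hsinh.ne'
  have h1 := hth.continuousAt (x := (p, w, ν, ν'))
  exact h1.mul (hra.pow (n - 1))

private theorem lx_s {p w ν ν' : Ev n} (hw : w ≠ 0) :
    ContinuousAt (fun z : Ev n × Ev n × Ev n × Ev n =>
      (Real.sinh ‖z.2.1‖ / ‖z.2.1‖) ^ (n - 1)) (p, w, ν, ν') := by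
  have hr : 0 < ‖w‖ := lx_pos hw
  have hcw : Continuous (fun z : Ev n × Ev n × Ev n × Ev n => ‖z.2.1‖) := by fun_prop
  have hsc : Continuous (fun z : Ev n × Ev n × Ev n × Ev n => Real.sinh ‖z.2.1‖) :=
    Real.continuous_sinh.comp hcw
  have hrb : ContinuousAt (fun z : Ev n × Ev n × Ev n × Ev n =>
      Real.sinh ‖z.2.1‖ / ‖z.2.1‖) (p, w, ν, ν') :=
    hsc.continuousAt.div hcw.continuousAt hr.ne'
  exact hrb.pow (n - 1)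

private theorem lx_caseA (hn : 2 ≤ n) {R : ℝ} (hR : 0 < R) (c : RawCertH n R) (hc : c.Strict)
    {p w ν ν' : Ev n} (hw : w ≠ 0) (hν : ‖ν‖ = 1) (hν' : ‖ν'‖ = 1)
    (h : 1 < H.Qn p w) :
    ∃ ε > 0, ∀ᶠ z : Ev n × Ev n × Ev n × Ev n in 𝓝 (p, w, ν, ν'),
      ε ≤ H.lxD c z.1 z.2.1 z.2.2.1 z.2.2.2 := by
  have hr : 0 < ‖w‖ := lx_pos hw
  have ha := H.lx_abs_a (x := p) (w := w) hν'
  have hb := lx_abs_b (w := w) hν
  have hN0 := hc.Nn_pos hn hR hr ha hb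
  have hsinh : 0 < Real.sinh ‖w‖ := Real.sinh_pos_iff.2 hr
  have hQ := H.lx_Q (p := p) (ν := ν) (ν' := ν') hw
  have hG : ContinuousAt (fun z : Ev n × Ev n × Ev n × Ev n =>
      (H.Qn z.1 z.2.1 - 1) * c.Nn ‖z.2.1‖ (-(inner ℝ z.2.2.2 (H.ve z.1 z.2.1)) / ‖z.2.1‖)
        (inner ℝ z.2.2.1 z.2.1 / ‖z.2.1‖) * (Real.sinh ‖z.2.1‖ / ‖z.2.1‖) ^ (n - 1))
      (p, w, ν, ν') := ((hQ.sub continuousAt_const).mul (H.lx_N c hw)).mul (lx_s hw)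
  have hv : 0 < (H.Qn p w - 1) * c.Nn ‖w‖ (-(inner ℝ ν' (H.ve p w)) / ‖w‖)
        (inner ℝ ν w / ‖w‖) * (Real.sinh ‖w‖ / ‖w‖) ^ (n - 1) :=
    mul_pos (mul_pos (sub_pos.2 h) hN0) (pow_pos (div_pos hsinh hr) _)
  refine ⟨_, half_pos hv, ?_⟩
  filter_upwards [hG.eventually (lt_mem_nhds (half_lt_self hv))] with z hz
  refine hz.le.trans ?_
  unfold lxD
  exact le_add_of_nonneg_right (div_nonneg (c.chi_nonneg _ _ _)
    (pow_nonneg (norm_nonneg _) _))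

private theorem lx_real {n : ℕ} {ε r r₀ Q N S X : ℝ} (hr : 0 < r)
    (hr1 : r < r₀ + 1) (hQ : 1 ≤ Q) (hN : 0 < N) (hS : 0 ≤ S) (hX0 : 0 ≤ X)
    (hX : ε ≤ X) : ε / (r₀ + 1) ^ (n - 1) ≤ (Q - 1) * N * (S / r) ^ (n - 1) + X / r ^ (n - 1) := by
  have e5 : 0 ≤ (Q - 1) * N * (S / r) ^ (n - 1) :=
    mul_nonneg (mul_nonneg (sub_nonneg.2 hQ) hN.le) (pow_nonneg (div_nonneg hS hr.le) _)
  refine le_trans ?_ (le_add_of_nonneg_left e5)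
  exact div_le_div₀ hX0 hX (pow_pos hr _) (pow_le_pow_left₀ hr.le hr1.le _)

private theorem lx_chi (hn : 2 ≤ n) {R : ℝ} (hR : 0 < R) (c : RawCertH n R) (hc : c.Strict)
    {p w ν ν' : Ev n} (hw : w ≠ 0) (hν : ‖ν‖ = 1) (hν' : ‖ν'‖ = 1)
    (h : ¬ (0 < -(inner ℝ ν' (H.ve p w)) / ‖w‖ ∧ 0 < inner ℝ ν w / ‖w‖ ∧
      c.Kk ‖w‖ (-(inner ℝ ν' (H.ve p w)) / ‖w‖) (inner ℝ ν w / ‖w‖) =
        -(inner ℝ ν' (H.ve p w)) / ‖w‖ * (inner ℝ ν w / ‖w‖) *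
        (c.d * ‖w‖ - c.f (-(inner ℝ ν' (H.ve p w)) / ‖w‖) - c.f (inner ℝ ν w / ‖w‖)))) :
    ∃ ε > 0, ∀ᶠ z : Ev n × Ev n × Ev n × Ev n in 𝓝 (p, w, ν, ν'),
      ε ≤ c.chi ‖z.2.1‖ (-(inner ℝ z.2.2.2 (H.ve z.1 z.2.1)) / ‖z.2.1‖)
        (inner ℝ z.2.2.1 z.2.1 / ‖z.2.1‖) := by
  obtain ⟨ε, hε, hchi⟩ := c.chi_pos hn hR hc (lx_pos hw) (H.lx_abs_a (x := p) (w := w) hν')
    (lx_abs_b (w := w) hν) h
  have hT : Tendsto (fun z : Ev n × Ev n × Ev n × Ev n =>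
      (‖z.2.1‖, -(inner ℝ z.2.2.2 (H.ve z.1 z.2.1)) / ‖z.2.1‖,
        inner ℝ z.2.2.1 z.2.1 / ‖z.2.1‖)) (𝓝 (p, w, ν, ν'))
      (𝓝 (‖w‖, -(inner ℝ ν' (H.ve p w)) / ‖w‖, inner ℝ ν w / ‖w‖)) := H.lx_T hw
  exact ⟨ε, hε, hT.eventually hchi⟩

private theorem lx_Npos (hn : 2 ≤ n) {R : ℝ} (hR : 0 < R) (c : RawCertH n R) (hc : c.Strict)
    {p w ν ν' : Ev n} (hw : w ≠ 0) (hν : ‖ν‖ = 1) (hν' : ‖ν'‖ = 1) :
    ∀ᶠ z : Ev n × Ev n × Ev n × Ev n in 𝓝 (p, w, ν, ν'),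
      0 < c.Nn ‖z.2.1‖ (-(inner ℝ z.2.2.2 (H.ve z.1 z.2.1)) / ‖z.2.1‖)
        (inner ℝ z.2.2.1 z.2.1 / ‖z.2.1‖) := by
  have hN0 := hc.Nn_pos hn hR (lx_pos hw) (H.lx_abs_a (x := p) (w := w) hν')
    (lx_abs_b (w := w) hν)
  have hT : Tendsto (fun z : Ev n × Ev n × Ev n × Ev n =>
      c.Nn ‖z.2.1‖ (-(inner ℝ z.2.2.2 (H.ve z.1 z.2.1)) / ‖z.2.1‖)
        (inner ℝ z.2.2.1 z.2.1 / ‖z.2.1‖)) (𝓝 (p, w, ν, ν'))
      (𝓝 (c.Nn ‖w‖ (-(inner ℝ ν' (H.ve p w)) / ‖w‖) (inner ℝ ν w / ‖w‖))) := H.lx_N c hw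
  exact hT.eventually (lt_mem_nhds hN0)

private theorem lx_caseB (hn : 2 ≤ n) {R : ℝ} (hR : 0 < R) (c : RawCertH n R) (hc : c.Strict)
    {p w ν ν' : Ev n} (hw : w ≠ 0) (hν : ‖ν‖ = 1) (hν' : ‖ν'‖ = 1)
    (h : ¬ (0 < -(inner ℝ ν' (H.ve p w)) / ‖w‖ ∧ 0 < inner ℝ ν w / ‖w‖ ∧
      c.Kk ‖w‖ (-(inner ℝ ν' (H.ve p w)) / ‖w‖) (inner ℝ ν w / ‖w‖) =
        -(inner ℝ ν' (H.ve p w)) / ‖w‖ * (inner ℝ ν w / ‖w‖) *
        (c.d * ‖w‖ - c.f (-(inner ℝ ν' (H.ve p w)) / ‖w‖) - c.f (inner ℝ ν w / ‖w‖)))) :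
    ∃ ε > 0, ∀ᶠ z : Ev n × Ev n × Ev n × Ev n in 𝓝 (p, w, ν, ν'),
      ε ≤ H.lxD c z.1 z.2.1 z.2.2.1 z.2.2.2 := by
  have hr : 0 < ‖w‖ := lx_pos hw
  have hn1 : 1 ≤ n := le_trans one_le_two hn
  have hcw : Continuous (fun z : Ev n × Ev n × Ev n × Ev n => ‖z.2.1‖) := by fun_prop
  have hcc : Tendsto (fun z : Ev n × Ev n × Ev n × Ev n => ‖z.2.1‖) (𝓝 (p, w, ν, ν'))
    (𝓝 ‖w‖) := hcw.tendsto _
  obtain ⟨ε, hε, h1⟩ := H.lx_chi hn hR c hc hw hν hν' h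
  have h2 := H.lx_Npos (p := p) (ν := ν) (ν' := ν') hn hR c hc hw hν hν'
  refine ⟨ε / (‖w‖ + 1) ^ (n - 1), div_pos hε (pow_pos (add_pos hr one_pos) (n - 1)), ?_⟩
  filter_upwards [h1, h2, hcc.eventually (gt_mem_nhds (lt_add_one ‖w‖)),
    hcc.eventually (lt_mem_nhds hr)] with z e1 e2 e3 e4
  exact lx_real e4 e3 (H.one_le_Qn hn1 z.1 z.2.1 (norm_pos_iff.1 e4)) e2
    (Real.sinh_nonneg_iff.2 e4.le) (c.chi_nonneg _ _ _) e1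

private theorem lx_local (hn : 2 ≤ n) {R : ℝ} (hR : 0 < R) (c : RawCertH n R) (hc : c.Strict)
    {p w ν ν' : Ev n} (hw : w ≠ 0) (hν : ‖ν‖ = 1) (hν' : ‖ν'‖ = 1)
    (h : 1 < H.Qn p w ∨ ¬ (0 < -(inner ℝ ν' (H.ve p w)) / ‖w‖ ∧ 0 < inner ℝ ν w / ‖w‖ ∧
      c.Kk ‖w‖ (-(inner ℝ ν' (H.ve p w)) / ‖w‖) (inner ℝ ν w / ‖w‖) =
        -(inner ℝ ν' (H.ve p w)) / ‖w‖ * (inner ℝ ν w / ‖w‖) *
        (c.d * ‖w‖ - c.f (-(inner ℝ ν' (H.ve p w)) / ‖w‖) - c.f (inner ℝ ν w / ‖w‖)))) :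
    ∃ ε > 0, ∀ᶠ z : Ev n × Ev n × Ev n × Ev n in 𝓝 (p, w, ν, ν'),
      ε * H.th z.1 z.2.1 ≤ H.lxD c z.1 z.2.1 z.2.2.1 z.2.2.2 := by
  have key : ∃ ε > 0, ∀ᶠ z : Ev n × Ev n × Ev n × Ev n in 𝓝 (p, w, ν, ν'),
      ε ≤ H.lxD c z.1 z.2.1 z.2.2.1 z.2.2.2 := by
    rcases h with h | h
    · exact H.lx_caseA hn hR c hc hw hν hν' h
    · exact H.lx_caseB hn hR c hc hw hν hν' h
  obtain ⟨ε, hε, hev⟩ := key
  have hxw : Continuous (fun z : Ev n × Ev n × Ev n × Ev n => (z.1, z.2.1)) := by fun_prop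
  have hth : Continuous (fun z : Ev n × Ev n × Ev n × Ev n => H.th z.1 z.2.1) :=
    H.th_cont.comp hxw
  have hth1 : 1 ≤ H.th p w := H.one_le_th p w
  have hth2 : 0 < H.th p w + 1 := by linarith
  have h4 : ∀ᶠ z : Ev n × Ev n × Ev n × Ev n in 𝓝 (p, w, ν, ν'),
      H.th z.1 z.2.1 < H.th p w + 1 := hth.continuousAt.eventually (gt_mem_nhds (lt_add_one _))
  refine ⟨ε / (H.th p w + 1), div_pos hε hth2, ?_⟩
  filter_upwards [hev, h4] with z e1 e2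
  refine le_trans ?_ e1
  rw [div_mul_eq_mul_div, div_le_iff₀ hth2]
  exact mul_le_mul_of_nonneg_left e2.le hε.le

/-- change of variables `y = Ex x w` -/
private theorem lx_lower (k : KerH n) (X : ℝ → ℝ → ℝ → ℝ) {u : Ev n → ℝ} (hu : ContDiff ℝ 1 u)
    (x : Ev n) {N : Set (Ev n)} (hN : MeasurableSet N) {m : ℝ} (hm0 : 0 ≤ m)
    (h : ∀ w, H.Ex x w ∈ N → H.gr u (H.Ex x w) ≠ 0 →
      m * H.th x w ≤ H.dfc k X x w (H.cy u x w) (H.cx u x w)) :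
    ENNReal.ofReal m * ∫⁻ y in N, ENNReal.ofReal ‖H.gr u y‖ ∂H.vol ≤ H.GkX k X u x := by
  have hm : Measurable (fun y => ENNReal.ofReal ‖H.gr u y‖) :=
    (H.gr_cont hu).norm.measurable.ennreal_ofReal
  rw [← lintegral_indicator hN, H.lintegral_exp x, ← lintegral_const_mul']
  · unfold GkX
    apply lintegral_mono
    intro w
    simp only
    by_cases hw : H.Ex x w ∈ N
    · rw [indicator_of_mem hw]
      by_cases hg : H.gr u (H.Ex x w) = 0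
      · simp [hg]
      · have h1 := h w hw hg
        rw [← ENNReal.ofReal_mul (norm_nonneg _), ← ENNReal.ofReal_mul hm0]
        apply ENNReal.ofReal_le_ofReal
        calc m * (‖H.gr u (H.Ex x w)‖ * H.th x w) = ‖H.gr u (H.Ex x w)‖ * (m * H.th x w) := by ring
          _ ≤ _ := mul_le_mul_of_nonneg_left h1 (norm_nonneg _)
    · rw [indicator_of_notMem hw]
      simp
  · exact ENNReal.ofReal_ne_top

/-- away from the cutoff the defect is the raw defect -/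
private theorem lx_dfc {R : ℝ} {c : RawCertH n R} {δ : ℝ} {k : KerH n} (hk : c.CutOf δ k)
    {u : Ev n → ℝ} {x w : Ev n} (hw : 2 * δ < ‖w‖) (hg : H.gr u x ≠ 0)
    (hg' : H.gr u (H.Ex x w) ≠ 0) :
    H.lxD c x w (‖H.gr u x‖⁻¹ • H.gr u x) (‖H.gr u (H.Ex x w)‖⁻¹ • H.gr u (H.Ex x w)) =
      H.dfc k (c.cchi δ) x w (H.cy u x w) (H.cx u x w) := by
  have hgn : ‖H.gr u x‖ ≠ 0 := norm_ne_zero_iff.2 hg
  have hgn' : ‖H.gr u (H.Ex x w)‖ ≠ 0 := norm_ne_zero_iff.2 hg'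
  have c1 : -(inner ℝ (‖H.gr u (H.Ex x w)‖⁻¹ • H.gr u (H.Ex x w)) (H.ve x w)) / ‖w‖ =
      H.cy u x w := by
    unfold HData.cy
    rw [real_inner_smul_left]
    field_simp
  have c2 : inner ℝ (‖H.gr u x‖⁻¹ • H.gr u x) w / ‖w‖ = H.cx u x w := by
    unfold HData.cx
    rw [real_inner_smul_left]
    field_simp
  have h1 : ∀ a b, k.N ‖w‖ a b = c.Nn ‖w‖ a b := by
    intro a b
    unfold KerH.N RawCertH.Nn
    rw [hk.B_eq _ _ _ hw, hk.η_eq _ _ hw, hk.η_eq _ _ hw]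
  unfold lxD dfc
  rw [c1, c2, h1]
  unfold RawCertH.cchi
  rw [if_pos hw]

private theorem lx_contra (hn : 2 ≤ n) {R : ℝ} (hR : 0 < R) (c : RawCertH n R) (hc : c.Strict)
    {u : ℕ → Ev n → ℝ} (hu : ∀ j, ContDiff ℝ 1 (u j))
    {p ν : Ev n} {δ : ℕ → ℝ} {k : ℕ → KerH n} {j : ℕ → ℕ} {x : ℕ → Ev n}
    (hδ0 : Tendsto δ atTop (𝓝 0)) (hk : ∀ l, c.CutOf (δ l) (k l))
    (hj : Tendsto j atTop atTop) (hx : Tendsto x atTop (𝓝 p))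
    (hgr : ∀ l, H.gr (u (j l)) (x l) ≠ 0) (hν : ‖ν‖ = 1)
    (hνl : Tendsto (fun l => ‖H.gr (u (j l)) (x l)‖⁻¹ • H.gr (u (j l)) (x l)) atTop (𝓝 ν))
    (hG : Tendsto (fun l => H.GkX (k l) (c.cchi (δ l)) (u (j l)) (x l)) atTop (𝓝 0))
    {q w : Ev n} (hw : w ≠ 0) (hq : H.Ex p w = q) (hm : H.HasMass u q)
    (hcon : ∀ ν' : Ev n, ‖ν'‖ = 1 → 1 < H.Qn p w ∨ ¬ (0 < -(inner ℝ ν' (H.ve p w)) / ‖w‖ ∧
      0 < inner ℝ ν w / ‖w‖ ∧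
      c.Kk ‖w‖ (-(inner ℝ ν' (H.ve p w)) / ‖w‖) (inner ℝ ν w / ‖w‖) =
        -(inner ℝ ν' (H.ve p w)) / ‖w‖ * (inner ℝ ν w / ‖w‖) *
        (c.d * ‖w‖ - c.f (-(inner ℝ ν' (H.ve p w)) / ‖w‖) - c.f (inner ℝ ν w / ‖w‖)))) :
    False := by
  obtain ⟨lg, hlg, hlg1, hlg2⟩ := H.exists_lg
  have hwlg : lg p q = w := by rw [← hq, hlg2]
  have hwn : 0 < ‖w‖ := norm_pos_iff.2 hw
  have hmap : ∀ ν' : Ev n, Tendsto (fun z : ((Ev n × Ev n) × Ev n) × Ev n =>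
      ((z.1.1.1, lg z.1.1.1 z.1.2, z.1.1.2, z.2) : Ev n × Ev n × Ev n × Ev n))
      (𝓝 (((p, ν), q), ν')) (𝓝 (p, w, ν, ν')) := by
    intro ν'
    have hl : Continuous (fun z : ((Ev n × Ev n) × Ev n) × Ev n => lg z.1.1.1 z.1.2) :=
      hlg.comp (f := fun z : ((Ev n × Ev n) × Ev n) × Ev n => (z.1.1.1, z.1.2))
        (by fun_prop)
    have h2 : Continuous (fun z : ((Ev n × Ev n) × Ev n) × Ev n =>
      ((z.1.1.1, lg z.1.1.1 z.1.2, z.1.1.2, z.2) : Ev n × Ev n × Ev n × Ev n)) := by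
      fun_prop
    have h3 := h2.tendsto (((p, ν), q), ν')
    simpa only [hwlg] using h3
  have hK : IsCompact (Metric.sphere (0 : Ev n) 1) := isCompact_sphere _ _
  have hev : ∃ m > 0, ∀ᶠ a : (Ev n × Ev n) × Ev n in 𝓝 ((p, ν), q),
      ∀ ν' ∈ Metric.sphere (0 : Ev n) 1,
        m * H.th a.1.1 (lg a.1.1 a.2) ≤ H.lxD c a.1.1 (lg a.1.1 a.2) a.1.2 ν' := by
    refine hK.induction_on (p := fun s => ∃ m > 0, ∀ᶠ a : (Ev n × Ev n) × Ev n in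
      𝓝 ((p, ν), q), ∀ ν' ∈ s,
        m * H.th a.1.1 (lg a.1.1 a.2) ≤ H.lxD c a.1.1 (lg a.1.1 a.2) a.1.2 ν')
      ?_ ?_ ?_ ?_
    · exact ⟨1, one_pos, Eventually.of_forall fun a ν' h => absurd h (notMem_empty _)⟩
    · rintro s t hst ⟨m, hm, h⟩
      exact ⟨m, hm, h.mono fun a ha ν' hν' => ha ν' (hst hν')⟩
    · rintro s t ⟨m, hm, h⟩ ⟨m', hm', h'⟩
      refine ⟨min m m', lt_min hm hm', ?_⟩
      filter_upwards [h, h'] with a ha ha' ν' hν'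
      have hth : 0 ≤ H.th a.1.1 (lg a.1.1 a.2) := zero_le_one.trans (H.one_le_th _ _)
      rcases hν' with hν' | hν'
      · exact (mul_le_mul_of_nonneg_right (min_le_left _ _) hth).trans (ha ν' hν')
      · exact (mul_le_mul_of_nonneg_right (min_le_right _ _) hth).trans (ha' ν' hν')
    · intro ν' hν'
      rw [mem_sphere_zero_iff_norm] at hν'
      obtain ⟨ε, hε, h⟩ := H.lx_local hn hR c hc hw hν hν' (hcon ν' hν')
      have h1 := (hmap ν').eventually h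
      rw [nhds_prod_eq, eventually_prod_iff] at h1
      obtain ⟨pa, hpa, pb, hpb, hab⟩ := h1
      refine ⟨{ν'' | pb ν''}, mem_nhdsWithin_of_mem_nhds hpb, ε, hε, ?_⟩
      filter_upwards [hpa] with a ha ν'' hν''
      exact hab ha hν''
  obtain ⟨m, hm0, hev1⟩ := hev
  have hev2 : ∀ᶠ a : (Ev n × Ev n) × Ev n in 𝓝 ((p, ν), q), ‖w‖ / 2 < ‖lg a.1.1 a.2‖ := by
    have h6 : Continuous (fun a : (Ev n × Ev n) × Ev n => ‖lg a.1.1 a.2‖) :=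
      (hlg.comp (f := fun a : (Ev n × Ev n) × Ev n => (a.1.1, a.2)) (by fun_prop)).norm
    have h7 : ‖w‖ / 2 < ‖lg p q‖ := by
      rw [hwlg]
      exact half_lt_self hwn
    exact h6.continuousAt.eventually (lt_mem_nhds h7)
  have hall := hev1.and hev2
  rw [nhds_prod_eq, eventually_prod_iff] at hall
  obtain ⟨pa, hpa, pb, hpb, hab⟩ := hall
  obtain ⟨r₀, hr₀, hball⟩ := Metric.eventually_nhds_iff_ball.1 hpb
  obtain ⟨m', hm', hmass⟩ := hm r₀ hr₀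
  have hl1 : ∀ᶠ l in atTop, pa (x l, ‖H.gr (u (j l)) (x l)‖⁻¹ • H.gr (u (j l)) (x l)) :=
    (hx.prodMk_nhds hνl).eventually hpa
  have hl2 : ∀ᶠ l in atTop, 2 * δ l < ‖w‖ / 2 := by
    have : Tendsto (fun l => 2 * δ l) atTop (𝓝 (2 * 0)) := hδ0.const_mul 2
    rw [mul_zero] at this
    exact this.eventually (gt_mem_nhds (half_pos hwn))
  have hl3 := hj.eventually hmass
  have hfin : ∀ᶠ l in atTop, ENNReal.ofReal m * ENNReal.ofReal m' ≤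
      H.GkX (k l) (c.cchi (δ l)) (u (j l)) (x l) := by
    filter_upwards [hl1, hl2, hl3] with l h1 h2 h3
    refine le_trans (mul_le_mul_right h3 _) ?_
    refine H.lx_lower (k l) _ (hu (j l)) (x l) Metric.isOpen_ball.measurableSet hm0.le ?_
    intro w' hw' hg'
    obtain ⟨e1, e2⟩ := hab h1 (hball _ hw')
    dsimp only at e1 e2
    rw [hlg2] at e1 e2
    have hgn' : ‖H.gr (u (j l)) (H.Ex (x l) w')‖ ≠ 0 := norm_ne_zero_iff.2 hg'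
    have e4 := e1 (‖H.gr (u (j l)) (H.Ex (x l) w')‖⁻¹ • H.gr (u (j l)) (H.Ex (x l) w')) (by
      rw [mem_sphere_zero_iff_norm, norm_smul, norm_inv, norm_norm, inv_mul_cancel₀ hgn'])
    rwa [H.lx_dfc (hk l) (h2.trans e2) (hgr l) hg'] at e4
  have hle := ge_of_tendsto hG hfin
  have hpos : 0 < ENNReal.ofReal m * ENNReal.ofReal m' :=
    ENNReal.mul_pos (by simpa using hm0) (by simpa using hm')
  exact absurd hle (not_le.2 hpos)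

theorem limit_pairX (hn : 2 ≤ n) {R : ℝ} (hR : 0 < R) (c : RawCertH n R) (hc : c.Strict)
    {u : ℕ → Ev n → ℝ} (hu : ∀ j, ContDiff ℝ 1 (u j))
    {p ν : Ev n} {δ : ℕ → ℝ} {k : ℕ → KerH n} {j : ℕ → ℕ} {x : ℕ → Ev n}
    (hδ : ∀ l, 0 < δ l) (hδ0 : Tendsto δ atTop (𝓝 0)) (hk : ∀ l, c.CutOf (δ l) (k l))
    (hj : Tendsto j atTop atTop) (hx : Tendsto x atTop (𝓝 p))
    (hgr : ∀ l, H.gr (u (j l)) (x l) ≠ 0) (hν : ‖ν‖ = 1)
    (hνl : Tendsto (fun l => ‖H.gr (u (j l)) (x l)‖⁻¹ • H.gr (u (j l)) (x l)) atTop (𝓝 ν))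
    (hG : Tendsto (fun l => H.GkX (k l) (c.cchi (δ l)) (u (j l)) (x l)) atTop (𝓝 0))
    {q w : Ev n} (hw : w ≠ 0) (hq : H.Ex p w = q) (hm : H.HasMass u q) :
    H.Qn p w = 1 ∧ Real.tanh (‖w‖ / 2) * ‖w‖ = Real.tanh R * inner ℝ ν w := by
  have hwn : 0 < ‖w‖ := norm_pos_iff.2 hw
  have hQ1 : 1 ≤ H.Qn p w := H.one_le_Qn (by omega) p w hw
  have hQ : H.Qn p w = 1 := by
    by_contra hne
    have hlt : 1 < H.Qn p w := lt_of_le_of_ne hQ1 (Ne.symm hne)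
    exact H.lx_contra hn hR c hc hu hδ0 hk hj hx hgr hν hνl hG hw hq hm fun ν' _ => Or.inl hlt
  refine ⟨hQ, ?_⟩
  by_contra hne
  refine H.lx_contra hn hR c hc hu hδ0 hk hj hx hgr hν hνl hG hw hq hm fun ν' hν' => Or.inr ?_
  rintro ⟨h1, h2, h3⟩
  have h4 := hc.lower ‖w‖ _ _ hwn h1 ((le_abs_self _).trans (H.lx_abs_a hν')) h2
    ((le_abs_self _).trans (lx_abs_b hν)) h3
  refine hne ?_
  rw [h4]
  field_simp

end HDataH

end Vale.Agent.Lib.P219
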