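import Vale.Agent.Lib.P219.K.Ri.Defs
import Vale.Agent.Lib.P219.A.Vol

/-!
# P219 rigidity: gradients charge neighbourhoods of boundary points

Copy of `Ri/Mass` (`mass_lower`) and `bdry_mass` in `Ri/Bdry` for `MinSeqA` (the field `A_lim` is not
used there).
-/

namespace Vale.Agent.Lib.P219

open MeasureTheory Set Filter Topology
open scoped ENNReal

namespace HData

variable {n : ℕ} (H : HData n)

private theorem massX_norm_fderiv_le (u : Ev n → ℝ) (x : Ev n) :
    ‖fderiv ℝ u x‖ ≤ ‖H.gr u x‖ * ‖H.Li x‖ := by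
  refine ContinuousLinearMap.opNorm_le_bound _ (by positivity) fun v => ?_
  have h1 : fderiv ℝ u x v = inner ℝ (H.gr u x) (H.Li x v) := by
    rw [H.inner_gr, H.L_Li]
  rw [h1]
  calc ‖inner ℝ (H.gr u x) (H.Li x v)‖ ≤ ‖H.gr u x‖ * ‖H.Li x v‖ := norm_inner_le_norm _ _
    _ ≤ ‖H.gr u x‖ * (‖H.Li x‖ * ‖v‖) := by
        gcongr
        exact (H.Li x).le_opNorm v
    _ = _ := by ring

private theorem massX_diff_le {u : Ev n → ℝ} (hu : ContDiff ℝ 1 u) (x e : Ev n) :
    ENNReal.ofReal (u x - u (x + e)) ≤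
      ∫⁻ s in Icc (0 : ℝ) 1, ENNReal.ofReal (‖fderiv ℝ u (x + s • e)‖ * ‖e‖) := by
  have hc : Continuous fun s : ℝ => fderiv ℝ u (x + s • e) :=
    (hu.continuous_fderiv (by norm_num)).comp (by fun_prop)
  have hd : ∀ s : ℝ, HasDerivAt (fun s : ℝ => u (x + s • e)) (fderiv ℝ u (x + s • e) e) s := by
    intro s
    have h1 : HasFDerivAt u (fderiv ℝ u (x + s • e)) (x + s • e) :=
      ((hu.differentiable (by norm_num)) _).hasFDerivAt
    have h2 : HasDerivAt (fun s : ℝ => x + s • e) e s := by
      simpa using ((hasDerivAt_id s).smul_const e).const_add x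
    exact h1.comp_hasDerivAt s h2
  have hi : ∫ s in (0 : ℝ)..1, fderiv ℝ u (x + s • e) e = u (x + e) - u x := by
    rw [intervalIntegral.integral_eq_sub_of_hasDerivAt (fun s _ => hd s)
      ((hc.clm_apply continuous_const).intervalIntegrable _ _)]
    simp
  have h3 : u x - u (x + e) ≤ ∫ s in Icc (0 : ℝ) 1, ‖fderiv ℝ u (x + s • e)‖ * ‖e‖ := by
    rw [integral_Icc_eq_integral_Ioc, ← intervalIntegral.integral_of_le zero_le_one]
    have h4 : u x - u (x + e) = ∫ s in (0 : ℝ)..1, -(fderiv ℝ u (x + s • e) e) := by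
      rw [intervalIntegral.integral_neg, hi]
      ring
    rw [h4]
    apply intervalIntegral.integral_mono_on zero_le_one
    · exact ((hc.clm_apply continuous_const).neg).intervalIntegrable _ _
    · exact (hc.norm.mul continuous_const).intervalIntegrable _ _
    · intro s _
      exact (neg_le_abs _).trans ((fderiv ℝ u (x + s • e)).le_opNorm e)
  refine (ENNReal.ofReal_le_ofReal h3).trans ?_
  rw [ofReal_integral_eq_lintegral_ofReal]
  · exact ((hc.norm.mul continuous_const).continuousOn).integrableOn_compact isCompact_Icc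
  · exact Filter.Eventually.of_forall fun s => by positivity

private theorem massX_lint_diff_le {u : Ev n → ℝ} (hu : ContDiff ℝ 1 u) {S T : Set (Ev n)}
    (hS : MeasurableSet S) (hT : MeasurableSet T) (e : Ev n)
    (hST : ∀ x ∈ S, ∀ s ∈ Icc (0 : ℝ) 1, x + s • e ∈ T) :
    ∫⁻ x in S, ENNReal.ofReal (u x - u (x + e)) ≤
      ∫⁻ x in T, ENNReal.ofReal (‖fderiv ℝ u x‖ * ‖e‖) := by
  have hcF : Continuous (fun x => ENNReal.ofReal (‖fderiv ℝ u x‖ * ‖e‖)) :=
    ENNReal.continuous_ofReal.comp
      ((hu.continuous_fderiv (by norm_num)).norm.mul continuous_const)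
  calc ∫⁻ x in S, ENNReal.ofReal (u x - u (x + e))
      ≤ ∫⁻ x in S, ∫⁻ s in Icc (0 : ℝ) 1,
          ENNReal.ofReal (‖fderiv ℝ u (x + s • e)‖ * ‖e‖) :=
        lintegral_mono fun x => massX_diff_le hu x e
    _ = ∫⁻ s in Icc (0 : ℝ) 1, ∫⁻ x in S,
          ENNReal.ofReal (‖fderiv ℝ u (x + s • e)‖ * ‖e‖) := by
        apply lintegral_lintegral_swap
        refine Measurable.aemeasurable ?_
        exact (hcF.comp (by fun_prop : Continuous fun p : Ev n × ℝ => p.1 + p.2 • e)).measurable
    _ ≤ ∫⁻ _ in Icc (0 : ℝ) 1, ∫⁻ x in T, ENNReal.ofReal (‖fderiv ℝ u x‖ * ‖e‖) := by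
        refine setLIntegral_mono' measurableSet_Icc fun s hs => ?_
        rw [← lintegral_indicator hS, ← lintegral_indicator hT,
          ← lintegral_add_right_eq_self
            (T.indicator fun x => ENNReal.ofReal (‖fderiv ℝ u x‖ * ‖e‖)) (s • e)]
        refine lintegral_mono fun x => ?_
        by_cases hx : x ∈ S
        · rw [indicator_of_mem hx, indicator_of_mem (hST x hx s hs)]
        · rw [indicator_of_notMem hx]
          exact zero_le
    _ = _ := by
        rw [setLIntegral_const]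
        simp

private theorem massX_lint_vol (f : Ev n → ℝ≥0∞) (hf : Measurable f) {T : Set (Ev n)}
    (hT : MeasurableSet T) :
    ∫⁻ x in T, f x ∂H.vol = ∫⁻ x in T, ENNReal.ofReal (H.dens x) * f x := by
  have hd : Measurable fun x => ENNReal.ofReal (H.dens x) :=
    (ENNReal.continuous_ofReal.comp H.dens_cont).measurable
  unfold vol
  rw [restrict_withDensity hT, lintegral_withDensity_eq_lintegral_mul _ hd hf]
  rfl

private theorem massX_exists_bound (f : Ev n → ℝ) (hf : Continuous f) (p : Ev n) (δ : ℝ) :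
    ∃ C > 0, ∀ x ∈ Metric.ball p δ, f x ≤ C * H.dens x := by
  obtain ⟨C, hC⟩ := (isCompact_closedBall p δ).bddAbove_image
    (f := fun x => f x / H.dens x)
    (hf.div H.dens_cont fun x => (H.dens_pos x).ne').continuousOn
  refine ⟨max C 1, lt_max_of_lt_right one_pos, fun x hx => ?_⟩
  have h1 : f x / H.dens x ≤ C :=
    hC (mem_image_of_mem (fun x => f x / H.dens x) (Metric.ball_subset_closedBall hx))
  have h2 := (div_le_iff₀ (H.dens_pos x)).1 (h1.trans (le_max_left C 1))
  exact h2

private theorem massX_mass_lower {Ω K : Set (Ev n)} {u : ℕ → Ev n → ℝ} {A₀ : ℝ} (hS : H.MinSeqA Ω K u A₀)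
    (hK : IsCompact K) (hΩ : Bornology.IsBounded Ω) (hm : MeasurableSet Ω) {p p0 p1 : Ev n}
    {δ r : ℝ} (hr : 0 < r) (h0 : Metric.ball p0 r ⊆ Metric.ball p δ ∩ Ω)
    (h1 : Metric.ball p1 r ⊆ Metric.ball p δ \ Ω) :
    ∃ m > 0, ∀ᶠ j in atTop,
      ENNReal.ofReal m ≤ ∫⁻ x in Metric.ball p δ, ENNReal.ofReal ‖H.gr (u j) x‖ ∂H.vol := by
  classical
  have hfc := H.vol_isFiniteMeasureOnCompacts
  obtain ⟨C, hC0, hC⟩ := H.massX_exists_bound (fun x => ‖H.Li x‖ * ‖p1 - p0‖)
    (H.Li_cont.norm.mul continuous_const) p δ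
  obtain ⟨C', hC'0, hC'⟩ := H.massX_exists_bound (fun _ => (1 : ℝ)) continuous_const p δ
  have hVpos : 0 < (volume (Metric.ball p0 r)).toReal :=
    ENNReal.toReal_pos (Metric.measure_ball_pos volume p0 hr).ne' measure_ball_lt_top.ne
  set V0 := (volume (Metric.ball p0 r)).toReal with hV0
  have hVe : volume (Metric.ball p0 r) = ENNReal.ofReal V0 :=
    (ENNReal.ofReal_toReal measure_ball_lt_top.ne).symm
  refine ⟨V0 / (4 * C), by positivity, ?_⟩
  have hev : ∀ᶠ j in atTop,
      ∫ x, |u j x - Ω.indicator (1 : Ev n → ℝ) x| ∂H.vol < V0 / (4 * C') :=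
    hS.conv.eventually (gt_mem_nhds (by positivity))
  filter_upwards [hev] with j hj
  by_contra hcon
  push Not at hcon
  have huc : Continuous (u j) := (hS.smooth j).continuous
  have hint : Integrable (fun x => |u j x - Ω.indicator (1 : Ev n → ℝ) x|) H.vol := by
    refine (Integrable.sub ?_ ?_).abs
    · exact H.integrable_of_continuous huc
        (hK.of_isClosed_subset (isClosed_tsupport _) (hS.supp j))
    · refine (integrable_indicator_iff hm).2 ?_
      refine integrableOn_const (C := (1 : ℝ)) ?_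
      exact (measure_mono subset_closure).trans_lt
        (hΩ.isCompact_closure.measure_lt_top) |>.ne
  have hdm : Measurable (fun x => ENNReal.ofReal |u j x - Ω.indicator (1 : Ev n → ℝ) x|) := by
    refine ENNReal.measurable_ofReal.comp ?_
    exact (huc.measurable.sub (measurable_one.indicator hm)).abs
  -- the error term
  have herr : ∫⁻ x in Metric.ball p δ,
      ENNReal.ofReal |u j x - Ω.indicator (1 : Ev n → ℝ) x| ≤ ENNReal.ofReal (V0 / 4) := by
    calc ∫⁻ x in Metric.ball p δ, ENNReal.ofReal |u j x - Ω.indicator (1 : Ev n → ℝ) x|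
        ≤ ∫⁻ x in Metric.ball p δ, ENNReal.ofReal C' * (ENNReal.ofReal (H.dens x) *
            ENNReal.ofReal |u j x - Ω.indicator (1 : Ev n → ℝ) x|) := by
          refine setLIntegral_mono' Metric.isOpen_ball.measurableSet fun x hx => ?_
          have h2 := hC' x hx
          rw [← mul_assoc, ← ENNReal.ofReal_mul hC'0.le]
          refine le_mul_of_one_le_left (zero_le) ?_
          rw [← ENNReal.ofReal_one]
          exact ENNReal.ofReal_le_ofReal h2
      _ = ENNReal.ofReal C' * ∫⁻ x in Metric.ball p δ,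
            ENNReal.ofReal |u j x - Ω.indicator (1 : Ev n → ℝ) x| ∂H.vol := by
          rw [lintegral_const_mul' _ _ ENNReal.ofReal_ne_top,
            H.massX_lint_vol _ hdm Metric.isOpen_ball.measurableSet]
      _ ≤ ENNReal.ofReal C' * ∫⁻ x,
            ENNReal.ofReal |u j x - Ω.indicator (1 : Ev n → ℝ) x| ∂H.vol := by
          gcongr
          exact Measure.restrict_le_self
      _ = ENNReal.ofReal C' *
            ENNReal.ofReal (∫ x, |u j x - Ω.indicator (1 : Ev n → ℝ) x| ∂H.vol) := by
          rw [ofReal_integral_eq_lintegral_ofReal hint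
            (Filter.Eventually.of_forall fun x => abs_nonneg _)]
      _ ≤ ENNReal.ofReal C' * ENNReal.ofReal (V0 / (4 * C')) := by
          gcongr
      _ = ENNReal.ofReal (V0 / 4) := by
          rw [← ENNReal.ofReal_mul hC'0.le]
          congr 1
          field_simp
  -- the main term
  have hmain : ∫⁻ x in Metric.ball p0 r, ENNReal.ofReal (u j x - u j (x + (p1 - p0))) <
      ENNReal.ofReal (V0 / 4) := by
    calc ∫⁻ x in Metric.ball p0 r, ENNReal.ofReal (u j x - u j (x + (p1 - p0)))
        ≤ ∫⁻ x in Metric.ball p δ, ENNReal.ofReal (‖fderiv ℝ (u j) x‖ * ‖p1 - p0‖) := by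
          refine massX_lint_diff_le (hS.smooth j) Metric.isOpen_ball.measurableSet
            Metric.isOpen_ball.measurableSet _ fun x hx s hs => ?_
          have hx0 : x ∈ Metric.ball p δ := (h0 hx).1
          have hx1 : x + (p1 - p0) ∈ Metric.ball p δ := by
            refine (h1 ?_).1
            rw [Metric.mem_ball, dist_eq_norm] at hx ⊢
            rwa [show x + (p1 - p0) - p1 = x - p0 by abel]
          have h3 := (convex_ball p δ) hx0 hx1 (sub_nonneg.2 hs.2) hs.1 (by ring)
          have h4 : (1 - s) • x + s • (x + (p1 - p0)) = x + s • (p1 - p0) := by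
            module
          rwa [h4] at h3
      _ ≤ ∫⁻ x in Metric.ball p δ, ENNReal.ofReal C * (ENNReal.ofReal (H.dens x) *
            ENNReal.ofReal ‖H.gr (u j) x‖) := by
          refine setLIntegral_mono' Metric.isOpen_ball.measurableSet fun x hx => ?_
          have h2 := hC x hx
          rw [← mul_assoc, ← ENNReal.ofReal_mul hC0.le,
            ← ENNReal.ofReal_mul (mul_nonneg hC0.le (H.dens_pos x).le)]
          refine ENNReal.ofReal_le_ofReal ?_
          calc ‖fderiv ℝ (u j) x‖ * ‖p1 - p0‖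
              ≤ (‖H.gr (u j) x‖ * ‖H.Li x‖) * ‖p1 - p0‖ := by
                gcongr
                exact H.massX_norm_fderiv_le (u j) x
            _ = (‖H.Li x‖ * ‖p1 - p0‖) * ‖H.gr (u j) x‖ := by ring
            _ ≤ _ := mul_le_mul_of_nonneg_right h2 (norm_nonneg _)
      _ = ENNReal.ofReal C * ∫⁻ x in Metric.ball p δ,
            ENNReal.ofReal ‖H.gr (u j) x‖ ∂H.vol := by
          rw [lintegral_const_mul' _ _ ENNReal.ofReal_ne_top,
            H.massX_lint_vol (fun x => ENNReal.ofReal ‖H.gr (u j) x‖) (ENNReal.continuous_ofReal.comp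
              (H.gr_cont (hS.smooth j)).norm).measurable Metric.isOpen_ball.measurableSet]
      _ < ENNReal.ofReal C * ENNReal.ofReal (V0 / (4 * C)) := by
          refine ENNReal.mul_lt_mul_right ?_ ENNReal.ofReal_ne_top hcon
          exact (ENNReal.ofReal_pos.2 hC0).ne'
      _ = ENNReal.ofReal (V0 / 4) := by
          rw [← ENNReal.ofReal_mul hC0.le]
          congr 1
          field_simp
  -- conclusion
  have hsplit : volume (Metric.ball p0 r) ≤
      (∫⁻ x in Metric.ball p0 r, ENNReal.ofReal (u j x - u j (x + (p1 - p0)))) +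
      ((∫⁻ x in Metric.ball p0 r, ENNReal.ofReal |u j x - Ω.indicator (1 : Ev n → ℝ) x|) +
      ∫⁻ x in Metric.ball p0 r, ENNReal.ofReal
        |u j (x + (p1 - p0)) - Ω.indicator (1 : Ev n → ℝ) (x + (p1 - p0))|) := by
    rw [← setLIntegral_one, ← lintegral_add_left, ← lintegral_add_left]
    · refine setLIntegral_mono' Metric.isOpen_ball.measurableSet fun x hx => ?_
      have hx0 : x ∈ Ω := (h0 hx).2
      have hx1 : x + (p1 - p0) ∉ Ω := by
        refine (h1 ?_).2
        rw [Metric.mem_ball, dist_eq_norm] at hx ⊢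
        rwa [show x + (p1 - p0) - p1 = x - p0 by abel]
      rw [indicator_of_mem hx0, indicator_of_notMem hx1, Pi.one_apply]
      rw [← ENNReal.ofReal_add (abs_nonneg _) (abs_nonneg _), ← ENNReal.ofReal_one]
      refine le_trans (ENNReal.ofReal_le_ofReal ?_) ENNReal.ofReal_add_le
      have ha := neg_abs_le (u j x - 1)
      have hb := le_abs_self (u j (x + (p1 - p0)) - 0)
      linarith
    · exact (ENNReal.continuous_ofReal.comp
        (huc.sub (huc.comp (continuous_id.add continuous_const)))).measurable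
    · exact hdm
  have he1 : ∫⁻ x in Metric.ball p0 r, ENNReal.ofReal |u j x - Ω.indicator (1 : Ev n → ℝ) x| ≤
      ENNReal.ofReal (V0 / 4) :=
    (lintegral_mono_set fun x hx => (h0 hx).1).trans herr
  have he2 : ∫⁻ x in Metric.ball p0 r, ENNReal.ofReal
      |u j (x + (p1 - p0)) - Ω.indicator (1 : Ev n → ℝ) (x + (p1 - p0))| ≤
      ENNReal.ofReal (V0 / 4) := by
    refine le_trans ?_ herr
    rw [← lintegral_indicator Metric.isOpen_ball.measurableSet,
      ← lintegral_indicator (s := Metric.ball p δ) Metric.isOpen_ball.measurableSet,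
      ← lintegral_add_right_eq_self ((Metric.ball p δ).indicator fun x =>
        ENNReal.ofReal |u j x - Ω.indicator (1 : Ev n → ℝ) x|) (p1 - p0)]
    refine lintegral_mono fun x => ?_
    by_cases hx : x ∈ Metric.ball p0 r
    · have hx1 : x + (p1 - p0) ∈ Metric.ball p δ := by
        refine (h1 ?_).1
        rw [Metric.mem_ball, dist_eq_norm] at hx ⊢
        rwa [show x + (p1 - p0) - p1 = x - p0 by abel]
      rw [indicator_of_mem hx, indicator_of_mem hx1]
    · rw [indicator_of_notMem hx]
      exact zero_le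
  have hfin : ENNReal.ofReal V0 < ENNReal.ofReal V0 := by
    calc ENNReal.ofReal V0 ≤ _ := hVe ▸ hsplit
      _ < ENNReal.ofReal (V0 / 4) + (ENNReal.ofReal (V0 / 4) + ENNReal.ofReal (V0 / 4)) := by
          refine ENNReal.add_lt_add_of_lt_of_le ?_ hmain (add_le_add he1 he2)
          exact ((add_le_add he1 he2).trans_lt
            (ENNReal.add_lt_top.2 ⟨ENNReal.ofReal_lt_top, ENNReal.ofReal_lt_top⟩)).ne
      _ = ENNReal.ofReal (3 * V0 / 4) := by
          rw [← ENNReal.ofReal_add (by positivity) (by positivity),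
            ← ENNReal.ofReal_add (by positivity) (by positivity)]
          congr 1
          ring
      _ ≤ ENNReal.ofReal V0 := ENNReal.ofReal_le_ofReal (by linarith)
  exact lt_irrefl _ hfin

end HData

theorem HData.MinSeqA.hasMass {n : ℕ} {H : HData n} {Ω K : Set (Ev n)} {u : ℕ → Ev n → ℝ} {A₀ : ℝ}
    (hS : H.MinSeqA Ω K u A₀) (hK : IsCompact K) (hΩ : Bornology.IsBounded Ω) (ho : IsOpen Ω)
    (hreg : interior (closure Ω) ⊆ Ω) {p : Ev n} (hp : p ∈ frontier Ω) : H.HasMass u p := by
  intro δ hδ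
  have hpc : p ∈ closure Ω := frontier_subset_closure hp
  have hpn : p ∉ Ω := by
    rw [ho.frontier_eq] at hp
    exact hp.2
  have hpi : p ∉ interior (closure Ω) := fun h => hpn (hreg h)
  obtain ⟨p0, hp0, hd0⟩ := Metric.mem_closure_iff.mp hpc δ hδ
  have hpc2 : p ∈ closure ((closure Ω)ᶜ) := by
    rw [closure_compl]
    exact hpi
  obtain ⟨p1, hp1, hd1⟩ := Metric.mem_closure_iff.mp hpc2 δ hδ
  have ho0 : IsOpen (Metric.ball p δ ∩ Ω) := Metric.isOpen_ball.inter ho
  have ho1 : IsOpen (Metric.ball p δ ∩ (closure Ω)ᶜ) :=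
    Metric.isOpen_ball.inter isClosed_closure.isOpen_compl
  obtain ⟨r0, hr0, hb0⟩ := Metric.isOpen_iff.mp ho0 p0
    ⟨by rw [Metric.mem_ball, dist_comm]; exact hd0, hp0⟩
  obtain ⟨r1, hr1, hb1⟩ := Metric.isOpen_iff.mp ho1 p1
    ⟨by rw [Metric.mem_ball, dist_comm]; exact hd1, hp1⟩
  refine H.massX_mass_lower hS hK hΩ ho.measurableSet (r := min r0 r1) (lt_min hr0 hr1) (p0 := p0)
    (p1 := p1) ((Metric.ball_subset_ball (min_le_left _ _)).trans hb0) ?_
  intro x hx
  have hx1 := hb1 (Metric.ball_subset_ball (min_le_right _ _) hx)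
  exact ⟨hx1.1, fun h => hx1.2 (subset_closure h)⟩

end Vale.Agent.Lib.P219
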