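import Vale.Agent.Lib.P219.K.Ri.Defs
import Vale.Agent.Lib.P219.Ri.Pigeon
import Vale.Agent.Lib.P219.A.Vol

/-!
# P219 rigidity, curvature `≤ -1`: selection of good base points near `p`

Copy of `Ri/Pick` (`exists_pick`) with `DefX`, `GkX`.
-/

namespace Vale.Agent.Lib.P219

open MeasureTheory Set Filter Topology
open scoped ENNReal

namespace HDataH

variable {n : ℕ} (H : HDataH n)

private theorem pick_stepX {R : ℝ} (c : RawCertH n R) {u : ℕ → Ev n → ℝ} (hu : ∀ j, ContDiff ℝ 1 (u j))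
    {C : ℝ} (hC : 0 ≤ C)
    (hcut : ∀ δ > 0, ∃ k : KerH n, c.CutOf δ k)
    (hdef : ∀ δ > 0, ∀ k : KerH n, c.CutOf δ k → ∀ η > 0, ∀ᶠ j in atTop,
      H.DefX k (c.cchi δ) (u j) ≤ ENNReal.ofReal (C * δ + η))
    {p : Ev n} (hp : H.HasMass u p) (l : ℕ) :
    ∃ (δ : ℝ) (k : KerH n) (j : ℕ) (x : Ev n), 0 < δ ∧ δ ≤ 1 / ((l : ℝ) + 1) ∧
      c.CutOf δ k ∧ l ≤ j ∧ dist x p ≤ 1 / ((l : ℝ) + 1) ∧ H.gr (u j) x ≠ 0 ∧
      H.GkX k (c.cchi δ) (u j) x ≤ ENNReal.ofReal (1 / ((l : ℝ) + 1)) := by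
  have hl : (0 : ℝ) < 1 / ((l : ℝ) + 1) := by positivity
  obtain ⟨m, hm, hmass⟩ := hp _ hl
  have hη : 0 < m / (4 * ((l : ℝ) + 1)) := by positivity
  have hC1 : 0 < C + 1 := by linarith
  have hδ2 : 0 < m / (4 * ((l : ℝ) + 1)) / (C + 1) := by positivity
  obtain ⟨δ, hδ0, hδ1, hCδ⟩ : ∃ δ : ℝ, 0 < δ ∧ δ ≤ 1 / ((l : ℝ) + 1) ∧
      C * δ ≤ m / (4 * ((l : ℝ) + 1)) := by
    refine ⟨min (1 / ((l : ℝ) + 1)) (m / (4 * ((l : ℝ) + 1)) / (C + 1)), lt_min hl hδ2,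
      min_le_left _ _, ?_⟩
    calc C * min (1 / ((l : ℝ) + 1)) (m / (4 * ((l : ℝ) + 1)) / (C + 1))
        ≤ (C + 1) * (m / (4 * ((l : ℝ) + 1)) / (C + 1)) :=
          mul_le_mul (by linarith) (min_le_right _ _) (lt_min hl hδ2).le hC1.le
      _ = m / (4 * ((l : ℝ) + 1)) := by field_simp
  obtain ⟨k, hk⟩ := hcut δ hδ0
  obtain ⟨j, ⟨hj1, hj2⟩, hj3⟩ :=
    ((hmass.and (hdef δ hδ0 k hk _ hη)).and (eventually_ge_atTop l)).exists
  have hφ : Measurable (fun x => ENNReal.ofReal ‖H.gr (u j) x‖) :=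
    (H.gr_cont (hu j)).norm.measurable.ennreal_ofReal
  have hDpos : 0 < C * δ + m / (4 * ((l : ℝ) + 1)) := by positivity
  obtain ⟨x, hxS, hx0, hxG⟩ := pigeon (μ := H.vol) (S := Metric.ball p (1 / ((l : ℝ) + 1)))
    measurableSet_ball hφ (G := H.GkX k (c.cchi δ) (u j))
    (D := ENNReal.ofReal (C * δ + m / (4 * ((l : ℝ) + 1)))) (m := ENNReal.ofReal m)
    (by simpa using hDpos) ENNReal.ofReal_ne_top (by simpa using hm) ENNReal.ofReal_ne_top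
    ((setLIntegral_le_lintegral _ _).trans hj2) hj1
  refine ⟨δ, k, j, x, hδ0, hδ1, hk, hj3, (Metric.mem_ball.1 hxS).le, ?_, hxG.trans ?_⟩
  · intro h0
    apply hx0
    rw [h0]
    simp
  · have h2 : (2 : ℝ≥0∞) = ENNReal.ofReal 2 := by simp
    rw [h2, ← ENNReal.ofReal_mul (by norm_num), ← ENNReal.ofReal_div_of_pos hm]
    apply ENNReal.ofReal_le_ofReal
    rw [div_le_iff₀ hm]
    have h3 : 1 / ((l : ℝ) + 1) * m = 4 * (m / (4 * ((l : ℝ) + 1))) := by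
      field_simp
    rw [h3]
    linarith

theorem exists_pickX {R : ℝ} (c : RawCertH n R) {u : ℕ → Ev n → ℝ} (hu : ∀ j, ContDiff ℝ 1 (u j))
    {C : ℝ} (hC : 0 ≤ C)
    (hcut : ∀ δ > 0, ∃ k : KerH n, c.CutOf δ k)
    (hdef : ∀ δ > 0, ∀ k : KerH n, c.CutOf δ k → ∀ η > 0, ∀ᶠ j in atTop,
      H.DefX k (c.cchi δ) (u j) ≤ ENNReal.ofReal (C * δ + η))
    {p : Ev n} (hp : H.HasMass u p) :
    ∃ (δ : ℕ → ℝ) (k : ℕ → KerH n) (j : ℕ → ℕ) (x : ℕ → Ev n) (ν : Ev n),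
      (∀ l, 0 < δ l) ∧ Tendsto δ atTop (𝓝 0) ∧ (∀ l, c.CutOf (δ l) (k l)) ∧
      Tendsto j atTop atTop ∧ Tendsto x atTop (𝓝 p) ∧ (∀ l, H.gr (u (j l)) (x l) ≠ 0) ∧
      ‖ν‖ = 1 ∧
      Tendsto (fun l => ‖H.gr (u (j l)) (x l)‖⁻¹ • H.gr (u (j l)) (x l)) atTop (𝓝 ν) ∧
      Tendsto (fun l => H.GkX (k l) (c.cchi (δ l)) (u (j l)) (x l)) atTop (𝓝 0) := by
  choose δ k j x hδ0 hδ1 hk hj hx hgr hG using H.pick_stepX c hu hC hcut hdef hp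
  have hlim : Tendsto (fun l : ℕ => 1 / ((l : ℝ) + 1)) atTop (𝓝 0) :=
    tendsto_one_div_add_atTop_nhds_zero_nat
  have hmem : ∀ l, ‖H.gr (u (j l)) (x l)‖⁻¹ • H.gr (u (j l)) (x l) ∈
      Metric.sphere (0 : Ev n) 1 := by
    intro l
    rw [mem_sphere_zero_iff_norm]
    rw [norm_smul, norm_inv, norm_norm]
    exact inv_mul_cancel₀ (norm_ne_zero_iff.2 (hgr l))
  obtain ⟨ν, hν, φ, hφ, hφν⟩ := (isCompact_sphere (0 : Ev n) 1).tendsto_subseq hmem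
  have hφt : Tendsto φ atTop atTop := hφ.tendsto_atTop
  refine ⟨δ ∘ φ, k ∘ φ, j ∘ φ, x ∘ φ, ν, fun l => hδ0 _, ?_, fun l => hk _, ?_, ?_,
    fun l => hgr _, mem_sphere_zero_iff_norm.1 hν, hφν, ?_⟩
  · exact (squeeze_zero (fun l => (hδ0 l).le) hδ1 hlim).comp hφt
  · exact (tendsto_atTop_mono hj tendsto_id).comp hφt
  · have h1 : Tendsto x atTop (𝓝 p) := by
      rw [tendsto_iff_dist_tendsto_zero]
      exact squeeze_zero (fun l => dist_nonneg) hx hlim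
    exact h1.comp hφt
  · have h1 : Tendsto (fun l : ℕ => ENNReal.ofReal (1 / ((l : ℝ) + 1))) atTop (𝓝 0) := by
      have := (ENNReal.continuous_ofReal.tendsto 0).comp hlim
      rwa [ENNReal.ofReal_zero] at this
    have h2 : Tendsto (fun l => H.GkX (k l) (c.cchi (δ l)) (u (j l)) (x l)) atTop (𝓝 0) :=
      tendsto_of_tendsto_of_tendsto_of_le_of_le tendsto_const_nhds h1 (fun l => zero_le)
        hG
    exact h2.comp hφt

end HDataH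

end Vale.Agent.Lib.P219
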