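import Vale.Agent.Lib.P219.K.Ri.NearX
import Vale.Agent.Lib.P219.K.Profile

/-!
# P219 rigidity, curvature `≤ -1`: the defect tends to zero along a minimising sequence

As `Ri/SeqLim` and `not_nearPhi` in `K/MainH`: profile `Φ` of `exists_profileOK` (with `R₁` between `R`
and `Rm`), `Vs = volM n R`, `Φ Vs = areaM n R`, `Φ' Vs = (n-1) coth R = k.Hm` (uniqueness of the
derivative: `Φ ∘ volM = areaM` near `R`, `hasDerivAt_volM`, `hasDerivAt_areaM`), `c₀ = 1`;
`first_varH` with `partAH` (`c = 1 - ε₁`) and `u_j ∈ Adm K h` eventually; then `DefX_le`.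
-/

namespace Vale.Agent.Lib.P219

open MeasureTheory Set Filter Topology
open scoped ENNReal

namespace HData

private theorem seqLimX_indicator {n : ℕ} (H : HData n) {Ω : Set (Ev n)}
    (hΩ : Bornology.IsBounded Ω)
    (hm : MeasurableSet Ω) : Integrable (Ω.indicator (1 : Ev n → ℝ)) H.vol := by
  have := H.vol_isFiniteMeasureOnCompacts
  have h1 : H.vol Ω ≠ ⊤ := hΩ.measure_lt_top.ne
  exact (integrable_indicator_iff hm).2 (integrableOn_const h1)

private theorem seqLimX_integrable {n : ℕ} (H : HData n) {Ω K : Set (Ev n)} {u : ℕ → Ev n → ℝ}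
    {A₀ : ℝ} (hS : H.MinSeqA Ω K u A₀)
    (hK : IsCompact K) (j : ℕ) : Integrable (u j) H.vol :=
  H.integrable_of_continuous (hS.smooth j).continuous
    (hK.of_isClosed_subset (isClosed_tsupport _) (hS.supp j))

private theorem seqLimX_layer {n : ℕ} (H : HData n) {Ω K : Set (Ev n)} {u : ℕ → Ev n → ℝ}
    {A₀ : ℝ} (hS : H.MinSeqA Ω K u A₀)
    (hK : IsCompact K) (hΩ : Bornology.IsBounded Ω) (hm : MeasurableSet Ω) (j : ℕ) :
    ∫ x, u j x * (1 - u j x) ∂H.vol ≤
      ∫ x, |u j x - Ω.indicator (1 : Ev n → ℝ) x| ∂H.vol := by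
  have hi := seqLimX_integrable H hS hK j
  have hi2 : Integrable (fun x => u j x * (1 - u j x)) H.vol := by
    refine H.integrable_of_continuous ?_ ?_
    · have := (hS.smooth j).continuous
      fun_prop
    · refine HasCompactSupport.intro
        (hK.of_isClosed_subset (isClosed_tsupport _) (hS.supp j)) fun x hx => ?_
      rw [image_eq_zero_of_notMem_tsupport hx, zero_mul]
  refine integral_mono hi2 ((hi.sub (seqLimX_indicator H hΩ hm)).abs) fun x => ?_
  show u j x * (1 - u j x) ≤ |u j x - Ω.indicator (1 : Ev n → ℝ) x|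
  have h0 := hS.nonneg j x
  have h1 := hS.le_one j x
  by_cases hx : x ∈ Ω
  · rw [Set.indicator_of_mem hx, Pi.one_apply, abs_of_nonpos (by linarith)]
    nlinarith
  · rw [Set.indicator_of_notMem hx, sub_zero, abs_of_nonneg h0]
    nlinarith

/-- see `MinSeq.V_lim` in `Ri/SeqLim` -/
theorem MinSeqA.V_lim {n : ℕ} (H : HData n) {Ω K : Set (Ev n)} {u : ℕ → Ev n → ℝ} {A₀ : ℝ}
    (hS : H.MinSeqA Ω K u A₀) (hK : IsCompact K) (hΩ : Bornology.IsBounded Ω)
    (hm : MeasurableSet Ω) :
    Tendsto (fun j => H.V (u j)) atTop (𝓝 (H.vol Ω).toReal) := by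
  rw [tendsto_iff_dist_tendsto_zero]
  refine squeeze_zero (fun j => dist_nonneg) (fun j => ?_) hS.conv
  have hi := seqLimX_integrable H hS hK j
  have hi2 := seqLimX_indicator H hΩ hm
  have hind : ∫ x, Ω.indicator (1 : Ev n → ℝ) x ∂H.vol = (H.vol Ω).toReal := by
    rw [integral_indicator_one hm]
    rfl
  rw [Real.dist_eq, ← hind]
  unfold V
  rw [← integral_sub hi hi2]
  exact abs_integral_le_integral_abs

end HData

namespace HDataH

variable {n : ℕ} (H : HDataH n)

/-- derivative of the profile at the model volume -/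
private theorem seqLimX_profile_deriv (hn : 2 ≤ n) {Φ Φ' : ℝ → ℝ} {R R₁ : ℝ} (hR : 0 < R)
    (hR₁ : R < R₁) (hd : ∀ V, 0 < V → HasDerivAt Φ (Φ' V) V)
    (hval : ∀ S, 0 < S → S ≤ R₁ → Φ (volM n S) = areaM n S) :
    Φ' (volM n R) = (n - 1) * (Real.cosh R / Real.sinh R) := by
  have hn1 : 1 ≤ n := by omega
  have h1 : HasDerivAt (fun S => Φ (volM n S)) (Φ' (volM n R) * areaM n R) R :=
    HasDerivAt.comp (h₂ := Φ) (h := volM n) R (hd _ (volM_pos hn1 hR)) (hasDerivAt_volM R)
  have h2 : HasDerivAt (fun S => Φ (volM n S))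
      ((n - 1) * (Real.cosh R / Real.sinh R) * areaM n R) R := by
    refine (hasDerivAt_areaM hn hR).congr_of_eventuallyEq ?_
    filter_upwards [Ioo_mem_nhds hR hR₁] with S hS
    exact hval S hS.1 hS.2.le
  have h3 := h1.unique h2
  exact mul_right_cancel₀ (areaM_pos hn1 hR).ne' h3

theorem DefX_small (hn : 2 ≤ n) (hk : HasKer n) {R Rm : ℝ} (hR : 0 < R) (hRm : R < Rm)
    (hker : ∀ S, 0 < S → S ≤ Rm → HasKerR n S) (k : KerH n)
    (hHm : k.Hm = (n - 1) * (Real.cosh R / Real.sinh R)) {X : ℝ → ℝ → ℝ → ℝ} (hX : k.Margin X)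
    {Ω K : Set (Ev n)} {u : ℕ → Ev n → ℝ} (hS : H.MinSeqA Ω K u (areaM n R))
    (hK : IsCompact K) (hc : H.Conv K) (hΩ : Bornology.IsBounded Ω) (hm : MeasurableSet Ω)
    (hvol : (H.vol Ω).toReal = volM n R) {η : ℝ} (hη : 0 < η) :
    ∀ᶠ j in atTop, H.DefX k X (u j) ≤
      ENNReal.ofReal (k.a * areaM n R ^ 2 + k.K' * areaM n R - k.d * (n * om n * volM n R) + η) := by
  have hn1 : 1 ≤ n := by omega
  have hVl := HData.MinSeqA.V_lim H.toHData hS hK hΩ hm
  have hAl := hS.A_lim
  rw [hvol] at hVl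
  have hVs : 0 < volM n R := volM_pos hn1 hR
  have hAs : 0 < areaM n R := areaM_pos hn1 hR
  obtain ⟨Φ, Φ', hΦ, -, hval⟩ := exists_profileOK hn (hR.trans hRm) hker
    (R₁ := (R + Rm) / 2) (by linarith) (by linarith)
  have hΦd := seqLimX_profile_deriv hn hR (R₁ := (R + Rm) / 2) (by linarith) hΦ.deriv hval
  have hΦv : Φ (volM n R) = areaM n R := hval R hR (by linarith)
  rw [← hHm] at hΦd
  have hHmp := k.Hm_pos
  have hd := k.d_pos
  have hom := om_pos n
  have hn0 : (0 : ℝ) < n := by exact_mod_cast (by omega : 0 < n)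
  obtain ⟨C, hC⟩ : ∃ C, C = areaM n R + k.d * (n * om n * volM n R) := ⟨_, rfl⟩
  have hCpos : 0 < C := by
    rw [hC]
    positivity
  obtain ⟨t, ht⟩ : ∃ t, t = η / (2 * C) := ⟨_, rfl⟩
  have htpos : 0 < t := by
    rw [ht]
    positivity
  have hev : ∀ᶠ V in 𝓝 (volM n R), HasDerivAt Φ (Φ' V) V := by
    filter_upwards [Ioi_mem_nhds hVs] with V hV
    exact hΦ.deriv V hV
  obtain ⟨ε₁, hε₁, hFV⟩ := H.first_varH k hn hK hc hVs hev
    (hΦ.deriv_cont.continuousAt (Ioi_mem_nhds hVs)) (hΦ.deriv_nonneg _ hVs) (hΦ.pos _ hVs)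
    one_pos htpos
  obtain ⟨h₀, hh₀, hlow⟩ := H.partAH hn hk hΦ hK hc (c := 1 - ε₁) (by linarith)
  obtain ⟨h, hh⟩ : ∃ h, h = min t (h₀ / 4) := ⟨_, rfl⟩
  have hhpos : 0 < h := by
    rw [hh]
    positivity
  have hht : h ≤ t := by
    rw [hh]
    exact min_le_left _ _
  have hhh : 4 * h ≤ h₀ := by
    have : h ≤ h₀ / 4 := by
      rw [hh]
      exact min_le_right _ _
    linarith
  -- eventually positive volume
  have hVpos : ∀ᶠ j in atTop, 0 < H.V (u j) := hVl.eventually_const_lt hVs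
  have hVnear : ∀ᶠ j in atTop, |H.V (u j) - volM n R| ≤ ε₁ := by
    have h1 := Metric.tendsto_nhds.1 hVl ε₁ hε₁
    filter_upwards [h1] with j hj
    rw [Real.dist_eq] at hj
    exact hj.le
  -- eventually admissible
  have hlay : ∀ᶠ j in atTop, ∫ x, |u j x - Ω.indicator (1 : Ev n → ℝ) x| ∂H.vol ≤
      h * H.V (u j) := by
    have h1 : Tendsto (fun j => h * H.V (u j) -
        ∫ x, |u j x - Ω.indicator (1 : Ev n → ℝ) x| ∂H.vol) atTop (𝓝 (h * volM n R - 0)) :=
      (hVl.const_mul h).sub hS.conv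
    have h2 : 0 < h * volM n R - 0 := by
      rw [sub_zero]
      positivity
    filter_upwards [h1.eventually_const_lt h2] with j hj
    linarith
  -- eventually near optimal
  have hΦcont : ContinuousAt Φ (volM n R) := (hΦ.deriv _ hVs).continuousAt
  have hup : ∀ᶠ j in atTop, H.A (u j) ≤ (1 + ε₁) * 1 * Φ (H.V (u j)) := by
    have h1 : Tendsto (fun j => (1 + ε₁) * 1 * Φ (H.V (u j)) - H.A (u j))
        atTop (𝓝 ((1 + ε₁) * 1 * Φ (volM n R) - areaM n R)) :=
      ((hΦcont.tendsto.comp hVl).const_mul _).sub hAl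
    have h2 : 0 < (1 + ε₁) * 1 * Φ (volM n R) - areaM n R := by
      rw [hΦv]
      have h4 : (1 + ε₁) * 1 * areaM n R - areaM n R = ε₁ * areaM n R := by ring
      rw [h4]
      positivity
    filter_upwards [h1.eventually_const_lt h2] with j hj
    linarith
  -- the limit of the bound
  have hlim : Tendsto (fun j => k.a * H.A (u j) ^ 2 + (t + k.K') * H.A (u j)
        - k.d * (n * om n * ((1 - h) * H.V (u j))))
      atTop (𝓝 (k.a * areaM n R ^ 2 + (t + k.K') * areaM n R
        - k.d * (n * om n * ((1 - h) * volM n R)))) :=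
    (((hAl.pow 2).const_mul _).add (hAl.const_mul _)).sub
      (((hVl.const_mul _).const_mul _).const_mul _)
  have hvlt : k.a * areaM n R ^ 2 + (t + k.K') * areaM n R
        - k.d * (n * om n * ((1 - h) * volM n R)) <
      k.a * areaM n R ^ 2 + k.K' * areaM n R - k.d * (n * om n * volM n R) + η := by
    have h2 : k.a * areaM n R ^ 2 + (t + k.K') * areaM n R
        - k.d * (n * om n * ((1 - h) * volM n R)) =
        k.a * areaM n R ^ 2 + k.K' * areaM n R - k.d * (n * om n * volM n R) +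
        (t * areaM n R + h * (k.d * (n * om n * volM n R))) := by ring
    have h3 : t * areaM n R + h * (k.d * (n * om n * volM n R)) ≤ t * C := by
      rw [hC, mul_add]
      have h4 : h * (k.d * (n * om n * volM n R)) ≤ t * (k.d * (n * om n * volM n R)) :=
        mul_le_mul_of_nonneg_right hht (by positivity)
      linarith
    have h5 : t * C = η / 2 := by
      rw [ht]
      field_simp
    rw [h2]
    linarith
  filter_upwards [hVpos, hVnear, hlay, hup, hlim.eventually_lt_const hvlt] with j h1 h2 h3 h4 h5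
  have hadm : H.Adm K h (u j) :=
    { smooth := hS.smooth j
      supp := hS.supp j
      nonneg := hS.nonneg j
      le_one := hS.le_one j
      mass_pos := h1
      layer := (HData.seqLimX_layer H.toHData hS hK hΩ hm j).trans h3 }
  have hE := hFV h hhpos.le (u j) hadm h2 h4 (fun v hv => by
    rw [mul_one]
    exact hlow v (hv.mono H.toHData hhh))
  rw [one_mul, hΦd] at hE
  refine (H.DefX_le k hn hX hK hadm htpos.le hE).trans ?_
  exact ENNReal.ofReal_le_ofReal h5.le

end HDataH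

end Vale.Agent.Lib.P219
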