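import Vale.Agent.Lib.P219.K.Ri.Defs

/-!
# P219 rigidity, curvature `≤ -1`: existence of a minimising sequence

As `Ri/Seq` (`exists_minSeq`): `approx` with `ε = 1/(j+1)`, `convex_exhaustion`; for the lower bound of
`liminf A (u_j)`: `exists_profileOK` (`Φ (volM n R) = areaM n R`) and `partAH` for every `c < 1`
(see `fin_keyH` in `K/FinH`), `V (u_j) → |Ω|` and continuity of `Φ`.
-/

namespace Vale.Agent.Lib.P219

open MeasureTheory Set Filter Topology
open scoped ENNReal ContDiff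

private theorem SeqX_lower {n : ℕ} {H : HData n} {Ω K : Set (Ev n)} (hm : MeasurableSet Ω)
    (hfin : H.vol Ω ≠ ⊤) {h : ℝ} (hh : 0 < h) {c : ℝ} (hc : 0 ≤ c) {Φ : ℝ → ℝ}
    (hΦm : ∀ V W, 0 < V → V ≤ W → Φ V ≤ Φ W)
    (hA : ∀ u, H.Adm K h u → c * Φ (H.V u) ≤ H.A u)
    {ε : ℝ} (hεm : ε < (H.vol Ω).toReal)
    (hεh : ε * (1 + h) < h * (H.vol Ω).toReal) (hK : IsCompact K)
    {u : Ev n → ℝ} (hu1 : ContDiff ℝ 1 u) (hu2 : tsupport u ⊆ K) (hu3 : ∀ x, 0 ≤ u x)
    (hu4 : ∀ x, u x ≤ 1)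
    (hu5 : ∫ x, |u x - Ω.indicator (1 : Ev n → ℝ) x| ∂H.vol ≤ ε) :
    c * Φ ((H.vol Ω).toReal - ε) ≤ H.A u := by
  set m := (H.vol Ω).toReal with hmdef
  have hind : Integrable (Ω.indicator (1 : Ev n → ℝ)) H.vol :=
    (integrable_indicator_iff hm).mpr (integrableOn_const hfin)
  have hindI : ∫ x, Ω.indicator (1 : Ev n → ℝ) x ∂H.vol = m := by
    rw [integral_indicator_one hm]
    rfl
  have hus : HasCompactSupport u := hK.of_isClosed_subset (isClosed_tsupport u) hu2
  have hui : Integrable u H.vol := H.integrable_of_continuous hu1.continuous hus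
  have hdi : Integrable (fun x => |u x - Ω.indicator (1 : Ev n → ℝ) x|) H.vol :=
    (hui.sub hind).abs
  have hV : m - ε ≤ H.V u := by
    have h1 : ∫ x, (Ω.indicator (1 : Ev n → ℝ) x - u x) ∂H.vol
        ≤ ∫ x, |u x - Ω.indicator (1 : Ev n → ℝ) x| ∂H.vol := by
      refine integral_mono (hind.sub hui) hdi fun x => ?_
      show Ω.indicator (1 : Ev n → ℝ) x - u x ≤ |u x - Ω.indicator (1 : Ev n → ℝ) x|
      rw [abs_sub_comm]
      exact le_abs_self _
    rw [integral_sub hind hui, hindI] at h1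
    unfold HData.V
    linarith
  have hVpos : 0 < H.V u := by linarith
  have hlay : ∫ x, u x * (1 - u x) ∂H.vol ≤ h * H.V u := by
    have h1 : ∫ x, u x * (1 - u x) ∂H.vol
        ≤ ∫ x, |u x - Ω.indicator (1 : Ev n → ℝ) x| ∂H.vol := by
      refine integral_mono_of_nonneg (Filter.Eventually.of_forall fun x => ?_) hdi
        (Filter.Eventually.of_forall fun x => ?_)
      · have h3 := hu3 x
        have h4 := hu4 x
        simp only [Pi.zero_apply]
        exact mul_nonneg h3 (by linarith)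
      · have h3 := hu3 x
        have h4 := hu4 x
        show u x * (1 - u x) ≤ |u x - Ω.indicator (1 : Ev n → ℝ) x|
        by_cases hx : x ∈ Ω
        · rw [indicator_of_mem hx, Pi.one_apply, abs_sub_comm, abs_of_nonneg (by linarith)]
          nlinarith
        · rw [indicator_of_notMem hx, sub_zero, abs_of_nonneg h3]
          nlinarith
    have h2 : h * (m - ε) ≤ h * H.V u := mul_le_mul_of_nonneg_left hV hh.le
    nlinarith
  have hadm : H.Adm K h u := ⟨hu1, hu2, hu3, hu4, hVpos, hlay⟩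
  have h7 := hA u hadm
  have h8 : Φ (m - ε) ≤ Φ (H.V u) := hΦm _ _ (by linarith) hV
  have h9 : c * Φ (m - ε) ≤ c * Φ (H.V u) := mul_le_mul_of_nonneg_left h8 hc
  linarith

theorem exists_minSeqA {n : ℕ} (hn : 2 ≤ n) (hk : HasKer n) {R Rm : ℝ} (hR : 0 < R) (hRm : R < Rm)
    (hker : ∀ S, 0 < S → S ≤ Rm → HasKerR n S)
    {g : Ev n → (Ev n →L[ℝ] Ev n →L[ℝ] ℝ)} (hg : IsMetric g) {H : HDataH n}
    (hH : Represents H.toHData g) {Ω : Set (Ev n)} (hΩ : Bornology.IsBounded Ω)
    (hm : MeasurableSet Ω) (hvol : (H.vol Ω).toReal = volM n R)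
    (hper : per g Ω = ENNReal.ofReal (areaM n R)) :
    ∃ K : Set (Ev n), IsCompact K ∧ H.Conv K ∧ ∃ u, H.MinSeqA Ω K u (areaM n R) := by
  have hn1 : 1 ≤ n := by omega
  have hvm : 0 < volM n R := volM_pos hn1 hR
  have ham : 0 < areaM n R := areaM_pos hn1 hR
  have hm0 : 0 < (H.vol Ω).toReal := by rw [hvol]; exact hvm
  have hfin : H.vol Ω ≠ ⊤ := by
    intro h0
    rw [h0, ENNReal.toReal_top] at hm0
    exact lt_irrefl _ hm0
  have hp : per g Ω ≠ ⊤ := by
    rw [hper]
    exact ENNReal.ofReal_ne_top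
  have hpR : (per g Ω).toReal = areaM n R := by
    rw [hper, ENNReal.toReal_ofReal ham.le]
  obtain ⟨Φ, Φ', hΦ, hmono, hval⟩ := exists_profileOK hn (hR.trans hRm) hker hR hRm
  have hΦm : Φ (H.vol Ω).toReal = areaM n R := by rw [hvol]; exact hval R hR le_rfl
  obtain ⟨K₀, hK₀, happ⟩ := approx hg hH hΩ hm hp
  obtain ⟨K, hK, hK₀K, hKc⟩ := H.convex_exhaustion K₀ hK₀
  have hεpos : ∀ j : ℕ, (0 : ℝ) < 1 / ((j : ℝ) + 1) := fun j => by positivity
  choose u hu1 hu2 hu3 hu4 hu5 hu6 using fun j : ℕ => happ (1 / ((j : ℝ) + 1)) (hεpos j)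
  have hεt : Tendsto (fun j : ℕ => 1 / ((j : ℝ) + 1)) atTop (𝓝 0) :=
    tendsto_one_div_add_atTop_nhds_zero_nat
  refine ⟨K, hK, hKc, u, hu1, fun j => (hu2 j).trans hK₀K, hu3, hu4, ?_, ?_⟩
  · exact squeeze_zero (fun j => integral_nonneg fun x => abs_nonneg _) hu5 hεt
  · refine tendsto_order.2 ⟨fun a ha => ?_, fun a ha => ?_⟩
    · -- lower bound
      have t1 : Tendsto (fun c : ℝ => c * areaM n R) (𝓝[<] 1) (𝓝 (1 * areaM n R)) := by
        have : Continuous (fun c : ℝ => c * areaM n R) := by fun_prop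
        exact (this.tendsto _).mono_left nhdsWithin_le_nhds
      rw [one_mul] at t1
      have e1 : ∀ᶠ c : ℝ in 𝓝[<] (1 : ℝ), 0 < c :=
        (eventually_gt_nhds one_pos).filter_mono nhdsWithin_le_nhds
      obtain ⟨c, hc1, hc2, hc3⟩ :=
        (((t1.eventually (lt_mem_nhds ha)).and (e1.and self_mem_nhdsWithin))).exists
      obtain ⟨h, hh, hA⟩ := H.partAH hn hk hΦ hK hKc hc3
      have e2 : ∀ᶠ j : ℕ in atTop, 1 / ((j : ℝ) + 1) < (H.vol Ω).toReal :=
        hεt.eventually (gt_mem_nhds hm0)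
      have e3 : ∀ᶠ j : ℕ in atTop, 1 / ((j : ℝ) + 1) < h * (H.vol Ω).toReal / (1 + h) := by
        have : 0 < h * (H.vol Ω).toReal / (1 + h) := by positivity
        exact hεt.eventually (gt_mem_nhds this)
      have t2 : Tendsto (fun j : ℕ => c * Φ ((H.vol Ω).toReal - 1 / ((j : ℝ) + 1))) atTop
          (𝓝 (c * areaM n R)) := by
        have h1 : ContinuousAt Φ (H.vol Ω).toReal := (hΦ.deriv _ hm0).continuousAt
        have h2 : Tendsto (fun j : ℕ => (H.vol Ω).toReal - 1 / ((j : ℝ) + 1)) atTop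
            (𝓝 (H.vol Ω).toReal) := by
          have h3 := hεt.const_sub (H.vol Ω).toReal
          rwa [sub_zero] at h3
        have h4 := (h1.tendsto.comp h2).const_mul c
        rw [hΦm] at h4
        exact h4
      have e4 := t2.eventually (lt_mem_nhds hc1)
      filter_upwards [e2, e3, e4] with j h2 h3 h4
      refine h4.trans_le ?_
      refine SeqX_lower hm hfin hh hc2.le hmono hA h2 ?_ hK (hu1 j)
        ((hu2 j).trans hK₀K) (hu3 j) (hu4 j) (hu5 j)
      rw [lt_div_iff₀ (by linarith)] at h3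
      exact h3
    · have t2 : Tendsto (fun j : ℕ => (1 + 1 / ((j : ℝ) + 1)) * areaM n R
          + 1 / ((j : ℝ) + 1)) atTop (𝓝 (areaM n R)) := by
        have hcont : Continuous (fun ε : ℝ => (1 + ε) * areaM n R + ε) := by fun_prop
        have h1 := hcont.tendsto 0
        have h2 : (1 + (0 : ℝ)) * areaM n R + 0 = areaM n R := by ring
        rw [h2] at h1
        exact h1.comp hεt
      filter_upwards [t2.eventually (gt_mem_nhds ha)] with j hj
      have h6 := hu6 j
      rw [hpR] at h6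
      exact h6.trans_lt hj

end Vale.Agent.Lib.P219
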