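import Mathlib.Analysis.Convex.Contractible
import Vale.Agent.Lib.P219.K.Ri.Cut
import Vale.Agent.Lib.P219.K.Ri.SeqX
import Vale.Agent.Lib.P219.K.Ri.SeqLimX
import Vale.Agent.Lib.P219.K.Ri.MassX
import Vale.Agent.Lib.P219.K.Ri.PickX
import Vale.Agent.Lib.P219.K.Ri.LimitX

/-!
# P219 rigidity, curvature `≤ -1`: boundary pairs of an extremal domain

As `rigidity_HData` in `Ri/Bdry`: `exists_minSeqA`, `DefX_small` with the cutoffs (for `CutOf δ k`:
`a A² + K' A - d n ω V = d δ n ω A`), `MinSeqA.hasMass`, `exists_pickX`, `limit_pairX`.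
-/

namespace Vale.Agent.Lib.P219

open MeasureTheory Set Filter Topology
open scoped ENNReal ContDiff

theorem boundary_HDataH {n : ℕ} (hn : 2 ≤ n) (hk : HasKer n) {R Rm : ℝ} (hR : 0 < R)
    (hRm : R < Rm) (hker : ∀ S, 0 < S → S ≤ Rm → HasKerR n S) {c : RawCertH n R} (hc : c.Strict)
    {g : Ev n → (Ev n →L[ℝ] Ev n →L[ℝ] ℝ)} (hg : IsMetric g) {H : HDataH n}
    (hH : Represents H.toHData g) {Ω : Set (Ev n)} (hΩ : Bornology.IsBounded Ω) (ho : IsOpen Ω)
    (hreg : interior (closure Ω) ⊆ Ω) (hvol : (H.vol Ω).toReal = volM n R)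
    (hper : per g Ω = ENNReal.ofReal (areaM n R)) :
    ∃ p ν : Ev n, p ∈ frontier Ω ∧ ‖ν‖ = 1 ∧ ∀ q ∈ frontier Ω, ∀ w, w ≠ 0 → H.Ex p w = q →
      H.Qn p w = 1 ∧ Real.tanh (‖w‖ / 2) * ‖w‖ = Real.tanh R * inner ℝ ν w := by
  have hm : MeasurableSet Ω := ho.measurableSet
  have hn1 : 1 ≤ n := by omega
  have hV0 : 0 < volM n R := volM_pos hn1 hR
  have hA0 : 0 < areaM n R := areaM_pos hn1 hR
  have hne : Ω.Nonempty := by
    rw [Set.nonempty_iff_ne_empty]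
    intro h
    rw [h, measure_empty, ENNReal.toReal_zero] at hvol
    exact hV0.ne hvol
  obtain ⟨K, hK, hconv, u, hS⟩ := exists_minSeqA hn hk hR hRm hker hg hH hΩ hm hvol hper
  have hmass : ∀ p ∈ frontier Ω, H.toHData.HasMass u p := fun p hp =>
    HData.MinSeqA.hasMass hS hK hΩ ho hreg hp
  have hnt : Nontrivial (Ev n) := by
    refine ⟨⟨EuclideanSpace.single (⟨0, by omega⟩ : Fin n) (1 : ℝ), 0, fun h => ?_⟩⟩
    have h1 := congrArg (fun v : Ev n => v (⟨0, by omega⟩ : Fin n)) h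
    simp at h1
  have hfr : (frontier Ω).Nonempty := by
    rw [nonempty_frontier_iff]
    refine ⟨hne, fun h => ?_⟩
    rw [h] at hΩ
    exact NormedSpace.unbounded_univ ℝ (Ev n) hΩ
  obtain ⟨p, hp⟩ := hfr
  have hom : 0 ≤ om n := ENNReal.toReal_nonneg
  have hC : 0 ≤ c.d * (n * om n) * areaM n R := by
    have h1 := c.d_pos
    have h2 := hA0.le
    positivity
  have hdef : ∀ δ > 0, ∀ k : KerH n, c.CutOf δ k → ∀ η > 0, ∀ᶠ j in atTop,
      H.DefX k (c.cchi δ) (u j) ≤ ENNReal.ofReal (c.d * (n * om n) * areaM n R * δ + η) := by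
    intro δ hδ k hcut η hη
    have h1 := H.DefX_small hn hk hR hRm hker k hcut.Hm_eq
      (RawCertH.CutOf.margin c hn hR hδ hcut) hS hK hconv hΩ hm hvol hη
    filter_upwards [h1] with j hj
    refine hj.trans (le_of_eq ?_)
    congr 1
    rw [hcut.a_eq, hcut.d_eq, hcut.K_eq]
    have hA := hA0.ne'
    field_simp
    ring
  obtain ⟨δ, k, j, x, ν, hδ, hδ0, hcutl, hj, hx, hgr, hν, hνl, hG⟩ :=
    H.exists_pickX c hS.smooth hC (fun δ hδ => c.exists_cut hn hR hδ) hdef (hmass p hp)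
  refine ⟨p, ν, hp, hν, fun q hq w hw0 hw => ?_⟩
  exact H.limit_pairX hn hR c hc hS.smooth hδ hδ0 hcutl hj hx hgr hν hνl hG hw0 hw (hmass q hq)

end Vale.Agent.Lib.P219
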