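import Vale.Agent.Lib.P219.K.Ri.Defs

/-!
# P219 rigidity, curvature `≤ -1`: the true pair kernel with its excess

As in `K/BtLower` (`Bt_lower`), without a case distinction: AM-GM and `ex_couple` give
`Bt ≥ B + |c c'| sqrt(η η') (1 - 1/Q) / sinh r`, hence `Bt Q ≥ B + (Q - 1) N`.
-/

namespace Vale.Agent.Lib.P219

open MeasureTheory Set Filter Topology

theorem KerH.N_nonneg {n : ℕ} (k : KerH n) {r c c' : ℝ} (hr : 0 < r) (hc : |c| ≤ 1)
    (hc' : |c'| ≤ 1) : 0 ≤ k.N r c c' := by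
  unfold KerH.N
  have hs : 0 < Real.sinh r := Real.sinh_pos_iff.2 hr
  by_cases h : c ≤ 0 ∨ c' ≤ 0
  · have h1 := k.B_nonneg_of_nonpos k.Hm_pos.le le_rfl hr hc hc' h
    have h2 : 0 ≤ |c * c'| * Real.sqrt (k.η r c * k.η r c') / Real.sinh r := by positivity
    linarith
  · obtain ⟨h1, h2⟩ := not_or.1 h
    have hc0 : 0 < c := not_le.1 h1
    have hc0' : 0 < c' := not_le.1 h2
    have h3 := k.B_slope_m k.Hm_pos.le le_rfl hr hc0.le ((abs_le.1 hc).2) hc0'.le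
      ((abs_le.1 hc').2)
    rw [abs_of_pos (mul_pos hc0 hc0')]
    exact h3

namespace HDataH

variable {n : ℕ} (H : HDataH n) (k : KerH n)

theorem Bt_lower2 (hn : 2 ≤ n) (x w : Ev n) (hw : w ≠ 0) {c c' : ℝ} (hc : |c| ≤ 1)
    (hc' : |c'| ≤ 1) :
    k.B k.Hm ‖w‖ c c' * (Real.sinh ‖w‖ / ‖w‖) ^ (n - 1)
      + (H.Qn x w - 1) * k.N ‖w‖ c c' * (Real.sinh ‖w‖ / ‖w‖) ^ (n - 1)
      ≤ H.Bt k k.Hm x w c c' * H.th x w := by
  have hr : 0 < ‖w‖ := norm_pos_iff.2 hw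
  have hs : 0 < Real.sinh ‖w‖ := Real.sinh_pos_iff.2 hr
  have hS : 0 < (Real.sinh ‖w‖ / ‖w‖) ^ (n - 1) := pow_pos (div_pos hs hr) _
  have hth : H.th x w = H.Qn x w * (Real.sinh ‖w‖ / ‖w‖) ^ (n - 1) := by
    unfold Qn
    rw [mul_assoc, ← mul_pow]
    have : ‖w‖ / Real.sinh ‖w‖ * (Real.sinh ‖w‖ / ‖w‖) = 1 := by
      field_simp
    rw [this, one_pow, mul_one]
  have hQ : 1 ≤ H.Qn x w := H.one_le_Qn (by omega) x w hw
  have hE : 0 ≤ H.ex x w := H.ex_nonneg (by omega) x w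
  have hE' : 0 ≤ H.ex (H.Ex x w) (-(H.ve x w)) := H.ex_nonneg (by omega) _ _
  have hη : 0 ≤ k.η ‖w‖ c := k.η_nonneg _ _ hc
  have hη' : 0 ≤ k.η ‖w‖ c' := k.η_nonneg _ _ hc'
  suffices h : k.B k.Hm ‖w‖ c c' + (H.Qn x w - 1) * k.N ‖w‖ c c' ≤
      H.Bt k k.Hm x w c c' * H.Qn x w by
    rw [hth, ← mul_assoc, ← add_mul]
    exact mul_le_mul_of_nonneg_right h hS.le
  have hcp := H.ex_couple (by omega) x w hw
  set Q := H.Qn x w with hQdef
  set E := H.ex x w with hEdef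
  set E' := H.ex (H.Ex x w) (-(H.ve x w)) with hE'def
  have hN : k.N ‖w‖ c c' = k.B k.Hm ‖w‖ c c' +
      |c| * |c'| * Real.sqrt (k.η ‖w‖ c * k.η ‖w‖ c') / Real.sinh ‖w‖ := by
    unfold KerH.N
    rw [abs_mul]
  rw [hN]
  set a := k.η ‖w‖ c with hadef
  set b := k.η ‖w‖ c' with hbdef
  have hQ0 : 0 < Q := lt_of_lt_of_le one_pos hQ
  -- AM-GM
  have hag : 2 * (|c| * |c'| * Real.sqrt (a * b) * Real.sqrt (E * E')) ≤
      c ^ 2 * b * E + c' ^ 2 * a * E' := by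
    have hsq : (|c| * Real.sqrt (b * E)) ^ 2 = c ^ 2 * b * E := by
      rw [mul_pow, Real.sq_sqrt (mul_nonneg hη' hE), sq_abs]
      ring
    have hsq' : (|c'| * Real.sqrt (a * E')) ^ 2 = c' ^ 2 * a * E' := by
      rw [mul_pow, Real.sq_sqrt (mul_nonneg hη hE'), sq_abs]
      ring
    have hprod : Real.sqrt (a * b) * Real.sqrt (E * E')
        = Real.sqrt (b * E) * Real.sqrt (a * E') := by
      rw [← Real.sqrt_mul (mul_nonneg hη hη'), ← Real.sqrt_mul (mul_nonneg hη' hE)]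
      congr 1
      ring
    have h3 := two_mul_le_add_sq (|c| * Real.sqrt (b * E)) (|c'| * Real.sqrt (a * E'))
    rw [hsq, hsq'] at h3
    calc 2 * (|c| * |c'| * Real.sqrt (a * b) * Real.sqrt (E * E'))
        = 2 * (|c| * |c'| * (Real.sqrt (a * b) * Real.sqrt (E * E'))) := by ring
      _ = 2 * (|c| * Real.sqrt (b * E)) * (|c'| * Real.sqrt (a * E')) := by rw [hprod]; ring
      _ ≤ _ := h3
  have hK : 0 ≤ |c| * |c'| * Real.sqrt (a * b) := by positivity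
  have hstep : k.B k.Hm ‖w‖ c c' + |c| * |c'| * Real.sqrt (a * b) *
      ((1 - 1 / Q) / Real.sinh ‖w‖) ≤ H.Bt k k.Hm x w c c' := by
    have h4 : |c| * |c'| * Real.sqrt (a * b) * ((1 - 1 / Q) / Real.sinh ‖w‖)
        ≤ |c| * |c'| * Real.sqrt (a * b) * Real.sqrt (E * E') :=
      mul_le_mul_of_nonneg_left hcp hK
    unfold Bt
    rw [← hEdef, ← hE'def, ← hadef, ← hbdef]
    linarith
  have h5 : (k.B k.Hm ‖w‖ c c' + |c| * |c'| * Real.sqrt (a * b) *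
      ((1 - 1 / Q) / Real.sinh ‖w‖)) * Q
      = k.B k.Hm ‖w‖ c c'
        + (Q - 1) * (k.B k.Hm ‖w‖ c c' +
          |c| * |c'| * Real.sqrt (a * b) / Real.sinh ‖w‖) := by
    field_simp
    ring
  rw [← h5]
  exact mul_le_mul_of_nonneg_right hstep hQ0.le

end HDataH

end Vale.Agent.Lib.P219
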