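import Vale.Agent.Lib.P219.K.Ri.Cont

/-!
# P219 rigidity, curvature `≤ -1`: the margin function `chi`

`c.Mar ε` is decreasing in `ε` and invariant under `(r, x, y) ↦ (r, y, x)` (`Kk_symm`).
* `chi` is bounded by `1`, nonnegative (`0` is in the set);
* `{chi > t} = ⋃_{ε > t, ε ≤ 1} interior (Mar ε)` for `t ≥ 0` is open, so `chi` is lower
  semicontinuous and measurable (`LowerSemicontinuous.measurable`);
* each constraint `ε + F ≤ K` (for all `ε` in the set) gives `chi + F ≤ K` (`csSup_le`; for `ε = 0` use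
  `c.B_comp`, `c.B_comp'`, `c.B_lower`, and `B_zero` for `x, y ≤ 0`);
-/

namespace Vale.Agent.Lib.P219

open MeasureTheory Set Filter Topology

namespace RawCertH

variable {n : ℕ} {R : ℝ} (c : RawCertH n R)

private theorem Chi_bdd (r x y : ℝ) :
    BddAbove {ε : ℝ | 0 ≤ ε ∧ ε ≤ 1 ∧ (ε = 0 ∨ (r, x, y) ∈ interior (c.Mar ε))} :=
  ⟨1, fun _ h => h.2.1⟩

private theorem Chi_zero (r x y : ℝ) :
    (0 : ℝ) ∈ {ε : ℝ | 0 ≤ ε ∧ ε ≤ 1 ∧ (ε = 0 ∨ (r, x, y) ∈ interior (c.Mar ε))} :=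
  ⟨le_rfl, zero_le_one, Or.inl rfl⟩

private theorem Chi_le {r x y t : ℝ} (h0 : 0 ≤ t)
    (h : ∀ ε, (r, x, y) ∈ c.Mar ε → ε ≤ t) : c.chi r x y ≤ t := by
  refine csSup_le ⟨0, c.Chi_zero r x y⟩ fun ε hε => ?_
  rcases hε.2.2 with h1 | h1
  · rw [h1]
    exact h0
  · exact h ε (interior_subset h1)

theorem chi_nonneg (r x y : ℝ) : 0 ≤ c.chi r x y :=
  le_csSup (c.Chi_bdd r x y) (c.Chi_zero r x y)

theorem chi_le_one (r x y : ℝ) : c.chi r x y ≤ 1 :=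
  csSup_le ⟨0, c.Chi_zero r x y⟩ fun _ h => h.2.1

private theorem Chi_swap {ε r x y : ℝ} (h : (r, x, y) ∈ c.Mar ε) : (r, y, x) ∈ c.Mar ε := by
  obtain ⟨h1, h2, h3, h4, h5⟩ := h
  refine ⟨h1, fun h => ?_, fun hy hx => ?_, fun hy hx => ?_, fun hx hy => ?_⟩
  · change ε ≤ c.Kk r y x
    rw [c.Kk_symm r y x]
    exact h2 h.symm
  · change ε - y * c.h r ≤ c.Kk r y x ∧ ε - x * c.h r ≤ c.Kk r y x ∧
      ε + y * x * (c.d * r - c.f y - c.f x) ≤ c.Kk r y x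
    rw [c.Kk_symm r y x]
    obtain ⟨a1, a2, a3⟩ := h3 hx hy
    refine ⟨a2, a1, le_trans (le_of_eq ?_) a3⟩
    change ε + y * x * (c.d * r - c.f y - c.f x) = ε + x * y * (c.d * r - c.f x - c.f y)
    ring
  · change ε + -y * c.h r ≤ c.Kk r y x
    rw [c.Kk_symm r y x]
    exact h5 hy hx
  · change ε + -x * c.h r ≤ c.Kk r y x
    rw [c.Kk_symm r y x]
    exact h4 hx hy

private theorem Chi_int {ε r x y : ℝ} (h : (r, x, y) ∈ interior (c.Mar ε)) :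
    (r, y, x) ∈ interior (c.Mar ε) := by
  let σ : ℝ × ℝ × ℝ → ℝ × ℝ × ℝ := fun z => (z.1, z.2.2, z.2.1)
  have hσ : Continuous σ := by fun_prop
  have h1 : σ ⁻¹' (interior (c.Mar ε)) ⊆ c.Mar ε := fun z hz =>
    c.Chi_swap (x := z.2.2) (y := z.2.1) (interior_subset hz)
  exact interior_maximal h1 (isOpen_interior.preimage hσ) h

theorem chi_symm (r x y : ℝ) : c.chi r x y = c.chi r y x := by
  unfold chi
  congr 1
  ext ε
  exact and_congr_right fun _ => and_congr_right fun _ => or_congr_right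
    ⟨fun h => c.Chi_int h, fun h => c.Chi_int h⟩

private theorem Chi_lsc : LowerSemicontinuous (fun p : ℝ × ℝ × ℝ => c.chi p.1 p.2.1 p.2.2) := by
  intro p t ht
  rcases lt_or_ge t 0 with h0 | h0
  · exact Eventually.of_forall fun q => h0.trans_le (c.chi_nonneg _ _ _)
  · obtain ⟨ε, hε, htε⟩ := exists_lt_of_lt_csSup ⟨0, c.Chi_zero p.1 p.2.1 p.2.2⟩ ht
    rcases hε.2.2 with h1 | h1
    · exfalso
      rw [h1] at htε
      exact absurd h0 (not_le.2 htε)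
    · filter_upwards [isOpen_interior.mem_nhds h1] with q hq
      exact htε.trans_le (le_csSup (c.Chi_bdd _ _ _) ⟨hε.1, hε.2.1, Or.inr hq⟩)

theorem chi_measurable : Measurable (fun p : ℝ × ℝ × ℝ => c.chi p.1 p.2.1 p.2.2) :=
  c.Chi_lsc.measurable

private theorem Chi_comp0 {r a b : ℝ} (hr : 0 < r) (ha : 0 ≤ a) (ha1 : a ≤ 1) (hb : 0 ≤ b)
    (hb1 : b ≤ 1) : -(a * c.h r) ≤ c.Kk r a b := c.B_comp r a b hr ha ha1 hb hb1

private theorem Chi_comp0' {r γ b : ℝ} (hr : 0 < r) (hγ : 0 ≤ γ) (hγ1 : γ ≤ 1) (hb : 0 ≤ b)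
    (hb1 : b ≤ 1) : γ * c.h r ≤ c.Kk r (-γ) b := by
  refine (c.B_comp' r γ b hr hγ hγ1 hb hb1).trans (le_of_eq ?_)
  unfold Kk B Bm
  rw [abs_neg, neg_sq]
  ring

private theorem Chi_Kk0 (hn : 2 ≤ n) (hR : 0 < R) {r a b : ℝ} (hr : 0 < r) (ha : |a| ≤ 1)
    (hb : |b| ≤ 1) (h : a ≤ 0) : 0 ≤ c.Kk r a b := by
  rcases le_total 0 b with hb0 | hb0
  · have h1 := c.Chi_comp0' (γ := -a) hr (by linarith) (by linarith [(abs_le.1 ha).1]) hb0
      (abs_le.1 hb).2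
    rw [neg_neg] at h1
    have h2 := c.h_nonneg r hr
    exact (mul_nonneg (by linarith) h2).trans h1
  · have h1 := c.B_zero r a b hr ha hb
    have hn' : (2 : ℝ) ≤ n := by exact_mod_cast hn
    have hm : 0 ≤ ((n : ℝ) - 1) * (Real.cosh R / Real.sinh R) := by
      have h2 := Real.sinh_pos_iff.2 hR
      have h3 := Real.cosh_pos R
      have h4 : (0 : ℝ) ≤ (n : ℝ) - 1 := by linarith
      positivity
    have h5 := c.η_nonneg r a hr ha
    have h6 := c.η_nonneg r b hr hb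
    have h7 : c.B r a b = (c.a + ((c.ηr r b * (1 - a ^ 2)
        + c.η r b * (Real.cosh r / Real.sinh r) * (n - 2 + a ^ 2)
        - |a| * |c.ηc r b| * Real.sqrt ((1 - a ^ 2) * (1 - b ^ 2)) / Real.sinh r)
      + (c.ηr r a * (1 - b ^ 2) + c.η r a * (Real.cosh r / Real.sinh r) * (n - 2 + b ^ 2)
        - |b| * |c.ηc r a| * Real.sqrt ((1 - b ^ 2) * (1 - a ^ 2)) / Real.sinh r)) / 2)
      + (((n : ℝ) - 1) * (Real.cosh R / Real.sinh R)) * ((-a) * c.η r b + (-b) * c.η r a) / 2 := by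
      unfold B Bm
      ring
    have h8 : 0 ≤ c.B r a b := by
      rw [h7]
      have h9 : 0 ≤ (-a) * c.η r b + (-b) * c.η r a :=
        add_nonneg (mul_nonneg (by linarith) h6) (mul_nonneg (by linarith) h5)
      exact add_nonneg h1 (div_nonneg (mul_nonneg hm h9) (by norm_num))
    exact mul_nonneg h8 (pow_nonneg (Real.sinh_nonneg_iff.2 hr.le) _)

theorem chi_le_Kk (hn : 2 ≤ n) (hR : 0 < R) {r a b : ℝ} (hr : 0 < r) (ha : |a| ≤ 1)
    (hb : |b| ≤ 1) (h : a ≤ 0 ∨ b ≤ 0) : c.chi r a b ≤ c.Kk r a b := by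
  refine c.Chi_le ?_ fun ε hε => hε.2.1 h
  rcases h with h | h
  · exact c.Chi_Kk0 hn hR hr ha hb h
  · rw [c.Kk_symm]
    exact c.Chi_Kk0 hn hR hr hb ha h

theorem chi_comp {r a b : ℝ} (hr : 0 < r) (ha : 0 ≤ a) (ha1 : a ≤ 1) (hb : 0 ≤ b) (hb1 : b ≤ 1) :
    -(a * c.h r) ≤ c.Kk r a b - c.chi r a b := by
  have h1 := c.Chi_comp0 hr ha ha1 hb hb1
  have h2 : c.chi r a b ≤ c.Kk r a b + a * c.h r := by
    refine c.Chi_le (by linarith) fun ε hε => ?_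
    have h3 : ε - a * c.h r ≤ c.Kk r a b := (hε.2.2.1 ha hb).1
    linarith
  linarith

theorem chi_comp' {r γ b : ℝ} (hr : 0 < r) (hγ : 0 ≤ γ) (hγ1 : γ ≤ 1) (hb : 0 ≤ b) (hb1 : b ≤ 1) :
    γ * c.h r ≤ c.Kk r (-γ) b - c.chi r (-γ) b := by
  have h1 := c.Chi_comp0' hr hγ hγ1 hb hb1
  have h2 : c.chi r (-γ) b ≤ c.Kk r (-γ) b - γ * c.h r := by
    refine c.Chi_le (by linarith) fun ε hε => ?_
    have h3 : ε + -(-γ) * c.h r ≤ c.Kk r (-γ) b :=
      hε.2.2.2.1 (neg_nonpos.2 hγ) hb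
    rw [neg_neg] at h3
    linarith
  linarith

theorem chi_lower {r a b : ℝ} (hr : 0 < r) (ha : 0 < a) (ha1 : a ≤ 1) (hb : 0 < b) (hb1 : b ≤ 1) :
    a * b * (c.d * r - c.f a - c.f b) ≤ c.Kk r a b - c.chi r a b := by
  have h1 : a * b * (c.d * r - c.f a - c.f b) ≤ c.Kk r a b := c.B_lower r a b hr ha ha1 hb hb1
  have h2 : c.chi r a b ≤ c.Kk r a b - a * b * (c.d * r - c.f a - c.f b) := by
    refine c.Chi_le (by linarith) fun ε hε => ?_
    have h3 : ε + a * b * (c.d * r - c.f a - c.f b) ≤ c.Kk r a b :=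
      (hε.2.2.1 ha.le hb.le).2.2
    linarith
  linarith

end RawCertH

end Vale.Agent.Lib.P219
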