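import Vale.Agent.Lib.P219.K.Ri.Defs

/-!
# P219 rigidity, curvature `≤ -1`: continuity of the raw kernels

As in `Ri/Cont` (`RawCert.B_cont`): `c.ηr`, `c.ηc` are continuous on `{r > 0}` (partial derivatives of
a `C¹` function).
-/

namespace Vale.Agent.Lib.P219

open MeasureTheory Set Filter Topology

namespace RawCertH

variable {n : ℕ} {R : ℝ} (c : RawCertH n R)

private theorem ri_isOpen : IsOpen ((Ioi 0 ×ˢ univ : Set (ℝ × ℝ))) := isOpen_Ioi.prod isOpen_univ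

private theorem ri_ηr (p : ℝ × ℝ) (hp : p ∈ (Ioi 0 ×ˢ univ : Set (ℝ × ℝ))) :
    c.ηr p.1 p.2 = fderiv ℝ (fun p : ℝ × ℝ => c.η p.1 p.2) p (1, 0) := by
  have h1 : DifferentiableAt ℝ (fun p : ℝ × ℝ => c.η p.1 p.2) p :=
    (c.smooth.contDiffAt (ri_isOpen.mem_nhds hp)).differentiableAt (by norm_num)
  have h2 : HasDerivAt (fun s : ℝ => ((s, p.2) : ℝ × ℝ)) (1, 0) p.1 :=
    (hasDerivAt_id p.1).prodMk (hasDerivAt_const p.1 p.2)
  have h3 : HasFDerivAt (fun p : ℝ × ℝ => c.η p.1 p.2)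
      (fderiv ℝ (fun p : ℝ × ℝ => c.η p.1 p.2) p) ((fun s : ℝ => ((s, p.2) : ℝ × ℝ)) p.1) :=
    h1.hasFDerivAt
  have h4 := h3.comp_hasDerivAt p.1 h2
  have h5 : HasDerivAt (fun s : ℝ => c.η s p.2)
      (fderiv ℝ (fun p : ℝ × ℝ => c.η p.1 p.2) p (1, 0)) p.1 := h4
  exact (c.deriv_r p.1 p.2 hp.1).unique h5

private theorem ri_ηc (p : ℝ × ℝ) (hp : p ∈ (Ioi 0 ×ˢ univ : Set (ℝ × ℝ))) :
    c.ηc p.1 p.2 = fderiv ℝ (fun p : ℝ × ℝ => c.η p.1 p.2) p (0, 1) := by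
  have h1 : DifferentiableAt ℝ (fun p : ℝ × ℝ => c.η p.1 p.2) p :=
    (c.smooth.contDiffAt (ri_isOpen.mem_nhds hp)).differentiableAt (by norm_num)
  have h2 : HasDerivAt (fun s : ℝ => ((p.1, s) : ℝ × ℝ)) (0, 1) p.2 :=
    (hasDerivAt_const p.2 p.1).prodMk (hasDerivAt_id p.2)
  have h3 : HasFDerivAt (fun p : ℝ × ℝ => c.η p.1 p.2)
      (fderiv ℝ (fun p : ℝ × ℝ => c.η p.1 p.2) p) ((fun s : ℝ => ((p.1, s) : ℝ × ℝ)) p.2) :=
    h1.hasFDerivAt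
  have h4 := h3.comp_hasDerivAt p.2 h2
  have h5 : HasDerivAt (fun s : ℝ => c.η p.1 s)
      (fderiv ℝ (fun p : ℝ × ℝ => c.η p.1 p.2) p (0, 1)) p.2 := h4
  exact (c.deriv_c p.1 p.2 hp.1).unique h5

private theorem ri_fderiv_cont (v : ℝ × ℝ) : ContinuousOn
    (fun p => fderiv ℝ (fun p : ℝ × ℝ => c.η p.1 p.2) p v) (Ioi 0 ×ˢ univ) :=
  (c.smooth.continuousOn_fderiv_of_isOpen ri_isOpen (by norm_num)).clm_apply continuousOn_const

private theorem η_contOn : ContinuousOn (fun p : ℝ × ℝ => c.η p.1 p.2) (Ioi 0 ×ˢ univ) :=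
  c.smooth.continuousOn

private theorem ηr_contOn : ContinuousOn (fun p : ℝ × ℝ => c.ηr p.1 p.2) (Ioi 0 ×ˢ univ) :=
  (c.ri_fderiv_cont (1, 0)).congr fun p hp => c.ri_ηr p hp

private theorem ηc_contOn : ContinuousOn (fun p : ℝ × ℝ => c.ηc p.1 p.2) (Ioi 0 ×ˢ univ) :=
  (c.ri_fderiv_cont (0, 1)).congr fun p hp => c.ri_ηc p hp

private theorem riK_aux {X : Type*} [TopologicalSpace X] {s : Set X} (n m : ℝ)
    {r x y e er ec : X → ℝ} (hr : ContinuousOn r s) (hr0 : ∀ p ∈ s, Real.sinh (r p) ≠ 0)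
    (hx : ContinuousOn x s) (hy : ContinuousOn y s) (he : ContinuousOn e s)
    (her : ContinuousOn er s) (hec : ContinuousOn ec s) :
    ContinuousOn (fun p => er p * (1 - x p ^ 2)
        + e p * (Real.cosh (r p) / Real.sinh (r p)) * (n - 2 + x p ^ 2)
        - |x p| * |ec p| * Real.sqrt ((1 - x p ^ 2) * (1 - y p ^ 2)) / Real.sinh (r p)
        - m * x p * e p) s := by
  have h1 : ContinuousOn (fun p => 1 - x p ^ 2) s := continuousOn_const.sub (hx.pow 2)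
  have h2 : ContinuousOn (fun p => 1 - y p ^ 2) s := continuousOn_const.sub (hy.pow 2)
  have h3 : ContinuousOn (fun p => n - 2 + x p ^ 2) s := continuousOn_const.add (hx.pow 2)
  have hs : ContinuousOn (fun p => Real.sinh (r p)) s := Real.continuous_sinh.comp_continuousOn hr
  have hch : ContinuousOn (fun p => Real.cosh (r p)) s := Real.continuous_cosh.comp_continuousOn hr
  exact (((her.mul h1).add ((he.mul (hch.div hs hr0)).mul h3)).sub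
    (((hx.abs.mul hec.abs).mul ((h1.mul h2).sqrt)).div hs hr0)).sub
    ((continuousOn_const.mul hx).mul he)

theorem Bm_cont (m : ℝ) :
    ContinuousOn (fun p : ℝ × ℝ × ℝ => c.Bm m p.1 p.2.1 p.2.2) {p | 0 < p.1} := by
  have hr : ContinuousOn (fun p : ℝ × ℝ × ℝ => p.1) {p | 0 < p.1} := continuous_fst.continuousOn
  have hx : ContinuousOn (fun p : ℝ × ℝ × ℝ => p.2.1) {p | 0 < p.1} :=
    (continuous_fst.comp continuous_snd).continuousOn
  have hy : ContinuousOn (fun p : ℝ × ℝ × ℝ => p.2.2) {p | 0 < p.1} :=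
    (continuous_snd.comp continuous_snd).continuousOn
  have hr0 : ∀ p ∈ {p : ℝ × ℝ × ℝ | 0 < p.1}, Real.sinh p.1 ≠ 0 :=
    fun p hp => (Real.sinh_pos_iff.2 hp).ne'
  have hm1 : MapsTo (fun p : ℝ × ℝ × ℝ => (p.1, p.2.1)) {p | 0 < p.1} (Ioi 0 ×ˢ univ) :=
    fun p hp => ⟨hp, mem_univ _⟩
  have hm2 : MapsTo (fun p : ℝ × ℝ × ℝ => (p.1, p.2.2)) {p | 0 < p.1} (Ioi 0 ×ˢ univ) :=
    fun p hp => ⟨hp, mem_univ _⟩
  have e1 : ContinuousOn (fun p : ℝ × ℝ × ℝ => c.η p.1 p.2.1) {p | 0 < p.1} :=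
    c.η_contOn.comp (hr.prodMk hx) hm1
  have e2 : ContinuousOn (fun p : ℝ × ℝ × ℝ => c.η p.1 p.2.2) {p | 0 < p.1} :=
    c.η_contOn.comp (hr.prodMk hy) hm2
  have r1 : ContinuousOn (fun p : ℝ × ℝ × ℝ => c.ηr p.1 p.2.1) {p | 0 < p.1} :=
    c.ηr_contOn.comp (hr.prodMk hx) hm1
  have r2 : ContinuousOn (fun p : ℝ × ℝ × ℝ => c.ηr p.1 p.2.2) {p | 0 < p.1} :=
    c.ηr_contOn.comp (hr.prodMk hy) hm2
  have c1 : ContinuousOn (fun p : ℝ × ℝ × ℝ => c.ηc p.1 p.2.1) {p | 0 < p.1} :=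
    c.ηc_contOn.comp (hr.prodMk hx) hm1
  have c2 : ContinuousOn (fun p : ℝ × ℝ × ℝ => c.ηc p.1 p.2.2) {p | 0 < p.1} :=
    c.ηc_contOn.comp (hr.prodMk hy) hm2
  unfold Bm
  exact continuousOn_const.add (((riK_aux (n : ℝ) m hr hr0 hx hy e2 r2 c2).add
    (riK_aux (n : ℝ) m hr hr0 hy hx e1 r1 c1)).div_const 2)

theorem Kk_cont : ContinuousOn (fun p : ℝ × ℝ × ℝ => c.Kk p.1 p.2.1 p.2.2) {p | 0 < p.1} := by
  have hr : ContinuousOn (fun p : ℝ × ℝ × ℝ => p.1) {p | 0 < p.1} := continuous_fst.continuousOn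
  have hs : ContinuousOn (fun p : ℝ × ℝ × ℝ => Real.sinh p.1) {p | 0 < p.1} :=
    Real.continuous_sinh.comp_continuousOn hr
  unfold Kk B
  exact (c.Bm_cont _).mul (hs.pow (n - 1))

theorem Nn_cont : ContinuousOn (fun p : ℝ × ℝ × ℝ => c.Nn p.1 p.2.1 p.2.2) {p | 0 < p.1} := by
  have hr : ContinuousOn (fun p : ℝ × ℝ × ℝ => p.1) {p | 0 < p.1} := continuous_fst.continuousOn
  have hx : ContinuousOn (fun p : ℝ × ℝ × ℝ => p.2.1) {p | 0 < p.1} :=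
    (continuous_fst.comp continuous_snd).continuousOn
  have hy : ContinuousOn (fun p : ℝ × ℝ × ℝ => p.2.2) {p | 0 < p.1} :=
    (continuous_snd.comp continuous_snd).continuousOn
  have hr0 : ∀ p ∈ {p : ℝ × ℝ × ℝ | 0 < p.1}, Real.sinh p.1 ≠ 0 :=
    fun p hp => (Real.sinh_pos_iff.2 hp).ne'
  have hm1 : MapsTo (fun p : ℝ × ℝ × ℝ => (p.1, p.2.1)) {p | 0 < p.1} (Ioi 0 ×ˢ univ) :=
    fun p hp => ⟨hp, mem_univ _⟩
  have hm2 : MapsTo (fun p : ℝ × ℝ × ℝ => (p.1, p.2.2)) {p | 0 < p.1} (Ioi 0 ×ˢ univ) :=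
    fun p hp => ⟨hp, mem_univ _⟩
  have e1 : ContinuousOn (fun p : ℝ × ℝ × ℝ => c.η p.1 p.2.1) {p | 0 < p.1} :=
    c.η_contOn.comp (hr.prodMk hx) hm1
  have e2 : ContinuousOn (fun p : ℝ × ℝ × ℝ => c.η p.1 p.2.2) {p | 0 < p.1} :=
    c.η_contOn.comp (hr.prodMk hy) hm2
  have hs : ContinuousOn (fun p : ℝ × ℝ × ℝ => Real.sinh p.1) {p | 0 < p.1} :=
    Real.continuous_sinh.comp_continuousOn hr
  unfold Nn B
  exact (c.Bm_cont _).add ((((hx.mul hy).abs).mul ((e1.mul e2).sqrt)).div hs hr0)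

theorem Bm_symm (m r x y : ℝ) : c.Bm m r x y = c.Bm m r y x := by
  unfold Bm
  ring

theorem Kk_symm (r x y : ℝ) : c.Kk r x y = c.Kk r y x := by
  unfold Kk B
  rw [c.Bm_symm]

private theorem Strict.riK_pos_of_le {c : RawCertH n R} (hn : 2 ≤ n) (hR : 0 < R) (hc : c.Strict)
    {r x y : ℝ} (hr : 0 < r) (hx : |x| ≤ 1) (hy : |y| ≤ 1) (h : x ≤ 0) : 0 < c.Kk r x y := by
  have hs : 0 < Real.sinh r := Real.sinh_pos_iff.2 hr
  rcases le_total y 0 with h' | h'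
  · have hm : 0 ≤ ((n : ℝ) - 1) * (Real.cosh R / Real.sinh R) := by
      have h1 : (2 : ℝ) ≤ n := by exact_mod_cast hn
      exact mul_nonneg (by linarith)
        (div_nonneg (Real.cosh_pos R).le (Real.sinh_pos_iff.2 hR).le)
    have h0 := hc.zero r x y hr hx hy
    have e1 := c.η_nonneg r x hr hx
    have e2 := c.η_nonneg r y hr hy
    have key : c.B r x y = c.Bm 0 r x y
        + (((n : ℝ) - 1) * (Real.cosh R / Real.sinh R)) * (-x * c.η r y + -y * c.η r x) / 2 := by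
      unfold B Bm
      ring
    have h2 : 0 ≤ (((n : ℝ) - 1) * (Real.cosh R / Real.sinh R))
        * (-x * c.η r y + -y * c.η r x) / 2 := by
      have h3 : 0 ≤ -x * c.η r y := mul_nonneg (by linarith) e2
      have h4 : 0 ≤ -y * c.η r x := mul_nonneg (by linarith) e1
      exact div_nonneg (mul_nonneg hm (add_nonneg h3 h4)) (by norm_num)
    have h5 : 0 < c.B r x y := by rw [key]; linarith
    exact mul_pos h5 (pow_pos hs _)
  · have h1 := hc.comp' r (-x) y hr (by linarith) (by linarith [(abs_le.1 hx).1]) h'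
      (abs_le.1 hy).2
    rw [neg_neg] at h1
    have h2 : 0 ≤ -x * c.h r := mul_nonneg (by linarith) (c.h_nonneg r hr)
    linarith

/-- `Kk > 0` if `x ≤ 0` or `y ≤ 0` (`zero` for `x, y ≤ 0`: `B = Bm 0 + m (...)`, `comp'` otherwise) -/
theorem Strict.Kk_pos {c : RawCertH n R} (hn : 2 ≤ n) (hR : 0 < R) (hc : c.Strict) {r x y : ℝ}
    (hr : 0 < r) (hx : |x| ≤ 1) (hy : |y| ≤ 1) (h : x ≤ 0 ∨ y ≤ 0) : 0 < c.Kk r x y := by
  rcases h with h | h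
  · exact Strict.riK_pos_of_le hn hR hc hr hx hy h
  · rw [c.Kk_symm]
    exact Strict.riK_pos_of_le hn hR hc hr hy hx h

/-- `Nn > 0` on `|x|, |y| ≤ 1` -/
theorem Strict.Nn_pos {c : RawCertH n R} (hn : 2 ≤ n) (hR : 0 < R) (hc : c.Strict) {r x y : ℝ}
    (hr : 0 < r) (hx : |x| ≤ 1) (hy : |y| ≤ 1) : 0 < c.Nn r x y := by
  have hs : 0 < Real.sinh r := Real.sinh_pos_iff.2 hr
  by_cases h : x ≤ 0 ∨ y ≤ 0
  · have h1 := Strict.Kk_pos hn hR hc hr hx hy h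
    unfold Kk at h1
    have h2 : 0 < c.B r x y := (mul_pos_iff_of_pos_right (pow_pos hs _)).1 h1
    have h3 : 0 ≤ |x * y| * Real.sqrt (c.η r x * c.η r y) / Real.sinh r :=
      div_nonneg (mul_nonneg (abs_nonneg _) (Real.sqrt_nonneg _)) hs.le
    unfold Nn
    linarith
  · rw [not_or, not_le, not_le] at h
    have h1 := hc.slope r x y hr h.1.le (abs_le.1 hx).2 h.2.le (abs_le.1 hy).2
    unfold Nn
    rw [abs_of_pos (mul_pos h.1 h.2)]
    exact h1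

end RawCertH

end Vale.Agent.Lib.P219
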