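import Vale.Agent.Lib.P219.K.Ri.Defs

/-!
# P219 rigidity, curvature `≤ -1`: the line inequality with a margin

Copy of `K/LineH` (`line_ineqH`) with the kernel `B sinh^(n-1) - X` (`m = k.Hm`), see `lnh_setup`:
`LLH.Setup` with `K r a b = k.B k.Hm r a b * sinh r ^ (n-1) - X r a b`, `h = k.h`.  The constant `C`
satisfies `|k.B k.Hm| ≤ C₀` and `X ≤ CX sinh^(n-1)`, `C₀ + CX ≤ C`.
-/

namespace Vale.Agent.Lib.P219

open MeasureTheory Set Filter Topology
open scoped ENNReal

namespace HDataH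

variable {n : ℕ} (H : HDataH n) (k : KerH n) {X : ℝ → ℝ → ℝ → ℝ}

private theorem lnx_fl_meas : Measurable (fun p : (Ev n × Ev n) × ℝ => H.fl p.2 p.1) :=
  (H.fl_cont.comp (continuous_snd.prodMk continuous_fst)).measurable

private theorem lnx_th_meas : Measurable (fun p : (Ev n × Ev n) × ℝ =>
    H.th p.1.1 (p.2 • p.1.2) * p.2 ^ (n - 1)) := by
  have h1 : Continuous (fun p : (Ev n × Ev n) × ℝ => H.th p.1.1 (p.2 • p.1.2)) :=
    H.th_cont.comp ((continuous_fst.comp continuous_fst).prodMk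
      (continuous_snd.smul (continuous_snd.comp continuous_fst)))
  exact h1.measurable.mul (measurable_snd.pow_const _)

private theorem lnx_gg_meas {u : Ev n → ℝ} (hu : ContDiff ℝ 1 u) :
    Measurable (fun p : (Ev n × Ev n) × ℝ => ‖H.gr u p.1.1‖ * ‖H.gr u (H.fl p.2 p.1).1‖) := by
  have hgr : Measurable (fun x => ‖H.gr u x‖) := (H.gr_cont hu).norm.measurable
  exact (hgr.comp (measurable_fst.comp measurable_fst)).mul
    (hgr.comp (measurable_fst.comp H.lnx_fl_meas))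

private theorem lnx_meas3 {α : Type*} [MeasurableSpace α] {F : ℝ → ℝ → ℝ → ℝ}
    (hF : Measurable (fun p : ℝ × ℝ × ℝ => F p.1 p.2.1 p.2.2)) {a b c : α → ℝ}
    (ha : Measurable a) (hb : Measurable b) (hc : Measurable c) :
    Measurable (fun x => F (a x) (b x) (c x)) :=
  hF.comp (ha.prodMk (hb.prodMk hc))

theorem LkX_measurable (hn : 2 ≤ n) (hX : k.Margin X) (C : ℝ) {u : Ev n → ℝ}
    (hu : ContDiff ℝ 1 u) : Measurable (H.LkX k X C u) := by
  have hfl := H.lnx_fl_meas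
  have hcs := H.cs_measurable hu
  have h3 : Measurable (fun p : (Ev n × Ev n) × ℝ =>
      k.B k.Hm p.2 (-(H.cs u (H.fl p.2 p.1))) (H.cs u p.1)) :=
    lnx_meas3 (k.B_measurable hn k.Hm) measurable_snd (hcs.comp hfl).neg
      (hcs.comp measurable_fst)
  have h3' : Measurable (fun p : (Ev n × Ev n) × ℝ =>
      X p.2 (-(H.cs u (H.fl p.2 p.1))) (H.cs u p.1)) :=
    lnx_meas3 hX.meas measurable_snd (hcs.comp hfl).neg (hcs.comp measurable_fst)
  have h4 : Measurable (fun p : (Ev n × Ev n) × ℝ => Real.sinh p.2 ^ (n - 1)) :=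
    (Real.continuous_sinh.measurable.comp measurable_snd).pow_const _
  have h5 : Measurable (fun p : (Ev n × Ev n) × ℝ =>
      ENNReal.ofReal (‖H.gr u p.1.1‖ * ‖H.gr u (H.fl p.2 p.1).1‖
        * (k.B k.Hm p.2 (-(H.cs u (H.fl p.2 p.1))) (H.cs u p.1) * Real.sinh p.2 ^ (n - 1)
          - X p.2 (-(H.cs u (H.fl p.2 p.1))) (H.cs u p.1)
          + C * (H.th p.1.1 (p.2 • p.1.2) * p.2 ^ (n - 1))))) :=
    ((H.lnx_gg_meas hu).mul (((h3.mul h4).sub h3').add
      (H.lnx_th_meas.const_mul C))).ennreal_ofReal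
  exact h5.lintegral_prod_right'

private theorem lnx_hasDerivAt {u : Ev n → ℝ} (hu : ContDiff ℝ 1 u) (v : Ev n × Ev n) (t : ℝ) :
    HasDerivAt (fun s => u (H.fl s v).1)
      (fderiv ℝ u (H.fl t v).1 (H.L (H.fl t v).1 (H.fl t v).2)) t := by
  have h1 : HasFDerivAt u (fderiv ℝ u (H.fl t v).1) (H.fl t v).1 :=
    (hu.differentiable (by norm_num) _).hasFDerivAt
  exact h1.comp_hasDerivAt t (H.fl_deriv t v)

private theorem lnx_deriv {u : Ev n → ℝ} (hu : ContDiff ℝ 1 u) (v : Ev n × Ev n) (t : ℝ) :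
    deriv (fun s => u (H.fl s v).1) t
      = inner ℝ (H.gr u (H.fl t v).1) (H.fl t v).2 := by
  rw [(H.lnx_hasDerivAt hu v t).deriv]
  unfold HData.gr
  rw [InnerProductSpace.toDual_symm_apply]
  rfl

private theorem lnx_inner (u : Ev n → ℝ) (v : Ev n × Ev n) :
    inner ℝ (H.gr u v.1) v.2 = ‖H.gr u v.1‖ * H.cs u v := by
  unfold HData.cs
  by_cases h : ‖H.gr u v.1‖ = 0
  · have : H.gr u v.1 = 0 := norm_eq_zero.1 h
    rw [this]
    simp
  · field_simp

private theorem lnx_gr_zero {u : Ev n → ℝ} {x : Ev n} (hx : x ∉ tsupport u) : H.gr u x = 0 := by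
  have h1 : fderiv ℝ u x = 0 := by
    by_contra hne
    exact hx (support_fderiv_subset ℝ hne)
  unfold HData.gr
  rw [h1]
  simp

/-- the gradient along a unit speed geodesic has compact support -/
private theorem lnx_supp {K : Set (Ev n)} (hK : IsCompact K) {u : Ev n → ℝ}
    (hs : tsupport u ⊆ K) (v : Ev n × Ev n)
    (hv : ‖v.2‖ = 1) : HasCompactSupport (fun s => ‖H.gr u (H.fl s v).1‖) := by
  obtain ⟨R, hR⟩ := H.exp_proper K hK
  have hin : ∀ s : ℝ, ‖H.gr u (H.fl s v).1‖ ≠ 0 → (H.fl s v).1 ∈ K := by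
    intro s h
    by_contra hcon
    exact h (by rw [H.lnx_gr_zero (fun h' => hcon (hs h')), norm_zero])
  have key : ∀ s s' : ℝ, ‖H.gr u (H.fl s v).1‖ ≠ 0 → ‖H.gr u (H.fl s' v).1‖ ≠ 0 →
      |s' - s| ≤ R := by
    intro s s' h h'
    have m1 := hin s h
    have m2 := hin s' h'
    have e1 : (H.fl 1 ((H.fl s v).1, (s' - s) • (H.fl s v).2)).1 = (H.fl s' v).1 := by
      have := H.Ex_smul (s' - s) (H.fl s v).1 (H.fl s v).2
      unfold HData.Ex at this
      rw [this]
      have h6 : ((H.fl s v).1, (H.fl s v).2) = H.fl s v := rfl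
      rw [h6, ← H.fl_add, sub_add_cancel]
    have h7 := hR _ m1 ((s' - s) • (H.fl s v).2) (by rw [e1]; exact m2)
    rw [norm_smul, H.fl_norm, hv, mul_one, Real.norm_eq_abs] at h7
    exact h7
  by_cases hex : ∃ s, ‖H.gr u (H.fl s v).1‖ ≠ 0
  · obtain ⟨s₀, hs₀⟩ := hex
    refine HasCompactSupport.of_support_subset_isCompact
      (isCompact_Icc : IsCompact (Icc (s₀ - R) (s₀ + R))) ?_
    intro s hs'
    have := abs_le.1 (key s₀ s hs₀ hs')
    exact ⟨by linarith [this.1], by linarith [this.2]⟩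
  · push Not at hex
    refine HasCompactSupport.of_support_subset_isCompact isCompact_empty ?_
    intro s hs'
    exact absurd (hex s) hs'

/-- the setup for the signed line lemma along a geodesic -/
private theorem lnx_setup (hn : 2 ≤ n) (hX : k.Margin X) {C : ℝ}
    (hC : ∀ r c c', 0 < r → |c| ≤ 1 → |c'| ≤ 1 →
      |k.B k.Hm r c c'| * Real.sinh r ^ (n - 1) + X r c c' ≤ C * Real.sinh r ^ (n - 1))
    (hC0 : 0 ≤ C) {K : Set (Ev n)} (hK : IsCompact K)
    {u : Ev n → ℝ} (hu : ContDiff ℝ 1 u) (hs : tsupport u ⊆ K) (h0 : ∀ y, 0 ≤ u y)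
    (h1 : ∀ y, u y ≤ 1) (v : Ev n × Ev n) (hv : ‖v.2‖ = 1) :
    LLH.Setup (fun s => u (H.fl s v).1) (fun s => ‖H.gr u (H.fl s v).1‖)
      (fun s => H.cs u (H.fl s v))
      (fun r a b => k.B k.Hm r a b * Real.sinh r ^ (n - 1) - X r a b)
      k.f k.h k.d := by
  have hflc : Continuous (fun t : ℝ => H.fl t v) :=
    H.fl_cont.comp (continuous_id.prodMk continuous_const)
  have hgood := H.good_line hK hu hs h0 h1 v hv
  refine
    { good := ⟨hgood.smooth, hgood.supp, hgood.nonneg, hgood.le_one⟩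
      p_cont := ((H.gr_cont hu).comp (continuous_fst.comp hflc)).norm
      p_supp := H.lnx_supp hK hs v hv
      p_nonneg := fun s => norm_nonneg _
      c_meas := (H.cs_measurable hu).comp hflc.measurable
      c_le := fun s => H.cs_abs_le u _ (by rw [H.fl_norm, hv])
      deriv_eq := fun s => by rw [H.lnx_deriv hu v s, H.lnx_inner]
      K_meas := ?_
      K_bound := ?_
      K_nonneg := fun r a b hr ha hb hab => sub_nonneg.2 (hX.K_nonneg r a b hr ha hb hab)
      K_symm := fun r a b => by rw [k.B_symm, hX.symm r a b]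
      K_comp := hX.comp
      K_comp' := hX.comp'
      K_lower := hX.lower
      h_smooth := k.h_smooth
      h_nonneg := k.h_nonneg
      h_mono := k.h_mono
      φ_cont := k.f_cont
      φ_nonneg := k.f_nonneg
      d_nonneg := k.d_pos.le }
  · have h4 : Measurable (fun q : ℝ × ℝ × ℝ => Real.sinh q.1 ^ (n - 1)) :=
      (Real.continuous_sinh.measurable.comp measurable_fst).pow_const _
    exact ((k.B_measurable hn k.Hm).mul h4).sub hX.meas
  · intro L
    refine ⟨C * Real.sinh L ^ (n - 1), ?_⟩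
    intro r a b hr hrL ha hb
    have hsr : 0 < Real.sinh r := Real.sinh_pos_iff.2 hr
    have h5 := hC r a b hr ha hb
    have h6 : C * Real.sinh r ^ (n - 1) ≤ C * Real.sinh L ^ (n - 1) :=
      mul_le_mul_of_nonneg_left (pow_le_pow_left₀ hsr.le (Real.sinh_le_sinh.2 hrL) _) hC0
    have h7 := abs_sub (k.B k.Hm r a b * Real.sinh r ^ (n - 1)) (X r a b)
    rw [abs_mul, abs_of_pos (pow_pos hsr _), abs_of_nonneg (hX.nonneg r a b)] at h7
    linarith

private theorem lnx_shift (F : ℝ → ℝ≥0∞) (a : ℝ) :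
    ∫⁻ b in Ioi a, F b = ∫⁻ t in Ioi (0 : ℝ), F (a + t) := by
  rw [← lintegral_indicator measurableSet_Ioi, ← lintegral_indicator measurableSet_Ioi,
    ← lintegral_add_left_eq_self _ a]
  refine lintegral_congr fun t => ?_
  by_cases ht : 0 < t
  · rw [indicator_of_mem (show a + t ∈ Ioi a by simpa using ht),
      indicator_of_mem (show t ∈ Ioi (0:ℝ) from ht)]
  · rw [indicator_of_notMem (show a + t ∉ Ioi a by simpa using ht),
      indicator_of_notMem (show t ∉ Ioi (0:ℝ) from ht)]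

private theorem lnx_pt {x y : ℝ} (hy : 0 ≤ y) (hxy : 0 ≤ x + y) :
    ENNReal.ofReal x + ENNReal.ofReal y = ENNReal.ofReal (x + y) + ENNReal.ofReal (-x) := by
  rcases le_total 0 x with hx | hx
  · rw [ENNReal.ofReal_of_nonpos (show -x ≤ 0 by linarith), add_zero, ENNReal.ofReal_add hx hy]
  · rw [ENNReal.ofReal_of_nonpos hx, zero_add, ← ENNReal.ofReal_add hxy (by linarith)]
    congr 1
    ring

private theorem lnx_cancel {A N L₁ P L₂ D : ℝ≥0∞} (h1 : A + N ≤ P + D) (h2 : P + L₁ = L₂ + N)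
    (hN : N ≠ ⊤) : A + L₁ ≤ L₂ + D := by
  have h3 : N + (A + L₁) ≤ N + (L₂ + D) := by
    calc N + (A + L₁) = (A + N) + L₁ := by ring
      _ ≤ (P + D) + L₁ := add_le_add h1 le_rfl
      _ = (P + L₁) + D := by ring
      _ = (L₂ + N) + D := by rw [h2]
      _ = N + (L₂ + D) := by ring
  exact (ENNReal.add_le_add_iff_left hN).1 h3

theorem line_ineqX (hn : 2 ≤ n) (hX : k.Margin X) {C : ℝ}
    (hC : ∀ r c c', 0 < r → |c| ≤ 1 → |c'| ≤ 1 →
      |k.B k.Hm r c c'| * Real.sinh r ^ (n - 1) + X r c c' ≤ C * Real.sinh r ^ (n - 1))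
    {K : Set (Ev n)} (hK : IsCompact K)
    {u : Ev n → ℝ} (hu : ContDiff ℝ 1 u) (hs : tsupport u ⊆ K) (h0 : ∀ y, 0 ≤ u y)
    (h1 : ∀ y, u y ≤ 1) (v : Ev n × Ev n) (hv : ‖v.2‖ = 1) :
    ENNReal.ofReal k.d * (∫⁻ s : ℝ, ENNReal.ofReal (u (H.fl s v).1 ^ 2))
        + ∫⁻ s : ℝ, H.LkC C u (H.fl s v)
      ≤ (∫⁻ s : ℝ, H.LkX k X C u (H.fl s v))
        + ∫⁻ s : ℝ, ENNReal.ofReal (‖H.gr u (H.fl s v).1‖
          * (|H.cs u (H.fl s v)| * k.f |H.cs u (H.fl s v)|)) := by
  have hC0 : 0 ≤ C := by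
    have h2 := hC 1 0 0 one_pos (by simp) (by simp)
    have h3 : 0 < Real.sinh 1 ^ (n - 1) := pow_pos (Real.sinh_pos_iff.2 one_pos) _
    have h4 := hX.nonneg 1 0 0
    have h5 := mul_nonneg (abs_nonneg (k.B k.Hm 1 0 0)) h3.le
    exact nonneg_of_mul_nonneg_left (by linarith) h3
  have S := H.lnx_setup k hn hX hC hC0 hK hu hs h0 h1 v hv
  have key := LLH.line_signed_lint S
  have htop := S.neg_ne_top
  have hmeas := S.meas
  have hflc : Continuous (fun t : ℝ => H.fl t v) :=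
    H.fl_cont.comp (continuous_id.prodMk continuous_const)
  refine lnx_cancel key ?_ htop
  -- the two outer functions
  have mC : Measurable (fun s : ℝ => H.LkC C u (H.fl s v)) :=
    (H.LkC_measurable C hu).comp hflc.measurable
  have mH : Measurable (fun s : ℝ => H.LkX k X C u (H.fl s v)) :=
    (H.LkX_measurable k hn hX C hu).comp hflc.measurable
  rw [← lintegral_add_right _ mC, ← lintegral_add_left mH]
  refine lintegral_congr fun s => ?_
  have sh := fun F : ℝ → ℝ≥0∞ => lnx_shift F s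
  rw [sh, sh]
  unfold LkC LkX
  -- inner measurability
  have mN : Measurable (fun t : ℝ => ENNReal.ofReal (-(‖H.gr u (H.fl s v).1‖
      * ‖H.gr u (H.fl (s + t) v).1‖ * (k.B k.Hm (s + t - s) (-(H.cs u (H.fl (s + t) v)))
        (H.cs u (H.fl s v)) * Real.sinh (s + t - s) ^ (n - 1)
        - X (s + t - s) (-(H.cs u (H.fl (s + t) v))) (H.cs u (H.fl s v)))))) :=
    (hmeas.comp (measurable_const.prodMk (measurable_const.add measurable_id))).neg.ennreal_ofReal
  have mT : Measurable (fun t : ℝ => ENNReal.ofReal (‖H.gr u (H.fl s v).1‖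
      * ‖H.gr u (H.fl t (H.fl s v)).1‖ * (C * (H.th (H.fl s v).1 (t • (H.fl s v).2)
        * t ^ (n - 1))))) := by
    have c1 : Continuous (fun t : ℝ => H.fl t (H.fl s v)) :=
      H.fl_cont.comp (continuous_id.prodMk continuous_const)
    have c2 : Continuous (fun t : ℝ => ‖H.gr u (H.fl t (H.fl s v)).1‖) :=
      ((H.gr_cont hu).comp (continuous_fst.comp c1)).norm
    have c3 : Continuous (fun t : ℝ => H.th (H.fl s v).1 (t • (H.fl s v).2)) :=
      H.th_cont.comp (continuous_const.prodMk (continuous_id.smul continuous_const))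
    exact ((continuous_const.mul c2).mul
      (continuous_const.mul (c3.mul (continuous_pow _)))).measurable.ennreal_ofReal
  rw [← lintegral_add_right _ mT, ← lintegral_add_right _ mN]
  refine setLIntegral_congr_fun measurableSet_Ioi fun t ht => ?_
  have ht' : (0 : ℝ) < t := ht
  have e1 : s + t - s = t := by ring
  have e2 : H.fl (s + t) v = H.fl t (H.fl s v) := by rw [add_comm, H.fl_add]
  have hunit : ‖(H.fl s v).2‖ = 1 := by rw [H.fl_norm, hv]
  have hth := H.sinh_pow_le_th hn (H.fl s v).1 (H.fl s v).2 hunit ht'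
  have hS : 0 < Real.sinh t ^ (n - 1) := pow_pos (Real.sinh_pos_iff.2 ht') _
  have hc1 : |H.cs u (H.fl s v)| ≤ 1 := H.cs_abs_le u _ hunit
  have hc2 : |-(H.cs u (H.fl t (H.fl s v)))| ≤ 1 := by
    rw [abs_neg]
    exact H.cs_abs_le u _ (by rw [H.fl_norm]; exact hunit)
  have hB := hC t _ _ ht' hc2 hc1
  simp only [e1, e2]
  set p₁ := ‖H.gr u (H.fl s v).1‖ with hp1
  set p₂ := ‖H.gr u (H.fl t (H.fl s v)).1‖ with hp2
  set θ := H.th (H.fl s v).1 (t • (H.fl s v).2) * t ^ (n - 1) with hθ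
  set b := k.B k.Hm t (-(H.cs u (H.fl t (H.fl s v)))) (H.cs u (H.fl s v)) with hb
  set x := X t (-(H.cs u (H.fl t (H.fl s v)))) (H.cs u (H.fl s v)) with hx
  have hpp : 0 ≤ p₁ * p₂ := mul_nonneg (norm_nonneg _) (norm_nonneg _)
  have e3 : p₁ * p₂ * (b * Real.sinh t ^ (n - 1) - x + C * θ) =
      p₁ * p₂ * (b * Real.sinh t ^ (n - 1) - x) + p₁ * p₂ * (C * θ) := by ring
  rw [e3]
  refine lnx_pt (mul_nonneg hpp (mul_nonneg hC0 (hS.le.trans hth))) ?_
  rw [← e3]
  refine mul_nonneg hpp ?_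
  have h5 : -(C * Real.sinh t ^ (n - 1)) ≤ b * Real.sinh t ^ (n - 1) - x := by
    have := mul_le_mul_of_nonneg_right (neg_abs_le b) hS.le
    linarith
  have h6 : C * Real.sinh t ^ (n - 1) ≤ C * θ := mul_le_mul_of_nonneg_left hth hC0
  linarith

end HDataH

end Vale.Agent.Lib.P219
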