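import Vale.Agent.Lib.P219.K.Ri.LineX
import Vale.Agent.Lib.P219.K.LowerH

/-!
# P219 rigidity, curvature `≤ -1`: the lower bound with a margin

Copy of `K/LowerH` (`pair_lowerH`) with `LkX` instead of `LkH` and without the last step `SM_LkH_le`.
-/

namespace Vale.Agent.Lib.P219

open MeasureTheory Set Filter Topology
open scoped ENNReal

namespace HDataH

variable {n : ℕ} (H : HDataH n) (k : KerH n) {X : ℝ → ℝ → ℝ → ℝ}

private theorem LowerX_add (Φ₁ Φ₂ : Ev n × Ev n → ℝ≥0∞) (h₁ : Measurable Φ₁) :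
    H.SM (fun v => Φ₁ v + Φ₂ v) = H.SM Φ₁ + H.SM Φ₂ := by
  have := isFiniteMeasure_toSphere n
  unfold HData.SM
  have hj : Measurable (fun p : Ev n × Metric.sphere (0 : Ev n) 1 => (p.1, (p.2 : Ev n))) :=
    measurable_fst.prodMk (measurable_subtype_coe.comp measurable_snd)
  have hi : ∀ x, ∫⁻ ω : Metric.sphere (0 : Ev n) 1, (Φ₁ (x, (ω : Ev n)) + Φ₂ (x, (ω : Ev n)))
      ∂(volume : Measure (Ev n)).toSphere
      = (∫⁻ ω : Metric.sphere (0 : Ev n) 1, Φ₁ (x, (ω : Ev n))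
          ∂(volume : Measure (Ev n)).toSphere)
        + ∫⁻ ω : Metric.sphere (0 : Ev n) 1, Φ₂ (x, (ω : Ev n))
          ∂(volume : Measure (Ev n)).toSphere := fun x =>
    lintegral_add_left ((h₁.comp hj).comp measurable_prodMk_left) _
  rw [lintegral_congr hi]
  exact lintegral_add_left (h₁.comp hj).lintegral_prod_right' _

private theorem LowerX_meas {Φ : Ev n × Ev n → ℝ≥0∞} (hΦ : Measurable Φ) :
    Measurable (fun v : Ev n × Ev n => ∫⁻ s : ℝ, Φ (H.fl s v)) := by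
  have hc : Continuous (fun p : (Ev n × Ev n) × ℝ => H.fl p.2 p.1) :=
    H.fl_cont.comp (continuous_snd.prodMk continuous_fst)
  have hm : Measurable (fun p : (Ev n × Ev n) × ℝ => Φ (H.fl p.2 p.1)) := hΦ.comp hc.measurable
  exact hm.lintegral_prod_right'

private theorem LowerX_const (c : ℝ≥0∞) (hc : c ≠ ∞) (Φ : Ev n × Ev n → ℝ≥0∞) :
    c * H.SM Φ = H.SM (fun v => c * Φ v) := by
  unfold HData.SM
  rw [← lintegral_const_mul' _ _ hc]
  refine lintegral_congr fun x => ?_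
  rw [← lintegral_const_mul' _ _ hc]

private theorem LowerX_mono {Φ₁ Φ₂ : Ev n × Ev n → ℝ≥0∞}
    (h : ∀ v : Ev n × Ev n, ‖v.2‖ = 1 → Φ₁ v ≤ Φ₂ v) : H.SM Φ₁ ≤ H.SM Φ₂ := by
  unfold HData.SM
  exact lintegral_mono fun x => lintegral_mono fun ω =>
    h (x, (ω : Ev n)) (norm_eq_of_mem_sphere ω)

theorem pair_lowerX (hn : 2 ≤ n) (hX : k.Margin X) {C : ℝ} (hC0 : 0 ≤ C)
    (hC : ∀ r c c', 0 < r → |c| ≤ 1 → |c'| ≤ 1 →
      |k.B k.Hm r c c'| * Real.sinh r ^ (n - 1) + X r c c' ≤ C * Real.sinh r ^ (n - 1))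
    {K : Set (Ev n)} (hK : IsCompact K)
    {u : Ev n → ℝ} (hu : ContDiff ℝ 1 u) (hs : tsupport u ⊆ K) (h0 : ∀ y, 0 ≤ u y)
    (h1 : ∀ y, u y ≤ 1) :
    ENNReal.ofReal (k.d * (n * om n * ∫ x, u x ^ 2 ∂H.vol) + C * H.A u ^ 2)
      ≤ H.SM (H.LkX k X C u) + ENNReal.ofReal (k.K' * H.A u) := by
  have hn1 : 1 ≤ n := by omega
  have hsc : HasCompactSupport u := hK.of_isClosed_subset (isClosed_tsupport u) hs
  obtain ⟨W, hW, hW1⟩ := H.exists_weight_one hK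
  -- the four functions
  set Φ₁ : Ev n × Ev n → ℝ≥0∞ := fun v => ENNReal.ofReal (u v.1 ^ 2) with hΦ₁
  set Φ₃ : Ev n × Ev n → ℝ≥0∞ := fun v => ENNReal.ofReal (‖H.gr u v.1‖
      * (|H.cs u v| * k.f |H.cs u v|)) with hΦ₃
  have m₁ : Measurable Φ₁ :=
    (ENNReal.continuous_ofReal.comp ((hu.continuous.comp continuous_fst).pow 2)).measurable
  have m₂ : Measurable (H.LkX k X C u) := H.LkX_measurable k hn hX C hu
  have m₄ : Measurable (H.LkC C u) := H.LkC_measurable C hu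
  have m₃ : Measurable Φ₃ := by
    have hcs : Measurable (fun v => |H.cs u v|) := (H.cs_measurable hu).abs
    have hg : Measurable (fun v : Ev n × Ev n => ‖H.gr u v.1‖) :=
      ((H.gr_cont hu).norm.comp continuous_fst).measurable
    exact (hg.mul (hcs.mul (k.f_cont.measurable.comp hcs))).ennreal_ofReal
  have z₁ : ∀ v : Ev n × Ev n, v.1 ∉ K → Φ₁ v = 0 := by
    intro v hv
    show ENNReal.ofReal (u v.1 ^ 2) = 0
    rw [image_eq_zero_of_notMem_tsupport (fun h => hv (hs h))]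
    norm_num
  have z₂ : ∀ v : Ev n × Ev n, v.1 ∉ K → H.LkX k X C u v = 0 := by
    intro v hv
    unfold HDataH.LkX
    rw [H.gr_zero_of_not_mem (fun h => hv (hs h))]
    simp
  have z₄ : ∀ v : Ev n × Ev n, v.1 ∉ K → H.LkC C u v = 0 := by
    intro v hv
    unfold HDataH.LkC
    rw [H.gr_zero_of_not_mem (fun h => hv (hs h))]
    simp
  have z₃ : ∀ v : Ev n × Ev n, v.1 ∉ K → Φ₃ v = 0 := by
    intro v hv
    show ENNReal.ofReal (‖H.gr u v.1‖ * (|H.cs u v| * k.f |H.cs u v|)) = 0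
    rw [H.gr_zero_of_not_mem (fun h => hv (hs h)), norm_zero, zero_mul, ENNReal.ofReal_zero]
  have w₁ := H.SM_weight hn1 W hW hW1 Φ₁ m₁ z₁
  have w₂ := H.SM_weight hn1 W hW hW1 (H.LkX k X C u) m₂ z₂
  have w₃ := H.SM_weight hn1 W hW hW1 Φ₃ m₃ z₃
  have w₄ := H.SM_weight hn1 W hW hW1 (H.LkC C u) m₄ z₄
  have hi0 : 0 ≤ (n : ℝ) * om n * ∫ x, u x ^ 2 ∂H.vol :=
    mul_nonneg (mul_nonneg (Nat.cast_nonneg n) ENNReal.toReal_nonneg)
      (integral_nonneg fun x => sq_nonneg _)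
  have hL : ENNReal.ofReal (k.d * (n * om n * ∫ x, u x ^ 2 ∂H.vol) + C * H.A u ^ 2)
      = ENNReal.ofReal k.d * H.SM Φ₁ + H.SM (H.LkC C u) := by
    rw [ENNReal.ofReal_add (mul_nonneg k.d_pos.le hi0) (mul_nonneg hC0 (sq_nonneg _)),
      ENNReal.ofReal_mul k.d_pos.le, H.SM_base hu.continuous hsc, H.SM_LkC hn hC0 hu hsc]
  have mA : Measurable (fun v => ENNReal.ofReal k.d * (W v * ∫⁻ s : ℝ, Φ₁ (H.fl s v))) :=
    (hW.mul (H.LowerX_meas m₁)).const_mul _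
  rw [hL, ← w₁, ← w₄, H.LowerX_const _ ENNReal.ofReal_ne_top,
    ← H.LowerX_add (fun v => ENNReal.ofReal k.d * (W v * ∫⁻ s : ℝ, Φ₁ (H.fl s v)))
      (fun v => W v * ∫⁻ s : ℝ, H.LkC C u (H.fl s v)) mA]
  have hmono : H.SM (fun v => ENNReal.ofReal k.d * (W v * ∫⁻ s : ℝ, Φ₁ (H.fl s v))
        + W v * ∫⁻ s : ℝ, H.LkC C u (H.fl s v))
      ≤ H.SM (fun v => W v * (∫⁻ s : ℝ, H.LkX k X C u (H.fl s v))
        + W v * ∫⁻ s : ℝ, Φ₃ (H.fl s v)) := by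
    refine H.LowerX_mono fun v hv => ?_
    rw [mul_left_comm, ← mul_add, ← mul_add]
    exact mul_le_mul' le_rfl (H.line_ineqX k hn hX hC hK hu hs h0 h1 v hv)
  refine hmono.trans ?_
  rw [H.LowerX_add (fun v => W v * ∫⁻ s : ℝ, H.LkX k X C u (H.fl s v))
    (fun v => W v * ∫⁻ s : ℝ, Φ₃ (H.fl s v)) (hW.mul (H.LowerX_meas m₂)), w₂, w₃]
  exact add_le_add le_rfl (H.SM_boundaryH k hn hu hsc)

end HDataH

end Vale.Agent.Lib.P219
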