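import Vale.Agent.Lib.P219.K.Ri.Bt2
import Vale.Agent.Lib.P219.K.Ri.LineX
import Vale.Agent.Lib.P219.K.PolarH

/-!
# P219 rigidity, curvature `≤ -1`: the defect is controlled by the slack

Polar coordinates as in `Ri/Slack` and `K/PolarH` (`SM_LkH_le`).  Pointwise for `w = t ω`, `t > 0`
(`Bt_lower2`, `N_nonneg`, `one_le_Qn`):
`(B sinh^(n-1) - X + C th t^(n-1)) + dfc t^(n-1) ≤ (Bt + C) th t^(n-1)`, and both terms on the left are
nonnegative (`hC`, `sinh_pow_le_th`).  Use `le_lintegral_add`, `lintegral_mono`.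
-/

namespace Vale.Agent.Lib.P219

open MeasureTheory Set Filter Topology
open scoped ENNReal

namespace HDataH

variable {n : ℕ} (H : HDataH n) (k : KerH n) {X : ℝ → ℝ → ℝ → ℝ}

private theorem slx_abs_cy (u : Ev n → ℝ) (x w : Ev n) : |H.cy u x w| ≤ 1 := by
  unfold HData.cy
  have h := abs_real_inner_div_norm_mul_norm_le_one (H.gr u (H.Ex x w)) (H.ve x w)
  rw [H.norm_ve] at h
  rwa [neg_div, abs_neg]

private theorem slx_abs_cx (u : Ev n → ℝ) (x w : Ev n) : |H.cx u x w| ≤ 1 := by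
  unfold HData.cx
  exact abs_real_inner_div_norm_mul_norm_le_one (H.gr u x) w

private theorem slx_cy_smul (u : Ev n → ℝ) (x ω : Ev n) (hω : ‖ω‖ = 1) {t : ℝ} (ht : 0 < t) :
    H.cy u x (t • ω) = -(H.cs u (H.fl t (x, ω))) := by
  unfold HData.cy HData.cs
  rw [H.Ex_smul, H.ve_smul, norm_smul, hω, mul_one, Real.norm_of_nonneg ht.le,
    real_inner_smul_right, neg_div]
  congr 1
  rw [mul_comm t, mul_div_mul_right _ _ ht.ne']

private theorem slx_cx_smul (u : Ev n → ℝ) (x ω : Ev n) (hω : ‖ω‖ = 1) {t : ℝ} (ht : 0 < t) :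
    H.cx u x (t • ω) = H.cs u (x, ω) := by
  unfold HData.cx HData.cs
  rw [norm_smul, hω, mul_one, Real.norm_of_nonneg ht.le, real_inner_smul_right]
  rw [mul_comm t, mul_div_mul_right _ _ ht.ne']

private theorem slx_meas3 {α : Type*} [MeasurableSpace α] {F : ℝ → ℝ → ℝ → ℝ}
    (hF : Measurable (fun p : ℝ × ℝ × ℝ => F p.1 p.2.1 p.2.2)) {a b c : α → ℝ}
    (ha : Measurable a) (hb : Measurable b) (hc : Measurable c) :
    Measurable (fun x => F (a x) (b x) (c x)) :=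
  hF.comp (ha.prodMk (hb.prodMk hc))

private theorem slx_slice {F : Ev n → Ev n → ℝ}
    (hF : Measurable (fun p : Ev n × Ev n => F p.1 p.2)) (x : Ev n) : Measurable (F x) :=
  hF.comp measurable_prodMk_left

/-- the integrand of the chord functional in the variable `w` -/
private noncomputable def slxF (X : ℝ → ℝ → ℝ → ℝ) (C : ℝ) (u : Ev n → ℝ) (x w : Ev n) : ℝ≥0∞ :=
  ENNReal.ofReal (‖H.gr u x‖ * ‖H.gr u (H.Ex x w)‖
    * (k.B k.Hm ‖w‖ (H.cy u x w) (H.cx u x w) * (Real.sinh ‖w‖ / ‖w‖) ^ (n - 1)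
      - X ‖w‖ (H.cy u x w) (H.cx u x w) / ‖w‖ ^ (n - 1) + C * H.th x w))

private theorem slxF_meas (hn : 2 ≤ n) (hX : k.Margin X) (C : ℝ) {u : Ev n → ℝ}
    (hu : ContDiff ℝ 1 u) (x : Ev n) : Measurable (H.slxF k X C u x) := by
  have hgr : Measurable (fun x => ‖H.gr u x‖) := (H.gr_cont hu).norm.measurable
  have hEx : Measurable (fun w => H.Ex x w) :=
    (H.Ex_cont.comp (continuous_const.prodMk continuous_id)).measurable
  have hgr' : Measurable (fun w => ‖H.gr u (H.Ex x w)‖) := hgr.comp hEx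
  have hcy : Measurable (H.cy u x) := slx_slice (H.cy_measurable hu) x
  have hcx : Measurable (H.cx u x) := slx_slice (H.cx_measurable hu) x
  have hth : Measurable (fun w => H.th x w) :=
    (H.th_cont.comp (continuous_const.prodMk continuous_id)).measurable
  have hB : Measurable (fun w : Ev n => k.B k.Hm ‖w‖ (H.cy u x w) (H.cx u x w)) :=
    slx_meas3 (k.B_measurable hn k.Hm) measurable_norm hcy hcx
  have hXm : Measurable (fun w : Ev n => X ‖w‖ (H.cy u x w) (H.cx u x w)) :=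
    slx_meas3 hX.meas measurable_norm hcy hcx
  have hs : Measurable (fun w : Ev n => (Real.sinh ‖w‖ / ‖w‖) ^ (n - 1)) :=
    ((Real.continuous_sinh.measurable.comp measurable_norm).div measurable_norm).pow_const _
  have hd : Measurable (fun w : Ev n => ‖w‖ ^ (n - 1)) := measurable_norm.pow_const _
  unfold slxF
  exact ((hgr'.const_mul _).mul (((hB.mul hs).sub (hXm.div hd)).add
    (hth.const_mul C))).ennreal_ofReal

private theorem slxF_polar (hn : 2 ≤ n) (hX : k.Margin X) (C : ℝ) {u : Ev n → ℝ}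
    (hu : ContDiff ℝ 1 u) (x : Ev n) :
    ∫⁻ ω : Metric.sphere (0 : Ev n) 1, H.LkX k X C u (x, (ω : Ev n))
      ∂(volume : Measure (Ev n)).toSphere = ∫⁻ w, H.slxF k X C u x w := by
  rw [lintegral_polar (by omega) _ (H.slxF_meas k hn hX C hu x)]
  refine lintegral_congr fun ω => ?_
  have hω : ‖(ω : Ev n)‖ = 1 := by simp
  unfold LkX
  refine setLIntegral_congr_fun measurableSet_Ioi fun t ht => ?_
  have ht' : 0 < t := ht
  have e1 : ‖t • (ω : Ev n)‖ = t := by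
    rw [norm_smul, hω, mul_one, Real.norm_of_nonneg ht'.le]
  show _ = H.slxF k X C u x (t • (ω : Ev n)) * ENNReal.ofReal (t ^ (n - 1))
  unfold slxF
  rw [e1, H.Ex_smul, slx_cy_smul H u x ω hω ht', slx_cx_smul H u x ω hω ht',
    ← ENNReal.ofReal_mul' (by positivity)]
  congr 1
  have hp : t ^ (n - 1) ≠ 0 := by positivity
  rw [div_pow]
  field_simp

private theorem slx_point (hn : 2 ≤ n) (hX : k.Margin X) {C : ℝ} (hC0 : 0 ≤ C)
    (hC : ∀ r c c', 0 < r → |c| ≤ 1 → |c'| ≤ 1 →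
      |k.B k.Hm r c c'| * Real.sinh r ^ (n - 1) + X r c c' ≤ C * Real.sinh r ^ (n - 1))
    (x w : Ev n) (hw : w ≠ 0) {c c' : ℝ} (hc : |c| ≤ 1) (hc' : |c'| ≤ 1) :
    0 ≤ k.B k.Hm ‖w‖ c c' * (Real.sinh ‖w‖ / ‖w‖) ^ (n - 1)
      - X ‖w‖ c c' / ‖w‖ ^ (n - 1) + C * H.th x w ∧
    0 ≤ H.dfc k X x w c c' ∧
    (k.B k.Hm ‖w‖ c c' * (Real.sinh ‖w‖ / ‖w‖) ^ (n - 1)
      - X ‖w‖ c c' / ‖w‖ ^ (n - 1) + C * H.th x w) + H.dfc k X x w c c'
      ≤ (H.Bt k k.Hm x w c c' + C) * H.th x w := by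
  have hw' : 0 < ‖w‖ := norm_pos_iff.2 hw
  have hs : 0 < Real.sinh ‖w‖ := Real.sinh_pos_iff.2 hw'
  have hp : 0 < ‖w‖ ^ (n - 1) := pow_pos hw' _
  have hQ := H.one_le_Qn (by omega) x w hw
  have hN := k.N_nonneg hw' hc hc'
  have hX0 := hX.nonneg ‖w‖ c c'
  have hth : (Real.sinh ‖w‖ / ‖w‖) ^ (n - 1) ≤ H.th x w := by
    unfold Qn at hQ
    rw [div_pow, mul_div_assoc', le_div_iff₀ (by positivity), one_mul] at hQ
    rw [div_pow, div_le_iff₀ hp]
    exact hQ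
  have h1 := hC ‖w‖ c c' hw' hc hc'
  have h2 : |k.B k.Hm ‖w‖ c c'| * (Real.sinh ‖w‖ / ‖w‖) ^ (n - 1) + X ‖w‖ c c' / ‖w‖ ^ (n - 1)
      ≤ C * (Real.sinh ‖w‖ / ‖w‖) ^ (n - 1) := by
    rw [div_pow, mul_div_assoc', mul_div_assoc', ← add_div]
    exact div_le_div_of_nonneg_right h1 hp.le
  have h3 : C * (Real.sinh ‖w‖ / ‖w‖) ^ (n - 1) ≤ C * H.th x w := mul_le_mul_of_nonneg_left hth hC0
  have hs0 : 0 ≤ (Real.sinh ‖w‖ / ‖w‖) ^ (n - 1) := by positivity
  have h4 : -(|k.B k.Hm ‖w‖ c c'| * (Real.sinh ‖w‖ / ‖w‖) ^ (n - 1))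
      ≤ k.B k.Hm ‖w‖ c c' * (Real.sinh ‖w‖ / ‖w‖) ^ (n - 1) := by
    rw [← neg_mul]
    exact mul_le_mul_of_nonneg_right (neg_abs_le _) hs0
  have h5 := H.Bt_lower2 k hn x w hw hc hc'
  refine ⟨by linarith, ?_, ?_⟩
  · unfold dfc
    have : 0 ≤ H.Qn x w - 1 := by linarith
    positivity
  · unfold dfc
    have e : (H.Bt k k.Hm x w c c' + C) * H.th x w
        = H.Bt k k.Hm x w c c' * H.th x w + C * H.th x w := by ring
    rw [e]
    linarith

theorem slackX (hn : 2 ≤ n) (hX : k.Margin X) {C : ℝ} (hC0 : 0 ≤ C)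
    (hC : ∀ r c c', 0 < r → |c| ≤ 1 → |c'| ≤ 1 →
      |k.B k.Hm r c c'| * Real.sinh r ^ (n - 1) + X r c c' ≤ C * Real.sinh r ^ (n - 1))
    {u : Ev n → ℝ} (hu : ContDiff ℝ 1 u) :
    H.SM (H.LkX k X C u) + H.DefX k X u ≤ H.PairT k k.Hm C u := by
  have hnt : Nontrivial (Ev n) := by
    have : Nonempty (Fin n) := ⟨⟨0, by omega⟩⟩
    infer_instance
  have hae : ∀ᵐ w : Ev n ∂volume, w ≠ 0 :=
    compl_mem_ae_iff.2 (measure_singleton (0 : Ev n))
  unfold HData.SM DefX PairT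
  refine (le_lintegral_add _ _).trans (lintegral_mono fun x => ?_)
  show (∫⁻ ω : Metric.sphere (0 : Ev n) 1, H.LkX k X C u (x, (ω : Ev n))
      ∂(volume : Measure (Ev n)).toSphere) + ENNReal.ofReal ‖H.gr u x‖ * H.GkX k X u x
    ≤ ∫⁻ w, ENNReal.ofReal (‖H.gr u x‖ * ‖H.gr u (H.Ex x w)‖
    * (H.Bt k k.Hm x w (H.cy u x w) (H.cx u x w) + C) * H.th x w)
  rw [H.slxF_polar k hn hX C hu x]
  unfold GkX
  rw [← lintegral_const_mul' _ _ ENNReal.ofReal_ne_top]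
  refine (le_lintegral_add _ _).trans (lintegral_mono_ae ?_)
  filter_upwards [hae] with w hw
  obtain ⟨p1, p2, p3⟩ := H.slx_point k hn hX hC0 hC x w hw (slx_abs_cy H u x w)
    (slx_abs_cx H u x w)
  unfold slxF
  rw [← ENNReal.ofReal_mul (norm_nonneg _), ← ENNReal.ofReal_add (by positivity)
    (by positivity)]
  refine ENNReal.ofReal_le_ofReal ?_
  have h := mul_le_mul_of_nonneg_left p3
    (show 0 ≤ ‖H.gr u x‖ * ‖H.gr u (H.Ex x w)‖ by positivity)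
  calc _ = ‖H.gr u x‖ * ‖H.gr u (H.Ex x w)‖
        * (k.B k.Hm ‖w‖ (H.cy u x w) (H.cx u x w) * (Real.sinh ‖w‖ / ‖w‖) ^ (n - 1)
          - X ‖w‖ (H.cy u x w) (H.cx u x w) / ‖w‖ ^ (n - 1) + C * H.th x w
          + H.dfc k X x w (H.cy u x w) (H.cx u x w)) := by ring
    _ ≤ _ := h
    _ = _ := by ring

end HDataH

end Vale.Agent.Lib.P219
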