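import Vale.Agent.Lib.P219.K.Ri.LowerX
import Vale.Agent.Lib.P219.K.Ri.SlackX
import Vale.Agent.Lib.P219.K.MainH

/-!
# P219 rigidity, curvature `≤ -1`: the defect of a near minimiser

As `Ri/Near` and `mainH_ineq` in `K/MainH`: with `C = C₀ + CX` (`exists_bound`, `hX.le`)
`pair_lowerX + slackX + pairT_upper` give `X₀ + C A² + Def ≤ (a + C) A² + ε A + K' A`, where
`X₀ = d n ω ∫ u² ≥ d n ω (1 - h) V`.
-/

namespace Vale.Agent.Lib.P219

open MeasureTheory Set Filter Topology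
open scoped ENNReal

namespace HDataH

variable {n : ℕ} (H : HDataH n) (k : KerH n) {X : ℝ → ℝ → ℝ → ℝ}

private theorem nearX_K'_nonneg (hn : 2 ≤ n) : 0 ≤ k.K' := by
  have he : ‖(EuclideanSpace.single (⟨0, by omega⟩ : Fin n) (1 : ℝ) : Ev n)‖ = 1 := by
    simp
  refine le_trans ?_ (k.K'_bound _ he)
  exact integral_nonneg fun ω => mul_nonneg (abs_nonneg _) (k.f_nonneg _)

private theorem nearX_sq (H : HData n) {K : Set (Ev n)} (hK : IsCompact K) {h : ℝ} {u : Ev n → ℝ}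
    (hu : H.Adm K h u) : (1 - h) * H.V u ≤ ∫ x, u x ^ 2 ∂H.vol := by
  have hs : HasCompactSupport u := hK.of_isClosed_subset (isClosed_tsupport u) hu.supp
  have hi : Integrable u H.vol := H.integrable_of_continuous hu.smooth.continuous hs
  have hs2 : HasCompactSupport (fun x => u x ^ 2) := by
    refine HasCompactSupport.intro hs fun x hx => ?_
    rw [image_eq_zero_of_notMem_tsupport hx]
    norm_num
  have hi2 : Integrable (fun x => u x ^ 2) H.vol :=
    H.integrable_of_continuous (hu.smooth.continuous.pow 2) hs2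
  have h1 : ∫ x, u x * (1 - u x) ∂H.vol = H.V u - ∫ x, u x ^ 2 ∂H.vol := by
    unfold HData.V
    rw [← integral_sub hi hi2]
    refine integral_congr_ae (Filter.Eventually.of_forall fun x => ?_)
    show u x * (1 - u x) = u x - u x ^ 2
    ring
  have h2 := hu.layer
  rw [h1] at h2
  linarith

private theorem nearX_A_nonneg (H : HData n) (u : Ev n → ℝ) : 0 ≤ H.A u := by
  unfold HData.A
  exact integral_nonneg fun x => norm_nonneg _

theorem DefX_le (hn : 2 ≤ n) (hX : k.Margin X) {K : Set (Ev n)}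
    (hK : IsCompact K) {h : ℝ} {u : Ev n → ℝ} (hu : H.Adm K h u) {ε : ℝ} (hε : 0 ≤ ε)
    (hE : ∀ x ∈ K, ∀ e : Ev n, ‖e‖ = 1 → H.FV k.gh u 1 x e + H.FX k u x e
      - k.Hm * H.FV (fun r c c' => c * k.η r c') u 1 x e ≤ ε) :
    H.DefX k X u ≤ ENNReal.ofReal (k.a * H.A u ^ 2 + (ε + k.K') * H.A u
      - k.d * (n * om n * ((1 - h) * H.V u))) := by
  obtain ⟨C₀, hC₀, hCb⟩ := k.exists_bound hn
  obtain ⟨CX, hCX0, hCX⟩ := hX.le
  obtain ⟨C, hC⟩ : ∃ C, C = C₀ + CX := ⟨_, rfl⟩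
  have hC0 : 0 ≤ C := by rw [hC]; linarith
  have hC₀C : C₀ ≤ C := by rw [hC]; linarith
  have hbd : ∀ r c c', 0 < r → |c| ≤ 1 → |c'| ≤ 1 →
      |k.B k.Hm r c c'| * Real.sinh r ^ (n - 1) + X r c c' ≤ C * Real.sinh r ^ (n - 1) := by
    intro r c c' hr hc hc'
    have h1 := (hCb k.Hm k.Hm_pos.le le_rfl r c c' hc hc').2.2
    have h2 := hCX r c c' hr
    have h3 : 0 ≤ Real.sinh r ^ (n - 1) := pow_nonneg (Real.sinh_pos_iff.2 hr).le _
    have h4 := mul_le_mul_of_nonneg_right h1 h3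
    rw [hC, add_mul]
    linarith
  have hL := H.pair_lowerX k hn hX hC0 hbd hK hu.smooth hu.supp hu.nonneg hu.le_one
  have hS := H.slackX k hn hX hC0 hbd hu.smooth
  have hU := H.pairT_upper k hn k.Hm_pos.le le_rfl (C := C)
    (fun r c c' hc hc' => by
      obtain ⟨h1, h2, h3⟩ := hCb k.Hm k.Hm_pos.le le_rfl r c c' hc hc'
      exact ⟨h1.trans hC₀C, h2.trans hC₀C, h3.trans hC₀C⟩) hK
    hu.smooth hu.supp hε hE
  have hK' : 0 ≤ k.K' := nearX_K'_nonneg k hn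
  have hA : 0 ≤ H.A u := nearX_A_nonneg H.toHData u
  have ha := k.a_pos
  have hd := k.d_pos
  have hom : 0 ≤ om n := ENNReal.toReal_nonneg
  have h5 : k.d * (n * om n * ((1 - h) * H.V u)) + C * H.A u ^ 2
      ≤ k.d * (n * om n * ∫ x, u x ^ 2 ∂H.vol) + C * H.A u ^ 2 := by
    refine add_le_add ?_ le_rfl
    refine mul_le_mul_of_nonneg_left ?_ hd.le
    exact mul_le_mul_of_nonneg_left (nearX_sq H.toHData hK hu) (by positivity)
  obtain ⟨W, hW⟩ : ∃ W, W = k.d * (n * om n * ((1 - h) * H.V u)) + C * H.A u ^ 2 := ⟨_, rfl⟩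
  obtain ⟨Y, hY⟩ : ∃ Y, Y = (k.a + C) * H.A u ^ 2 + ε * H.A u := ⟨_, rfl⟩
  obtain ⟨Z, hZ⟩ : ∃ Z, Z = k.K' * H.A u := ⟨_, rfl⟩
  rw [← hW] at h5
  rw [← hY] at hU
  rw [← hZ] at hL
  have hY0 : 0 ≤ Y := by rw [hY]; positivity
  have hZ0 : 0 ≤ Z := by rw [hZ]; positivity
  have hfin : k.a * H.A u ^ 2 + (ε + k.K') * H.A u - k.d * (n * om n * ((1 - h) * H.V u))
      = (Y + Z) - W := by
    rw [hW, hY, hZ]
    ring
  rw [hfin]
  have h9 : ENNReal.ofReal W + H.DefX k X u ≤ ENNReal.ofReal W + ENNReal.ofReal (Y + Z - W) := by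
    calc ENNReal.ofReal W + H.DefX k X u
        ≤ (H.SM (H.LkX k X C u) + ENNReal.ofReal Z) + H.DefX k X u :=
          add_le_add ((ENNReal.ofReal_le_ofReal h5).trans hL) le_rfl
      _ = (H.SM (H.LkX k X C u) + H.DefX k X u) + ENNReal.ofReal Z := by ring
      _ ≤ ENNReal.ofReal Y + ENNReal.ofReal Z := add_le_add (hS.trans hU) le_rfl
      _ = ENNReal.ofReal (W + (Y + Z - W)) := by
          rw [← ENNReal.ofReal_add hY0 hZ0]
          congr 1
          ring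
      _ ≤ _ := ENNReal.ofReal_add_le
  exact (ENNReal.add_le_add_iff_left ENNReal.ofReal_ne_top).1 h9

end HDataH

end Vale.Agent.Lib.P219
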