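import Vale.Agent.Lib.P219.K.Basic

/-!
# P219, curvature `≤ -1`: equality in the Jacobian comparison

`Qn x w` is the absolute value of the determinant of `T = P x w ∘ S`, where `S` is the identity on
`ℝ w` and multiplication by `‖w‖ / sinh ‖w‖` on `w^⊥` (see `one_le_Qn` in K/Basic); `‖T ξ‖ ≥ ‖ξ‖`
(`P_perp_ge`, Gauss lemma).  If `|det T| = 1` then `T` is an isometry (`LA.norm_eq_of_abs_det_le`).
Monotonicity along rays: `P_monoH`, see `det_ratio` in K/Basic.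
-/

namespace Vale.Agent.Lib.P219

namespace HDataH

variable {n : ℕ} (H : HDataH n)

/-- a map which does not decrease norms and has `|det| ≤ 1` is an isometry -/
private theorem qe_iso {n : ℕ} (P : Ev n →L[ℝ] Ev n) (h : ∀ ξ, ‖ξ‖ ≤ ‖P ξ‖)
    (hd : |P.det| ≤ 1) (ξ : Ev n) : ‖P ξ‖ = ‖ξ‖ := by
  have hinj' : Function.Injective (P : Ev n →ₗ[ℝ] Ev n) := by
    rw [← LinearMap.ker_eq_bot, LinearMap.ker_eq_bot']
    intro m hm
    have h1 := h m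
    have h2 : P m = 0 := hm
    rw [h2, norm_zero] at h1
    exact norm_le_zero_iff.mp h1
  have hsurj : Function.Surjective (P : Ev n →ₗ[ℝ] Ev n) :=
    LinearMap.injective_iff_surjective.mp hinj'
  set E : Ev n ≃ₗ[ℝ] Ev n := LinearEquiv.ofBijective (P : Ev n →ₗ[ℝ] Ev n) ⟨hinj', hsurj⟩ with hE
  have hE1 : ∀ ξ, E ξ = P ξ := fun ξ => rfl
  set A : Ev n →L[ℝ] Ev n := LinearMap.toContinuousLinearMap (E.symm : Ev n →ₗ[ℝ] Ev n) with hA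
  have hAP : ∀ ξ, A (P ξ) = ξ := by
    intro ξ
    rw [hA, ← hE1]
    simp
  have hAc : ∀ η, ‖A η‖ ≤ ‖η‖ := by
    intro η
    obtain ⟨ζ, hζ⟩ := hsurj η
    have hζ' : P ζ = η := hζ
    rw [← hζ', hAP]
    exact h ζ
  have hdet : A.det * P.det = 1 := by
    have e : (A : Ev n →ₗ[ℝ] Ev n) ∘ₗ (P : Ev n →ₗ[ℝ] Ev n) = LinearMap.id := by
      ext1 ξ
      exact hAP ξ
    have h2 := congrArg LinearMap.det e
    rw [LinearMap.det_comp, LinearMap.det_id] at h2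
    exact h2
  have h1 : |A.det| * |P.det| = 1 := by rw [← abs_mul, hdet, abs_one]
  have h2 : 1 ≤ |A.det| := by
    have h3 : |A.det| * |P.det| ≤ |A.det| * 1 :=
      mul_le_mul_of_nonneg_left hd (abs_nonneg _)
    linarith
  have h4 := LA.abs_det_mul_norm_le A hAc (P ξ)
  rw [hAP] at h4
  refine le_antisymm ?_ (h ξ)
  calc ‖P ξ‖ = 1 * ‖P ξ‖ := (one_mul _).symm
    _ ≤ |A.det| * ‖P ξ‖ := mul_le_mul_of_nonneg_right h2 (norm_nonneg _)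
    _ ≤ ‖ξ‖ := h4

/-- the unit vector in the direction of `w` -/
private theorem qe_unit (w : Ev n) (hw : w ≠ 0) :
    ∃ e : Ev n, ‖e‖ = 1 ∧ w = ‖w‖ • e ∧ 0 < ‖w‖ := by
  have hw' : 0 < ‖w‖ := norm_pos_iff.2 hw
  refine ⟨‖w‖⁻¹ • w, ?_, ?_, hw'⟩
  · rw [norm_smul, norm_inv, norm_norm, inv_mul_cancel₀ hw'.ne']
  · rw [smul_smul, mul_inv_cancel₀ hw'.ne', one_smul]

private theorem qe_gauss (x e ξ : Ev n) {r : ℝ} (hr : r ≠ 0) :
    inner ℝ (H.P x (r • e) e) (H.P x (r • e) ξ) = inner ℝ e ξ := by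
  have h1 : inner ℝ (H.toHData.ve x (r • e)) (H.P x (r • e) ξ) = inner ℝ (r • e) ξ :=
    H.P_gauss x (r • e) ξ
  rw [← H.toHData.P_self, map_smul, real_inner_smul_left, real_inner_smul_left] at h1
  exact mul_left_cancel₀ hr h1

/-- Pythagoras for a map which is isometric in the direction `ω` -/
private theorem qe_pyth (P : Ev n →L[ℝ] Ev n) (ω : Ev n)
    (hω : ‖ω‖ = 1) (hg : ∀ ξ, inner ℝ (P ω) (P ξ) = inner ℝ ω ξ) (a : ℝ) (ξ : Ev n) :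
    ‖P.comp (LA.Dm a 1 ω 0) ξ‖ ^ 2
      = (a * ‖P (ξ - (inner ℝ ω ξ : ℝ) • ω)‖) ^ 2 + (inner ℝ ω ξ : ℝ) ^ 2 := by
  set c : ℝ := inner ℝ ω ξ with hc
  have hωω : (inner ℝ ω ω : ℝ) = 1 := by rw [real_inner_self_eq_norm_sq, hω, one_pow]
  have h0 : (inner ℝ ω (ξ - c • ω) : ℝ) = 0 := by
    rw [inner_sub_right, inner_smul_right, hωω, ← hc]
    ring
  have h1 : LA.Dm a 1 ω 0 ξ = a • (ξ - c • ω) + c • ω := by
    rw [LA.Dm_apply, add_zero, inner_smul_left, ← hc, conj_trivial, smul_sub, smul_smul]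
    rw [sub_mul, one_mul, sub_smul]
    abel
  have h2 : P.comp (LA.Dm a 1 ω 0) ξ = a • P (ξ - c • ω) + c • P ω := by
    rw [ContinuousLinearMap.comp_apply, h1, map_add, map_smul, map_smul]
  have h3 : ‖P ω‖ ^ 2 = 1 := by
    rw [← real_inner_self_eq_norm_sq, hg, hωω]
  have h4 : (inner ℝ (P (ξ - c • ω)) (P ω) : ℝ) = 0 := by
    rw [real_inner_comm, hg, h0]
  rw [h2, norm_add_sq_real, norm_smul, norm_smul, inner_smul_left, inner_smul_right, h4,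
    mul_pow, mul_pow, mul_pow, h3, Real.norm_eq_abs, Real.norm_eq_abs, sq_abs, sq_abs]
  ring

private theorem qe_det (hn : 1 ≤ n) (P : Ev n →L[ℝ] Ev n) (ω : Ev n)
    (hω : ‖ω‖ = 1) {a : ℝ} (ha : 0 ≤ a) :
    |(P.comp (LA.Dm a 1 ω 0)).det| = a ^ (n - 1) * |P.det| := by
  have h1 : (P.comp (LA.Dm a 1 ω 0)).det = P.det * (LA.Dm a 1 ω 0).det := by
    show LinearMap.det ((P : Ev n →ₗ[ℝ] Ev n) ∘ₗ (LA.Dm a 1 ω 0 : Ev n →ₗ[ℝ] Ev n)) = _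
    rw [LinearMap.det_comp]
  rw [h1, LA.det_Dm hn a 1 ω 0 hω (inner_zero_left ω), one_mul, abs_mul,
    abs_of_nonneg (pow_nonneg ha _), mul_comm]

theorem Qn_mono (hn : 1 ≤ n) (x w : Ev n) (hw : w ≠ 0) {t : ℝ} (ht : 1 ≤ t) :
    H.Qn x w ≤ H.Qn x (t • w) := by
  obtain ⟨e, he, hwe, hw'⟩ := qe_unit w hw
  have ht0 : 0 < t := by linarith
  have hs : 0 < t * ‖w‖ := mul_pos ht0 hw'
  have hS : 0 < Real.sinh (t * ‖w‖) := Real.sinh_pos_iff.2 hs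
  have hS' : 0 < Real.sinh ‖w‖ := Real.sinh_pos_iff.2 hw'
  have e1 : (t * ‖w‖) • e = t • w := by
    conv_rhs => rw [hwe]
    rw [smul_smul]
  have e2 : ‖t • w‖ = t * ‖w‖ := by
    rw [norm_smul, Real.norm_eq_abs, abs_of_pos ht0]
  have h1 := LA.abs_det_mono_perp hn (H.P x w) (H.P x (t • w)) e he
    (fun ξ => by
      have h := H.qe_gauss x e ξ hw'.ne'
      rwa [← hwe] at h)
    (fun ξ => by
      have h := H.qe_gauss x e ξ hs.ne'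
      rwa [e1] at h)
    (a := ‖w‖ / Real.sinh ‖w‖) (b := t * ‖w‖ / Real.sinh (t * ‖w‖)) (div_pos hw' hS').le
    (div_pos hs hS).le
    (fun ξ hξ => by
      have h := H.P_monoH x e ξ he hξ ‖w‖ (t * ‖w‖) hw' (le_mul_of_one_le_left hw'.le ht)
      rw [← hwe, e1] at h
      rw [mul_comm, mul_comm (t * ‖w‖ / Real.sinh (t * ‖w‖))]
      exact h)
  unfold Qn HData.th
  rw [e2, mul_comm, mul_comm (|(H.P x (t • w)).det|)]
  exact h1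

theorem P_sq_of_Qn (hn : 1 ≤ n) (x w : Ev n) (hw : w ≠ 0) (hQ : H.Qn x w = 1) (ξ : Ev n) :
    ‖H.P x w ξ‖ ^ 2 = (Real.sinh ‖w‖ / ‖w‖) ^ 2 * ‖ξ‖ ^ 2
      + (1 - (Real.sinh ‖w‖ / ‖w‖) ^ 2) * (inner ℝ w ξ / ‖w‖) ^ 2 := by
  obtain ⟨e, he, hwe, hw'⟩ := qe_unit w hw
  have hS' : 0 < Real.sinh ‖w‖ := Real.sinh_pos_iff.2 hw'
  have hn1 : ‖w‖ ≠ 0 := hw'.ne'
  have hn3 : Real.sinh ‖w‖ ≠ 0 := hS'.ne'
  have hee : (inner ℝ e e : ℝ) = 1 := by rw [real_inner_self_eq_norm_sq, he, one_pow]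
  have hg : ∀ ξ, inner ℝ (H.P x w e) (H.P x w ξ) = inner ℝ e ξ := fun ξ => by
    have h := H.qe_gauss x e ξ hw'.ne'
    rwa [← hwe] at h
  -- orthogonal part
  have h0 : ∀ ξ : Ev n, (inner ℝ e (ξ - (inner ℝ e ξ : ℝ) • e) : ℝ) = 0 := fun ξ => by
    rw [inner_sub_right, inner_smul_right, hee]
    ring
  have h0' : ∀ ξ : Ev n, (inner ℝ w (ξ - (inner ℝ e ξ : ℝ) • e) : ℝ) = 0 := fun ξ => by
    rw [hwe, real_inner_smul_left, h0, mul_zero]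
  have hpy : ∀ ξ : Ev n, ‖ξ‖ ^ 2 =
      ‖ξ - (inner ℝ e ξ : ℝ) • e‖ ^ 2 + (inner ℝ e ξ : ℝ) ^ 2 := fun ξ => by
    rw [norm_sub_sq_real, norm_smul, he, mul_one, Real.norm_eq_abs, sq_abs, inner_smul_right,
      real_inner_comm]
    ring
  have hT1 : ∀ ξ, ‖ξ‖ ≤ ‖(H.P x w).comp (LA.Dm (‖w‖ / Real.sinh ‖w‖) 1 e 0) ξ‖ := fun ξ => by
    refine le_of_sq_le_sq ?_ (norm_nonneg _)
    rw [qe_pyth (H.P x w) e he hg, hpy ξ]
    have h1 := H.P_perp_ge x w _ hw (h0' ξ)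
    have h2 : ‖ξ - (inner ℝ e ξ : ℝ) • e‖ ≤
        ‖w‖ / Real.sinh ‖w‖ * ‖H.P x w (ξ - (inner ℝ e ξ : ℝ) • e)‖ := by
      have h3 := mul_le_mul_of_nonneg_left h1 (div_pos hw' hS').le
      refine le_trans (le_of_eq ?_) h3
      field_simp
    have h4 : 0 ≤ ‖ξ - (inner ℝ e ξ : ℝ) • e‖ := norm_nonneg _
    gcongr
  have hT2 : |((H.P x w).comp (LA.Dm (‖w‖ / Real.sinh ‖w‖) 1 e 0)).det| ≤ 1 := by
    rw [qe_det hn (H.P x w) e he (div_pos hw' hS').le]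
    have e1 : |(H.P x w).det| * (‖w‖ / Real.sinh ‖w‖) ^ (n - 1) = H.Qn x w := rfl
    rw [mul_comm, e1, hQ]
  have hT := qe_iso _ hT1 hT2
  have h5 := congrArg (fun s : ℝ => s ^ 2) (hT ξ)
  simp only at h5
  rw [qe_pyth (H.P x w) e he hg, hpy ξ] at h5
  have h6 := qe_pyth (H.P x w) e he hg 1 ξ
  have h7 : (H.P x w).comp (LA.Dm 1 1 e 0) ξ = H.P x w ξ := by
    rw [ContinuousLinearMap.comp_apply, LA.Dm_apply, sub_self, zero_smul, add_zero,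
      inner_zero_left, zero_smul, add_zero, one_smul]
  rw [h7, one_mul] at h6
  have h8 : (inner ℝ w ξ / ‖w‖ : ℝ) = inner ℝ e ξ := by
    have h9 : (inner ℝ w ξ : ℝ) = ‖w‖ * inner ℝ e ξ := by
      conv_lhs => rw [hwe]
      rw [real_inner_smul_left]
    rw [h9]
    field_simp
  rw [h8, h6]
  have h10 : (Real.sinh ‖w‖ / ‖w‖) ^ 2 *
      (‖w‖ / Real.sinh ‖w‖ * ‖H.P x w (ξ - (inner ℝ e ξ : ℝ) • e)‖) ^ 2 =
      ‖H.P x w (ξ - (inner ℝ e ξ : ℝ) • e)‖ ^ 2 := by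
    field_simp
  have h11 : (‖w‖ / Real.sinh ‖w‖ * ‖H.P x w (ξ - (inner ℝ e ξ : ℝ) • e)‖) ^ 2 =
      ‖ξ - (inner ℝ e ξ : ℝ) • e‖ ^ 2 := by linarith
  rw [← h10, h11, hpy ξ]
  ring

end HDataH

end Vale.Agent.Lib.P219
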